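import Mathlib

/-! Row 120: auxiliary lemmas for the amplification (adapted Hilbert bases, index bijection,
diagonal representation). -/

set_option autoImplicit false

open scoped InnerProductSpace
open Filter Topology Submodule

namespace Crest.Agent.R120

section proj

variable {H : Type} [NormedAddCommGroup H] [InnerProductSpace ℂ H] [CompleteSpace H]

theorem amp_mul_le (P : ℕ → (H →L[ℂ] H)) (hproj : ∀ n, IsStarProjection (P n))
    (hanti : ∀ n, P n * P (n + 1) = P (n + 1)) {n m : ℕ} (h : n ≤ m) :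
    P n * P m = P m ∧ P m * P n = P m := by
  have h1 : P n * P m = P m := by
    induction m, h using Nat.le_induction with
    | base => exact (hproj n).isIdempotentElem
    | succ m _ ih => rw [← hanti m, ← mul_assoc, ih]
  refine ⟨h1, ?_⟩
  have := congrArg star h1
  rwa [star_mul, (hproj n).isSelfAdjoint.star_eq, (hproj m).isSelfAdjoint.star_eq] at this

theorem amp_level (P : ℕ → (H →L[ℂ] H)) (hproj : ∀ n, IsStarProjection (P n))
    (hanti : ∀ n, P n * P (n + 1) = P (n + 1)) {j : ℕ} (u : H) (n : ℕ) :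
    P n ((P j - P (j + 1)) u) = if n ≤ j then (P j - P (j + 1)) u else 0 := by
  change (P n * (P j - P (j + 1))) u = _
  split_ifs with h
  · rw [mul_sub, (amp_mul_le P hproj hanti h).1, (amp_mul_le P hproj hanti (h.trans j.le_succ)).1]
  · have h' : j + 1 ≤ n := by omega
    rw [mul_sub, (amp_mul_le P hproj hanti h').2,
      (amp_mul_le P hproj hanti (j.le_succ.trans h')).2, sub_self]
    rfl

theorem amp_orth (P : ℕ → (H →L[ℂ] H)) (hproj : ∀ n, IsStarProjection (P n)) {u w : H}
    {i j : ℕ} (hu : ∀ n, P n u = if n ≤ i then u else 0) (hw : ∀ n, P n w = if n ≤ j then w else 0)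
    (hij : i ≠ j) : ⟪u, w⟫_ℂ = 0 := by
  have hsa : ∀ n (a b : H), ⟪P n a, b⟫_ℂ = ⟪a, P n b⟫_ℂ := fun n a b =>
    (hproj n).isSelfAdjoint.isSymmetric a b
  rcases lt_or_gt_of_ne hij with h | h
  · have := hsa j u w
    rw [hu, hw, if_neg (by omega), if_pos le_rfl, inner_zero_left] at this
    exact this.symm
  · have := hsa i u w
    rw [hu, hw, if_neg (by omega : ¬ i ≤ j), if_pos le_rfl, inner_zero_right] at this
    exact this

theorem amp_adapted_basis (Ω : H) (P : ℕ → (H →L[ℂ] H)) (hproj : ∀ n, IsStarProjection (P n))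
    (hzero : P 0 = 1) (hanti : ∀ n, P n * P (n + 1) = P (n + 1))
    (hlim : ∀ ξ : H, Tendsto (fun n => P n ξ) atTop (𝓝 0))
    (hsep : ∀ j, (P j - P (j + 1)) Ω = 0 → P j - P (j + 1) = 0) :
    ∃ (B : Type) (b : B → H) (lev : B → ℕ) (base : B → Prop), Orthonormal ℂ b ∧
      ⊤ ≤ (span ℂ (Set.range b)).topologicalClosure ∧
      (∀ x n, P n (b x) = if n ≤ lev x then b x else 0) ∧
      (∀ x, (P (lev x) - P (lev x + 1)) Ω ≠ 0) ∧
      (∀ j, (P j - P (j + 1)) Ω ≠ 0 → ∃ x, lev x = j ∧ base x) ∧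
      (∀ x, base x → ∃ c : ℂ, b x = c • (P (lev x) - P (lev x + 1)) Ω) := by
  let q : ℕ → (H →L[ℂ] H) := fun j => P j - P (j + 1)
  have hq : ∀ j u, q j (q j u) = q j u := fun j u => by
    change P j (q j u) - P (j + 1) (q j u) = q j u
    rw [amp_level P hproj hanti, amp_level P hproj hanti, if_pos le_rfl, if_neg (by omega),
      sub_zero]
  let U : ℕ → Submodule ℂ H := fun j => LinearMap.ker ((q j - 1 : H →L[ℂ] H) : H →ₗ[ℂ] H)
  have hU : ∀ j u, u ∈ U j ↔ q j u = u := fun j u => by
    simp [U, sub_eq_zero]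
  have hUc : ∀ j, CompleteSpace (U j) := fun j => (q j - 1).isClosed_ker.completeSpace_coe
  let s : ∀ j, Set (U j) := fun j => {u | q j Ω ≠ 0 ∧ (u : H) = ((‖q j Ω‖⁻¹ : ℝ) : ℂ) • q j Ω}
  have hs : ∀ j, Orthonormal ℂ ((↑) : s j → U j) := fun j => by
    constructor
    · rintro ⟨u, h0, hu⟩
      change ‖(u : H)‖ = 1
      rw [hu, norm_smul, Complex.norm_real, norm_inv, norm_norm,
        inv_mul_cancel₀ (norm_ne_zero_iff.2 h0)]
    · rintro ⟨u, h0, hu⟩ ⟨u', h0', hu'⟩ hne
      exact absurd (Subtype.ext (Subtype.ext (hu.trans hu'.symm))) hne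
  choose w bb hsw hbb using fun j => (hs j).exists_hilbertBasis_extension
  have hlev : ∀ j (u : U j) n, P n (u : H) = if n ≤ j then (u : H) else 0 := fun j u n => by
    have := amp_level P hproj hanti (j := j) (u : H) n
    rwa [show (P j - P (j + 1)) (u : H) = u from (hU j u).1 u.2] at this
  have horth : ∀ j, Orthonormal ℂ ((↑) : w j → U j) := fun j => by
    rw [← hbb j]; exact (bb j).orthonormal
  refine ⟨Σ j, w j, fun x => ((x.2 : U x.1) : H), fun x => x.1,
    fun x => (x.2 : U x.1) ∈ s x.1, ⟨?_, ?_⟩, ?_, ?_, ?_, ?_, ?_⟩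
  · rintro ⟨j, u⟩
    exact (horth j).1 u
  · rintro ⟨i, u⟩ ⟨j, u'⟩ hne
    by_cases hij : i = j
    · subst hij
      have : u ≠ u' := fun h => hne (by rw [h])
      exact (horth i).2 this
    · exact amp_orth P hproj (hlev i u) (hlev j u') hij
  · intro ξ _
    set M := (span ℂ (Set.range fun x : Σ j, w j => ((x.2 : U x.1) : H))).topologicalClosure
    have hM : ∀ j (u : U j), (u : H) ∈ M := by
      intro j u
      have h1 : (span ℂ (Set.range (bb j))).topologicalClosure ≤ M.comap (U j).subtype := by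
        apply Submodule.topologicalClosure_minimal
        · rw [span_le]
          rintro _ ⟨x, rfl⟩
          rw [hbb j]
          exact Submodule.le_topologicalClosure _ (subset_span ⟨⟨j, x⟩, rfl⟩)
        · exact (Submodule.isClosed_topologicalClosure _).preimage continuous_subtype_val
      rw [(bb j).dense_span] at h1
      exact h1 Submodule.mem_top
    have h2 : ∀ n, ξ - P n ξ ∈ M := by
      intro n
      induction n with
      | zero => simp [hzero]
      | succ n ih =>
        have : ξ - P (n + 1) ξ = (ξ - P n ξ) + q n ξ := by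
          simp [q]
        rw [this]
        exact M.add_mem ih (hM n ⟨q n ξ, (hU n _).2 (hq n ξ)⟩)
    have h3 : Tendsto (fun n => ξ - P n ξ) atTop (𝓝 ξ) := by
      simpa using (tendsto_const_nhds (x := ξ)).sub (hlim ξ)
    exact (Submodule.isClosed_topologicalClosure _).mem_of_tendsto h3 (Eventually.of_forall h2)
  · rintro ⟨j, u⟩ n
    exact hlev j u n
  · rintro ⟨j, u⟩ h0
    have h1 : q j = 0 := hsep j h0
    have h2 : q j ((u : U j) : H) = (u : U j) := (hU j _).1 (u : U j).2
    have h3 : ‖((u : U j) : H)‖ = 1 := (horth j).1 u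
    rw [← h2, h1] at h3
    simp at h3
  · intro j h0
    refine ⟨⟨j, ⟨⟨((‖q j Ω‖⁻¹ : ℝ) : ℂ) • q j Ω, (hU j _).2 ?_⟩, hsw j ⟨h0, rfl⟩⟩⟩, rfl, h0, rfl⟩
    rw [map_smul, hq]
  · rintro ⟨j, u⟩ h
    exact ⟨_, h.2⟩

end proj

section index

/-- the index set of the amplification -/
abbrev AmpI (Λ : Type) : Type := Option (Bool × ℕ × Λ)

/-- distinguished basis indices -/
def ampK {Λ B : Type} (ε : Bool) (lev : B → ℕ) (base : B → Prop) (a : AmpI Λ × B) : Prop :=
  base a.2 ∧ ∃ l, a.1 = some (ε, lev a.2, l)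

open Cardinal in
theorem amp_card {Λ B : Type} [Infinite Λ] (hB : #B ≤ #Λ) (ε : Bool) (lev : B → ℕ)
    (base : B → Prop) (j : ℕ) (hj : ∃ x, lev x = j ∧ base x) (p : Prop) :
    #{a : AmpI Λ × B // (lev a.2, ampK ε lev base a) = (j, p)} = #Λ := by
  have hΛ : ℵ₀ ≤ #Λ := aleph0_le_mk Λ
  apply le_antisymm
  · refine (mk_subtype_le _).trans ?_
    have h1 : #(AmpI Λ) ≤ #Λ := by
      have : #(Bool × ℕ × Λ) ≤ #Λ := by
        simp only [mk_prod, lift_id, mk_bool, mk_nat]
        have h2 : (2 : Cardinal) ≤ #Λ := (Cardinal.natCast_le_aleph0 (n := 2)).trans hΛ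
        rw [mul_eq_right hΛ hΛ aleph0_ne_zero, mul_eq_right hΛ h2 two_ne_zero]
      rw [mk_option]
      exact add_le_of_le hΛ this (one_le_aleph0.trans hΛ)
    rw [mk_prod, lift_id, lift_id]
    exact (mul_le_mul' h1 hB).trans (mul_eq_self hΛ).le
  · obtain ⟨x, rfl, hx⟩ := hj
    by_cases hp : p
    · refine mk_le_of_injective (f := fun l => ⟨(some (ε, lev x, l), x), ?_⟩) ?_
      · refine Prod.ext rfl (propext ⟨fun _ => hp, fun _ => ⟨hx, l, rfl⟩⟩)
      · intro l l' h
        simpa using h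
    · refine mk_le_of_injective (f := fun l => ⟨(some (!ε, lev x, l), x), ?_⟩) ?_
      · refine Prod.ext rfl (propext ⟨fun h => ?_, fun h => absurd h hp⟩)
        obtain ⟨-, l', h⟩ := h
        simp at h
      · intro l l' h
        simpa using h

open Cardinal in
theorem amp_equiv (B : Bool → Type) (lev : ∀ ε, B ε → ℕ) (base : ∀ ε, B ε → Prop)
    (h : ∀ ε ε' (x : B ε), ∃ y : B ε', lev ε' y = lev ε x ∧ base ε' y) :
    ∃ (Λ : Type) (σ : AmpI Λ × B false ≃ AmpI Λ × B true), ∀ a,
      lev true (σ a).2 = lev false a.2 ∧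
        (ampK true (lev true) (base true) (σ a) ↔ ¬ ampK false (lev false) (base false) a) := by
  let Λ : Type := ℕ ⊕ B false ⊕ B true
  have hB0 : #(B false) ≤ #Λ :=
    mk_le_of_injective (f := fun x => Sum.inr (Sum.inl x))
      (Sum.inr_injective.comp Sum.inl_injective)
  have hB1 : #(B true) ≤ #Λ :=
    mk_le_of_injective (f := fun x => Sum.inr (Sum.inr x))
      (Sum.inr_injective.comp Sum.inr_injective)
  let f : AmpI Λ × B false → ℕ × Prop := fun a =>
    (lev false a.2, ampK false (lev false) (base false) a)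
  let g : AmpI Λ × B true → ℕ × Prop := fun a =>
    (lev true a.2, ¬ ampK true (lev true) (base true) a)
  have key : ∀ c, Nonempty ({a // f a = c} ≃ {a // g a = c}) := by
    rintro ⟨j, p⟩
    rw [← Cardinal.eq]
    by_cases hj : ∃ x, lev false x = j ∧ base false x
    · obtain ⟨x, hx, hx'⟩ := hj
      obtain ⟨y, hy, hy'⟩ := h false true x
      rw [amp_card hB0 false (lev false) (base false) j ⟨x, hx, hx'⟩ p,
        ← amp_card hB1 true (lev true) (base true) j ⟨y, hy.trans hx, hy'⟩ (¬ p)]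
      apply mk_congr
      refine Equiv.subtypeEquivRight fun a => ?_
      simp only [g, Prod.mk.injEq, eq_iff_iff]
      tauto
    · have e1 : IsEmpty {a // f a = (j, p)} := ⟨fun a => by
        obtain ⟨y, hy, hy'⟩ := h false false a.1.2
        exact hj ⟨y, hy.trans (congrArg Prod.fst a.2), hy'⟩⟩
      have e2 : IsEmpty {a // g a = (j, p)} := ⟨fun a => by
        obtain ⟨y, hy, hy'⟩ := h true false a.1.2
        exact hj ⟨y, hy.trans (congrArg Prod.fst a.2), hy'⟩⟩
      rw [mk_eq_zero, mk_eq_zero]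
  refine ⟨Λ, Equiv.ofFiberEquiv fun c => (key c).some, fun a => ?_⟩
  have := Equiv.ofFiberEquiv_map (fun c => (key c).some) a
  simp only [f, g, Prod.mk.injEq, eq_iff_iff] at this
  exact ⟨this.1, by tauto⟩

end index

section diag

variable {H : Type} [NormedAddCommGroup H] [InnerProductSpace ℂ H] [CompleteSpace H]

variable (H) in
/-- the diagonal action on `ℓ²(I, H)` -/
noncomputable def ampDiag (I : Type) :
    (H →L[ℂ] H) →⋆ₐ[ℂ] (lp (fun _ : I => H) 2 →L[ℂ] lp (fun _ : I => H) 2) where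
  toFun x := lp.mapCLM 2 (fun _ => x) (norm_nonneg x) (fun _ => le_rfl)
  map_one' := by ext f i; rfl
  map_mul' x y := by ext f i; rfl
  map_zero' := by ext f i; rfl
  map_add' x y := by ext f i; rfl
  commutes' c := by ext f i; rfl
  map_star' x := by
    rw [ContinuousLinearMap.star_eq_adjoint, ContinuousLinearMap.star_eq_adjoint,
      ContinuousLinearMap.eq_adjoint_iff]
    intro f g
    rw [lp.inner_eq_tsum, lp.inner_eq_tsum]
    congr 1
    funext i
    exact ContinuousLinearMap.adjoint_inner_left x _ _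

theorem ampDiag_apply (I : Type) (x : H →L[ℂ] H) (f : lp (fun _ : I => H) 2) (i : I) :
    ampDiag H I x f i = x (f i) := rfl

theorem ampDiag_single (I : Type) [DecidableEq I] (x : H →L[ℂ] H) (i : I) (u : H) :
    ampDiag H I x (lp.single 2 i u) = lp.single 2 i (x u) := by
  ext j
  rw [ampDiag_apply]
  by_cases h : j = i
  · subst h
    rw [lp.single_apply_self, lp.single_apply_self]
  · rw [lp.single_apply_ne _ _ _ h, lp.single_apply_ne _ _ _ h, map_zero]

omit [CompleteSpace H] in
theorem amp_inner_single {I : Type} [DecidableEq I] (i j : I) (u w : H) :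
    ⟪(lp.single 2 i u : lp (fun _ : I => H) 2), lp.single 2 j w⟫_ℂ =
      if i = j then ⟪u, w⟫_ℂ else 0 := by
  rw [lp.inner_single_left]
  split_ifs with h
  · subst h
    rw [lp.single_apply_self]
  · rw [lp.single_apply_ne _ _ _ h, inner_zero_right]

omit [CompleteSpace H] in
theorem amp_orthonormal {I B : Type} [DecidableEq I] {b : B → H} (hb : Orthonormal ℂ b) :
    Orthonormal ℂ (fun a : I × B => (lp.single 2 a.1 (b a.2) : lp (fun _ : I => H) 2)) := by
  constructor
  · intro a
    rw [lp.norm_single (by simp)]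
    exact hb.1 a.2
  · intro a a' h
    change ⟪(lp.single 2 a.1 (b a.2) : lp (fun _ : I => H) 2), lp.single 2 a'.1 (b a'.2)⟫_ℂ = 0
    rw [amp_inner_single]
    split_ifs with h1
    · exact hb.2 fun h2 => h (Prod.ext h1 h2)
    · rfl

omit [CompleteSpace H] in
theorem amp_dense {I B : Type} [DecidableEq I] {b : B → H}
    (hb : ⊤ ≤ (span ℂ (Set.range b)).topologicalClosure) :
    ⊤ ≤ (span ℂ (Set.range fun a : I × B =>
      (lp.single 2 a.1 (b a.2) : lp (fun _ : I => H) 2))).topologicalClosure := by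
  intro f _
  set M := (span ℂ (Set.range fun a : I × B =>
      (lp.single 2 a.1 (b a.2) : lp (fun _ : I => H) 2))).topologicalClosure
  refine (Submodule.isClosed_topologicalClosure _).mem_of_tendsto (lp.hasSum_single (by simp) f)
    (Eventually.of_forall fun _ => Submodule.sum_mem M fun i _ => ?_)
  have h1 : (span ℂ (Set.range b)).topologicalClosure ≤
      M.comap (lp.singleContinuousLinearMap ℂ (fun _ : I => H) 2 i : H →ₗ[ℂ] _) := by
    apply Submodule.topologicalClosure_minimal
    · rw [span_le]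
      rintro _ ⟨x, rfl⟩
      exact Submodule.le_topologicalClosure _ (subset_span ⟨(i, x), rfl⟩)
    · exact (Submodule.isClosed_topologicalClosure _).preimage
        (lp.singleContinuousLinearMap ℂ (fun _ : I => H) 2 i).continuous
  exact h1 (hb Submodule.mem_top)

end diag

section general

variable {E : Type} [NormedAddCommGroup E] [InnerProductSpace ℂ E]

theorem amp_inner_left_zero {S : Set E} {w : E} (h : ∀ s ∈ S, ⟪s, w⟫_ℂ = 0) :
    ∀ k ∈ (span ℂ S).topologicalClosure, ⟪k, w⟫_ℂ = 0 := by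
  intro k hk
  have h1 : (span ℂ S).topologicalClosure ≤ (ℂ ∙ w)ᗮ := by
    apply Submodule.topologicalClosure_minimal
    · rw [span_le]
      intro s hs
      exact Submodule.mem_orthogonal_singleton_iff_inner_left.2 (h s hs)
    · exact Submodule.isClosed_orthogonal _
  exact Submodule.mem_orthogonal_singleton_iff_inner_left.1 (h1 hk)

theorem amp_inner_zero {S S' : Set E} (T : E →L[ℂ] E) (h : ∀ s ∈ S, ∀ s' ∈ S', ⟪s, T s'⟫_ℂ = 0) :
    ∀ k ∈ (span ℂ S).topologicalClosure, ∀ k' ∈ (span ℂ S').topologicalClosure,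
      ⟪k, T k'⟫_ℂ = 0 := by
  intro k hk k' hk'
  have h1 : (span ℂ S').topologicalClosure ≤
      LinearMap.ker (((innerSL ℂ k).comp T : E →L[ℂ] ℂ) : E →ₗ[ℂ] ℂ) := by
    apply Submodule.topologicalClosure_minimal
    · rw [span_le]
      intro s' hs'
      exact amp_inner_left_zero (fun s hs => h s hs s' hs') k hk
    · exact ((innerSL ℂ k).comp T).isClosed_ker
  exact h1 hk'

theorem amp_swap {ι : Type} (b : HilbertBasis ι ℂ E) (T : E →L[ℂ] E) (A : Set ι)
    (M : Submodule ℂ E) (hM : IsClosed (M : Set E)) (h : ∀ a, a ∉ A → T (b a) ∈ M) (ξ : E)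
    (hξ : ∀ a ∈ A, ⟪b a, ξ⟫_ℂ = 0) : T ξ ∈ M := by
  refine hM.mem_of_tendsto ((b.hasSum_repr ξ).mapL T)
    (Eventually.of_forall fun _ => Submodule.sum_mem M fun a _ => ?_)
  rw [map_smul]
  by_cases ha : a ∈ A
  · rw [b.repr_apply_apply, hξ a ha, zero_smul]
    exact M.zero_mem
  · exact M.smul_mem _ (h a ha)

end general

end Crest.Agent.R120
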