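import Mathlib
import Crest.Agent.R120.AmplifyAux

/-! Row 120: the Hilbert space carrying a reduced HNN extension (ping-pong form). -/

set_option autoImplicit false

open scoped InnerProductSpace
open Filter Topology

namespace Crest.Agent.R120

/-- Given two decreasing sequences of projections tending strongly to zero, with matching
vanishing steps, there is an amplification `Δ` of the identity representation, a unitary `v`
conjugating one sequence to the other, and ping-pong subspaces `K true`, `K false`. -/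
theorem exists_amplification
    {H : Type} [NormedAddCommGroup H] [InnerProductSpace ℂ H] [CompleteSpace H]
    (Ω : H) (P : Bool → ℕ → (H →L[ℂ] H))
    (hproj : ∀ ε n, IsStarProjection (P ε n)) (hzero : ∀ ε, P ε 0 = 1)
    (hanti : ∀ ε n, P ε n * P ε (n + 1) = P ε (n + 1))
    (hlim : ∀ ε (ξ : H), Tendsto (fun n => P ε n ξ) atTop (𝓝 0))
    (hmatch : ∀ j, (P true j - P true (j + 1)) Ω = 0 ↔ (P false j - P false (j + 1)) Ω = 0)
    (hsep : ∀ ε j, (P ε j - P ε (j + 1)) Ω = 0 → P ε j - P ε (j + 1) = 0) :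
    ∃ (H₂ : Type) (_ : NormedAddCommGroup H₂) (_ : InnerProductSpace ℂ H₂) (_ : CompleteSpace H₂)
      (Δ : (H →L[ℂ] H) →⋆ₐ[ℂ] (H₂ →L[ℂ] H₂)) (Ω₂ : H₂) (v : H₂ →L[ℂ] H₂)
      (K : Bool → Submodule ℂ H₂),
      Function.Injective Δ ∧
      (∀ x, ⟪Ω₂, Δ x Ω₂⟫_ℂ = ⟪Ω, x Ω⟫_ℂ) ∧
      v ∈ unitary (H₂ →L[ℂ] H₂) ∧
      (∀ n, v * Δ (P false n) = Δ (P true n) * v) ∧
      (∀ ε x, ∀ k ∈ K ε, ⟪k, Δ x Ω₂⟫_ℂ = 0) ∧
      (∀ x, ∀ k ∈ K true, ∀ k' ∈ K false, ⟪k, Δ x k'⟫_ℂ = 0) ∧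
      (∀ ε x, (∀ j, ⟪(P ε j - P ε (j + 1)) Ω, x ((P ε j - P ε (j + 1)) Ω)⟫_ℂ = 0) →
        ∀ k ∈ K ε, ∀ k' ∈ K ε, ⟪k, Δ x k'⟫_ℂ = 0) ∧
      (∀ ξ : H₂, (∀ k ∈ K false, ⟪k, ξ⟫_ℂ = 0) → v ξ ∈ K true) ∧
      (∀ ξ : H₂, (∀ k ∈ K true, ⟪k, ξ⟫_ℂ = 0) → (star v) ξ ∈ K false) := by
  classical
  choose B b lev base hon hdense hlev hne hbase hmul using fun ε =>
    amp_adapted_basis Ω (P ε) (hproj ε) (hzero ε) (hanti ε) (hlim ε) (hsep ε)
  have hm : ∀ ε ε' j, (P ε j - P ε (j + 1)) Ω ≠ 0 → (P ε' j - P ε' (j + 1)) Ω ≠ 0 := by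
    intro ε ε' j h
    cases ε <;> cases ε'
    · exact h
    · exact fun h' => h ((hmatch j).1 h')
    · exact fun h' => h ((hmatch j).2 h')
    · exact h
  obtain ⟨Λ, σ, hσ⟩ := amp_equiv B lev base fun ε ε' x => hbase ε' _ (hm ε ε' _ (hne ε x))
  let u : ∀ ε, AmpI Λ × B ε → lp (fun _ : AmpI Λ => H) 2 := fun ε a => lp.single 2 a.1 (b ε a.2)
  have huo : ∀ ε, Orthonormal ℂ (u ε) := fun ε => amp_orthonormal (hon ε)
  have hud : ∀ ε, ⊤ ≤ (Submodule.span ℂ (Set.range (u ε))).topologicalClosure :=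
    fun ε => amp_dense (hdense ε)
  let b0 : HilbertBasis (AmpI Λ × B false) ℂ (lp (fun _ : AmpI Λ => H) 2) :=
    HilbertBasis.mk (huo false) (hud false)
  let b1 : HilbertBasis (AmpI Λ × B false) ℂ (lp (fun _ : AmpI Λ => H) 2) :=
    HilbertBasis.mk ((huo true).comp σ σ.injective)
      (by rw [σ.surjective.range_comp]; exact hud true)
  have hb0 : ∀ a, b0 a = u false a := fun a => congrFun (HilbertBasis.coe_mk _ _) a
  have hb1 : ∀ a, b1 a = u true (σ a) := fun a => congrFun (HilbertBasis.coe_mk _ _) a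
  let V := b0.repr.trans b1.repr.symm
  have hV : ∀ a, V (b0 a) = b1 a := fun a => by
    simp only [V, LinearIsometryEquiv.trans_apply, b0.repr_self, b1.repr_symm_single]
  have hV' : ∀ a, V.symm (b1 a) = b0 a := fun a => by rw [← hV, V.symm_apply_apply]
  let K : Bool → Submodule ℂ (lp (fun _ : AmpI Λ => H) 2) := fun ε =>
    (Submodule.span ℂ (u ε '' {a | ampK ε (lev ε) (base ε) a})).topologicalClosure
  have hKmem : ∀ ε a, ampK ε (lev ε) (base ε) a → u ε a ∈ K ε := fun ε a ha =>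
    Submodule.le_topologicalClosure _ (Submodule.subset_span ⟨a, ha, rfl⟩)
  have hΔu : ∀ ε n a, ampDiag H (AmpI Λ) (P ε n) (u ε a) = if n ≤ lev ε a.2 then u ε a else 0 := by
    intro ε n a
    simp only [u]
    rw [ampDiag_single, hlev]
    split_ifs
    · rfl
    · exact lp.single_zero _ _
  refine ⟨lp (fun _ : AmpI Λ => H) 2, inferInstance, inferInstance, inferInstance,
    ampDiag H (AmpI Λ), lp.single 2 none Ω,
    (V : lp (fun _ : AmpI Λ => H) 2 →L[ℂ] lp (fun _ : AmpI Λ => H) 2), K,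
    ?_, ?_, ?_, ?_, ?_, ?_, ?_, ?_, ?_⟩
  · intro x y h
    ext ξ
    have := congrArg (fun T => T (lp.single 2 none ξ) none) h
    simpa only [ampDiag_apply, lp.single_apply_self] using this
  · intro x
    rw [ampDiag_single, amp_inner_single, if_pos rfl]
  · exact (Unitary.linearIsometryEquiv.symm V).2
  · intro n
    refine ContinuousLinearMap.ext_on (s := Set.range b0) ?_ ?_
    · rw [Submodule.dense_iff_topologicalClosure_eq_top]
      exact b0.dense_span
    · rintro _ ⟨a, rfl⟩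
      change V (ampDiag H (AmpI Λ) (P false n) (b0 a)) = ampDiag H (AmpI Λ) (P true n) (V (b0 a))
      rw [hV, hb1, hΔu, (hσ a).1, hb0, hΔu]
      split_ifs
      · rw [← hb0, hV, hb1]
      · exact map_zero _
  · intro ε x
    refine amp_inner_left_zero ?_
    rintro _ ⟨a, ⟨-, l, hl⟩, rfl⟩
    simp only [u]
    rw [ampDiag_single, amp_inner_single, if_neg (by rw [hl]; simp)]
  · intro x
    refine amp_inner_zero _ ?_
    rintro _ ⟨a, ⟨-, l, hl⟩, rfl⟩ _ ⟨a', ⟨-, l', hl'⟩, rfl⟩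
    simp only [u]
    rw [ampDiag_single, amp_inner_single, if_neg (by rw [hl, hl']; simp)]
  · intro ε x hx
    refine amp_inner_zero _ ?_
    rintro _ ⟨a, ⟨ha, l, hl⟩, rfl⟩ _ ⟨a', ⟨ha', l', hl'⟩, rfl⟩
    simp only [u]
    rw [ampDiag_single, amp_inner_single]
    split_ifs with h
    · rw [hl, hl'] at h
      simp only [Option.some.injEq, Prod.mk.injEq, true_and] at h
      obtain ⟨c, hc⟩ := hmul ε _ ha
      obtain ⟨c', hc'⟩ := hmul ε _ ha'
      rw [hc, hc', ← h.1, map_smul, inner_smul_left, inner_smul_right, hx, mul_zero, mul_zero]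
    · rfl
  · intro ξ hξ
    refine amp_swap b0 _ {a | ampK false (lev false) (base false) a} (K true)
      (Submodule.isClosed_topologicalClosure _) (fun a ha => ?_) ξ (fun a ha => ?_)
    · change V (b0 a) ∈ _
      rw [hV, hb1]
      exact hKmem true _ ((hσ a).2.2 ha)
    · rw [hb0]
      exact hξ _ (hKmem false a ha)
  · intro ξ hξ
    rw [LinearIsometryEquiv.star_eq_symm]
    refine amp_swap b1 _ {a | ampK true (lev true) (base true) (σ a)} (K false)
      (Submodule.isClosed_topologicalClosure _) (fun a ha => ?_) ξ (fun a ha => ?_)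
    · change V.symm (b1 a) ∈ _
      rw [hV', hb0]
      exact hKmem false _ (by_contra fun h => ha ((hσ a).2.2 h))
    · rw [hb1]
      exact hξ _ (hKmem true _ ha)

end Crest.Agent.R120
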