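import Crest.Agent.R120.Trans

/-! Row 120: associativity and continuity of freeness. -/

set_option autoImplicit false
set_option linter.unusedSectionVars false
set_option linter.unusedSimpArgs false

open scoped InnerProductSpace
open Filter Topology

namespace Crest.Agent.R120

variable {H : Type*} [NormedAddCommGroup H] [InnerProductSpace ℂ H] [CompleteSpace H]

variable {Ω : H} {N : StarSubalgebra ℂ (H →L[ℂ] H)} {P P' : Bool → ℕ → (H →L[ℂ] H)}
  {u v : H →L[ℂ] H}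

lemma exists_decomp_near {B : StarSubalgebra ℂ (H →L[ℂ] H)} (hB : TrOn Ω B) (hNB : N ≤ B)
    (hNc : IsClosed (N : Set (H →L[ℂ] H))) {p : ℕ → (H →L[ℂ] H)} (hp : IsPt Ω p)
    (hpN : ∀ n, p n ∈ N) {a x : H →L[ℂ] H} (ha : a ∈ N) (hexc : Exc p a) (hx : x ∈ B)
    (hc : Cen Ω p x) : ∃ d ∈ N, Cen Ω p (a - d) ∧ ‖d‖ ≤ ‖a - x‖ := by
  obtain ⟨d, hd, hcd, hb⟩ := exists_decomp (hB.mono hNB hNc) hp hpN ha hexc
  refine ⟨d, Dsp_mem_alg hNc hpN hd, hcd, hb _ (norm_nonneg _) fun j => ?_⟩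
  have hq := hp.sub_proj (Nat.le_succ j)
  have e : tr Ω ((p j - p (j + 1)) * a) = tr Ω ((p j - p (j + 1)) * (a - x)) := by
    rw [mul_sub, map_sub, hc.of_Dsp (sub_mem (mem_Dsp p _) (mem_Dsp p _)), sub_zero]
  rw [e]
  refine (norm_tr_proj_mul_le hB hq (hNB (sub_mem (hpN _) (hpN _))) (sub_mem (hNB ha) hx)).trans ?_
  gcongr
  calc _ ≤ ‖p j - p (j + 1)‖ * ‖a - x‖ * ‖p j - p (j + 1)‖ :=
        (norm_mul_le _ _).trans (by gcongr; exact norm_mul_le _ _)
    _ ≤ 1 * ‖a - x‖ * 1 := by gcongr <;> exact hq.norm_le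
    _ = _ := by ring

lemma RW.append {M : StarSubalgebra ℂ (H →L[ℂ] H)} {δ δ₂ : Bool} {r m w : H →L[ℂ] H}
    (hr : RW Ω M P' v δ r) (hm : m ∈ M) (hc : Cen Ω (P' δ₂) m) (hw : RW Ω M P' v δ₂ w) :
    RW Ω M P' v δ (r * m * w) := by
  induction hr with
  | base δ => exact RW.step δ δ₂ m w hm (fun _ => hc) hw
  | step δ δ' a r' ha hca _ ih =>
    have := RW.step δ δ' a _ ha hca ih
    simpa only [mul_assoc] using this

theorem free_assoc (hB : TrOn Ω (ext N v)) (hNc : IsClosed (N : Set (H →L[ℂ] H)))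
    (hD : Datum Ω N P) (hF : Free Ω N P u)
    (hD' : Datum Ω N P') (hC' : Conj P' v) (hF' : Free Ω (ext N u) P' v) :
    Free Ω (ext N v) P u := by
  have hN : TrOn Ω N := hB.mono (le_ext N v) hNc
  set M := ext N u with hM
  have hNM : N ≤ M := le_ext N u
  have hwM : ∀ {ε w}, RW Ω N P u ε w → w ∈ M := fun h => h.mem hNM (self_mem_ext N u)
  have hcen : ∀ {ε w}, RW Ω N P u ε w → ∀ b ∈ N, ∀ a ∈ N, ∀ δ, Cen Ω (P' δ) (b * w * a) := by
    intro ε w hw b hb a ha δ n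
    have := hF ε w hw _ (mul_mem (hD'.mem δ n) hb) a ha
    simpa only [mul_assoc] using this
  let G : Bool → Set (H →L[ℂ] H) := fun ε =>
    {y | ∃ w, RW Ω N P u ε w ∧ ∃ a ∈ N, y = w * a} ∪
    {y | ∃ w, RW Ω N P u ε w ∧ ∃ a ∈ N, ∃ δ w₂, RW Ω M P' v δ w₂ ∧ ∃ a₂ ∈ M, y = w * a * w₂ * a₂}
  let Y : Bool → Submodule ℂ (H →L[ℂ] H) := fun ε =>
    (Submodule.span ℂ (G ε)).topologicalClosure
  have hYc : ∀ ε, IsClosed (Y ε : Set (H →L[ℂ] H)) := fun ε =>
    Submodule.isClosed_topologicalClosure _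
  have hG1 : ∀ ε w, RW Ω N P u ε w → ∀ a ∈ N, w * a ∈ Y ε := fun ε w hw a ha =>
    Submodule.le_topologicalClosure _ (Submodule.subset_span (Or.inl ⟨w, hw, a, ha, rfl⟩))
  have hG2 : ∀ ε w, RW Ω N P u ε w → ∀ a ∈ N, ∀ δ w₂, RW Ω M P' v δ w₂ → ∀ a₂ ∈ M,
      w * a * w₂ * a₂ ∈ Y ε := fun ε w hw a ha δ w₂ hw₂ a₂ ha₂ =>
    Submodule.le_topologicalClosure _ (Submodule.subset_span
      (Or.inr ⟨w, hw, a, ha, δ, w₂, hw₂, a₂, ha₂, rfl⟩))
  have hYind : ∀ ε (V : Submodule ℂ (H →L[ℂ] H)), IsClosed (V : Set (H →L[ℂ] H)) →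
      (∀ y ∈ G ε, y ∈ V) → ∀ y ∈ Y ε, y ∈ V := fun ε V hV h y hy =>
    Submodule.topologicalClosure_minimal _ (Submodule.span_le.2 h) hV hy
  have hmul : ∀ ε ε' (x : H →L[ℂ] H), (∀ y ∈ G ε', x * y ∈ Y ε) → ∀ y ∈ Y ε', x * y ∈ Y ε :=
    fun ε ε' x h => hYind ε' ((Y ε).comap (LinearMap.mulLeft ℂ x))
      ((hYc ε).preimage (continuous_const_mul x)) h
  have claim1 : ∀ ε W, RW Ω (ext N v) P u ε W → ∀ a' ∈ ext N v, W * a' ∈ Y ε := by
    intro ε W hW a' ha'
    induction hW with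
    | base ε =>
      refine ext_induction hN hD' hC' ((Y ε).comap (LinearMap.mulLeft ℂ (us u ε)))
        ((hYc ε).preimage (continuous_const_mul _)) (fun a ha => hG1 ε _ (RW.base ε) a ha)
        (fun δ r hr b hb b' hb' => ?_) a' ha'
      have := hG2 ε _ (RW.base ε) b hb δ r (hr.mono hNM) b' (hNM hb')
      change us u ε * (b * r * b') ∈ Y ε
      simpa only [mul_assoc] using this
    | step ε ε' b W' hb hc _ ih =>
      let V : Submodule ℂ (H →L[ℂ] H) :=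
        (Y ε).comap (ContinuousLinearMap.mulLeftRight ℂ (H →L[ℂ] H) (us u ε) (W' * a') :
          (H →L[ℂ] H) →ₗ[ℂ] (H →L[ℂ] H))
      have hVc : IsClosed (V : Set (H →L[ℂ] H)) := (hYc ε).preimage
        (ContinuousLinearMap.mulLeftRight ℂ (H →L[ℂ] H) (us u ε) (W' * a')).continuous
      have hV : ∀ x, x ∈ V ↔ us u ε * x * (W' * a') ∈ Y ε := fun x => Iff.rfl
      have hV1 : ∀ a ∈ N, (ε' = !ε → Cen Ω (P ε') a) → a ∈ V := by
        intro a ha hca
        rw [hV]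
        refine hmul ε ε' _ ?_ _ ih
        rintro _ (⟨w, hw, a₁, ha₁, rfl⟩ | ⟨w, hw, a₁, ha₁, δ, w₂, hw₂, a₂, ha₂, rfl⟩)
        · have := hG1 ε _ (RW.step ε ε' a w ha hca hw) a₁ ha₁
          simpa only [mul_assoc] using this
        · have := hG2 ε _ (RW.step ε ε' a w ha hca hw) a₁ ha₁ δ w₂ hw₂ a₂ ha₂
          simpa only [mul_assoc] using this
      have hV2 : ∀ δ r, RW Ω N P' v δ r → ∀ c ∈ N, ∀ c' ∈ N, c * r * c' ∈ V := by
        intro δ r hr c hc c' hc'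
        rw [hV]
        refine hmul ε ε' _ ?_ _ ih
        rintro _ (⟨w, hw, a₁, ha₁, rfl⟩ | ⟨w, hw, a₁, ha₁, δ₂, w₂, hw₂, a₂, ha₂, rfl⟩)
        · have := hG2 ε _ (RW.base ε) c hc δ r (hr.mono hNM) _
            (mul_mem (mul_mem (hNM hc') (hwM hw)) (hNM ha₁))
          simpa only [mul_assoc] using this
        · have := hG2 ε _ (RW.base ε) c hc δ _ ((hr.mono hNM).append
            (mul_mem (mul_mem (hNM hc') (hwM hw)) (hNM ha₁)) (hcen hw c' hc' a₁ ha₁ δ₂) hw₂) a₂ ha₂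
          simpa only [mul_assoc] using this
      rw [mul_assoc, ← hV]
      by_cases he : ε' = !ε
      · let Wd : Submodule ℂ (H →L[ℂ] H) := Submodule.span ℂ
          {x | ∃ δ r, RW Ω N P' v δ r ∧ ∃ c ∈ N, ∃ c' ∈ N, x = c * r * c'}
        have hWd : ∀ w ∈ Wd, w ∈ V ∧ w ∈ ext N v ∧ Cen Ω (P ε') w := by
          intro w hw
          induction hw using Submodule.span_induction with
          | mem x hx =>
            obtain ⟨δ, r, hr, c, hc, c', hc', rfl⟩ := hx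
            refine ⟨hV2 δ r hr c hc c' hc', mul_mem (mul_mem (le_ext N v hc)
              (hr.mem (le_ext N v) (self_mem_ext N v))) (le_ext N v hc'), fun n => ?_⟩
            have := hF' δ r (hr.mono hNM) _ (hNM (mul_mem (hD.mem ε' n) hc)) c' (hNM hc')
            simpa only [mul_assoc] using this
          | zero => exact ⟨zero_mem _, zero_mem _, fun n => by simp⟩
          | add x y _ _ hx hy => exact ⟨add_mem hx.1 hy.1, add_mem hx.2.1 hy.2.1, hx.2.2.add hy.2.2⟩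
          | smul c x _ hx => exact ⟨Submodule.smul_mem _ _ hx.1, SMulMemClass.smul_mem _ hx.2.1,
              hx.2.2.smul c⟩
        let S : Submodule ℂ (H →L[ℂ] H) := Subalgebra.toSubmodule N.toSubalgebra ⊔ Wd
        have hbS : b ∈ S.topologicalClosure :=
          ext_induction hN hD' hC' S.topologicalClosure (Submodule.isClosed_topologicalClosure _)
            (fun a ha => S.le_topologicalClosure (Submodule.mem_sup_left ha))
            (fun δ r hr c hc c' hc' => S.le_topologicalClosure (Submodule.mem_sup_right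
              (Submodule.subset_span ⟨δ, r, hr, c, hc, c', hc', rfl⟩))) b hb
        apply hVc.closure_subset
        rw [Metric.mem_closure_iff]
        intro η hη
        obtain ⟨s, hs, hbs⟩ := Metric.mem_closure_iff.1
          (show b ∈ closure (S : Set (H →L[ℂ] H)) from hbS) (η / 2) (half_pos hη)
        obtain ⟨a, ha, w, hw, rfl⟩ := Submodule.mem_sup.1 hs
        obtain ⟨hwV, hwB, hwc⟩ := hWd w hw
        obtain ⟨d, hd, hcd, hdn⟩ := exists_decomp_near hB (le_ext N v) hNc (hD.pt ε') (hD.mem ε')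
          ha (hD.exc ε' a ha) (sub_mem hb hwB) ((hc he).sub hwc)
        refine ⟨a - d + w, add_mem (hV1 _ (sub_mem ha hd) (fun _ => hcd)) hwV, ?_⟩
        rw [dist_eq_norm] at hbs ⊢
        have e1 : b - (a - d + w) = (b - (a + w)) + d := by abel
        have e2 : a - (b - w) = -(b - (a + w)) := by abel
        rw [e2, norm_neg] at hdn
        rw [e1]
        linarith [norm_add_le (b - (a + w)) d]
      · exact ext_induction hN hD' hC' V hVc (fun a ha => hV1 a ha (fun h => absurd h he)) hV2 b hb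
  have claim2 : ∀ ε, ∀ y ∈ G ε, ∀ a ∈ ext N v, tr Ω (a * y) = 0 := by
    intro ε y hy a ha
    let f : (H →L[ℂ] H) →L[ℂ] ℂ := (tr Ω).comp ((ContinuousLinearMap.mul ℂ (H →L[ℂ] H)).flip y)
    have hf : ∀ x, f x = tr Ω (x * y) := fun x => rfl
    refine ext_induction hN hD' hC' f.ker f.isClosed_ker (fun a ha => ?_)
      (fun δ r hr c hc c' hc' => ?_) a ha
    · change f a = 0
      rw [hf]
      rcases hy with ⟨w, hw, a₁, ha₁, rfl⟩ | ⟨w, hw, a₁, ha₁, δ₂, w₂, hw₂, a₂, ha₂, rfl⟩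
      · have := hF ε w hw a ha a₁ ha₁
        simpa only [mul_assoc] using this
      · have := hF' δ₂ w₂ hw₂ _ (mul_mem (mul_mem (hNM ha) (hwM hw)) (hNM ha₁)) a₂ ha₂
        simpa only [mul_assoc] using this
    · change f _ = 0
      rw [hf]
      rcases hy with ⟨w, hw, a₁, ha₁, rfl⟩ | ⟨w, hw, a₁, ha₁, δ₂, w₂, hw₂, a₂, ha₂, rfl⟩
      · have := hF' δ r (hr.mono hNM) c (hNM hc) _ (mul_mem (mul_mem (hNM hc') (hwM hw)) (hNM ha₁))
        simpa only [mul_assoc] using this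
      · have := hF' δ _ ((hr.mono hNM).append
            (mul_mem (mul_mem (hNM hc') (hwM hw)) (hNM ha₁)) (hcen hw c' hc' a₁ ha₁ δ₂) hw₂)
            c (hNM hc) a₂ ha₂
        simpa only [mul_assoc] using this
  intro ε W hW a ha a' ha'
  let f : (H →L[ℂ] H) →L[ℂ] ℂ := (tr Ω).comp (ContinuousLinearMap.mul ℂ (H →L[ℂ] H) a)
  rw [mul_assoc]
  exact hYind ε f.ker f.isClosed_ker (fun y hy => claim2 ε y hy a ha) _ (claim1 ε W hW a' ha')

theorem free_of_directed {κ : Type*} (hN : TrOn Ω N) (𝒩 : κ → StarSubalgebra ℂ (H →L[ℂ] H))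
    (hdir : Directed (· ≤ ·) 𝒩) (hle : ∀ i, 𝒩 i ≤ N)
    (hc : ∀ i, IsClosed (𝒩 i : Set (H →L[ℂ] H)))
    (hdense : ∀ x ∈ N, x ∈ closure {a | ∃ i, a ∈ 𝒩 i})
    (hD : ∀ i, Datum Ω (𝒩 i) P) (hF : ∀ i, Free Ω (𝒩 i) P u) : Free Ω N P u := by
  have h1 : ∀ ε W, RW Ω N P u ε W → W ∈ closure {W' | ∃ i, RW Ω (𝒩 i) P u ε W'} := by
    intro ε W hW
    induction hW with
    | base ε =>
      obtain ⟨a, i, -⟩ := closure_nonempty_iff.1 ⟨1, hdense 1 (one_mem _)⟩
      exact subset_closure ⟨i, RW.base ε⟩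
    | step ε ε' a W' ha hca _ ih =>
      have h2 : a ∈ closure {a' | ∃ i, a' ∈ 𝒩 i ∧ (ε' = !ε → Cen Ω (P ε') a')} := by
        by_cases he : ε' = !ε
        · rw [Metric.mem_closure_iff]
          intro η hη
          obtain ⟨a', ⟨i, ha'⟩, haa'⟩ := Metric.mem_closure_iff.1 (hdense a ha) (η / 2)
            (half_pos hη)
          obtain ⟨d, hd, hcd, hdn⟩ := exists_decomp_near hN (hle i) (hc i) ((hD i).pt ε')
            ((hD i).mem ε') ha' ((hD i).exc ε' a' ha') ha (hca he)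
          refine ⟨a' - d, ⟨i, sub_mem ha' hd, fun _ => hcd⟩, ?_⟩
          rw [dist_eq_norm] at haa' ⊢
          rw [norm_sub_rev] at hdn
          have e1 : a - (a' - d) = (a - a') + d := by abel
          rw [e1]
          linarith [norm_add_le (a - a') d]
        · refine closure_mono ?_ (hdense a ha)
          rintro a' ⟨i, ha'⟩
          exact ⟨i, ha', fun h => absurd h he⟩
      refine map_mem_closure₂ (f := fun a W => us u ε * a * W) (by fun_prop) h2 ih ?_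
      rintro a' ⟨i, ha', hca'⟩ W'' ⟨j, hW''⟩
      obtain ⟨k, hik, hjk⟩ := hdir i j
      exact ⟨k, RW.step ε ε' a' W'' (hik ha') hca' (hW''.mono hjk)⟩
  intro ε W hW a ha a' ha'
  have h2 : a * W ∈ closure {x | ∃ i, ∃ b ∈ 𝒩 i, ∃ W', RW Ω (𝒩 i) P u ε W' ∧ x = b * W'} := by
    refine map_mem_closure₂ (f := fun a W => a * W) (by fun_prop) (hdense a ha) (h1 ε W hW) ?_
    rintro b ⟨i, hb⟩ W' ⟨j, hW'⟩
    obtain ⟨k, hik, hjk⟩ := hdir i j
    exact ⟨k, b, hik hb, W', hW'.mono hjk, rfl⟩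
  have h3 : a * W * a' ∈ closure {x | tr Ω x = 0} := by
    refine map_mem_closure₂ (f := fun a W => a * W) (by fun_prop) h2 (hdense a' ha') ?_
    rintro _ ⟨i, b, hb, W', hW', rfl⟩ b' ⟨j, hb'⟩
    obtain ⟨k, hik, hjk⟩ := hdir i j
    exact hF k ε W' (hW'.mono hik) b (hik hb) b' (hjk hb')
  exact (tr Ω).isClosed_ker.closure_subset h3

end Crest.Agent.R120
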