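import Mathlib

/-! Row 120: vector traces, decreasing projection sequences, vanishing and excision. -/

set_option autoImplicit false

open scoped InnerProductSpace
open Filter Topology

namespace Crest.Agent.R120

variable {H : Type*} [NormedAddCommGroup H] [InnerProductSpace ℂ H] [CompleteSpace H]

/-- The vector functional of `Ω`. -/
noncomputable def tr (Ω : H) : (H →L[ℂ] H) →L[ℂ] ℂ :=
  (innerSL ℂ Ω).comp (ContinuousLinearMap.apply ℂ H Ω)

omit [CompleteSpace H] in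
lemma tr_apply (Ω : H) (a : H →L[ℂ] H) : tr Ω a = ⟪Ω, a Ω⟫_ℂ := rfl

lemma tr_star_mul (Ω : H) (a b : H →L[ℂ] H) : tr Ω (star a * b) = ⟪a Ω, b Ω⟫_ℂ := by
  rw [tr_apply, mul_apply_eq_comp, ContinuousLinearMap.star_eq_adjoint,
    ContinuousLinearMap.adjoint_inner_right]

lemma tr_star (Ω : H) (a : H →L[ℂ] H) : tr Ω (star a) = star (tr Ω a) := by
  rw [tr_apply, tr_apply, ContinuousLinearMap.star_eq_adjoint,
    ContinuousLinearMap.adjoint_inner_right]
  exact (inner_conj_symm _ _).symm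

lemma tr_star_mul_self (Ω : H) (a : H →L[ℂ] H) :
    tr Ω (star a * a) = ((‖a Ω‖ ^ 2 : ℝ) : ℂ) := by
  rw [tr_star_mul, inner_self_eq_norm_sq_to_K]; norm_cast

lemma tr_proj (Ω : H) {p : H →L[ℂ] H} (hp : IsStarProjection p) :
    tr Ω p = ((‖p Ω‖ ^ 2 : ℝ) : ℂ) := by
  rw [← tr_star_mul_self, hp.isSelfAdjoint.star_eq, hp.isIdempotentElem.eq]

lemma inner_star_left (a : H →L[ℂ] H) (x y : H) : ⟪(star a) x, y⟫_ℂ = ⟪x, a y⟫_ℂ := by
  rw [ContinuousLinearMap.star_eq_adjoint, ContinuousLinearMap.adjoint_inner_left]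

lemma inner_star_right (a : H →L[ℂ] H) (x y : H) : ⟪x, (star a) y⟫_ℂ = ⟪a x, y⟫_ℂ := by
  rw [ContinuousLinearMap.star_eq_adjoint, ContinuousLinearMap.adjoint_inner_right]

/-- The vector functional is a faithful trace on the closed subalgebra `N`. -/
structure TrOn (Ω : H) (N : StarSubalgebra ℂ (H →L[ℂ] H)) : Prop where
  closed : IsClosed (N : Set (H →L[ℂ] H))
  comm : ∀ a ∈ N, ∀ b ∈ N, tr Ω (a * b) = tr Ω (b * a)
  faithful : ∀ a ∈ N, a Ω = 0 → a = 0

namespace TrOn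

variable {Ω : H} {N : StarSubalgebra ℂ (H →L[ℂ] H)}

lemma mono (h : TrOn Ω N) {M : StarSubalgebra ℂ (H →L[ℂ] H)} (hM : M ≤ N)
    (hc : IsClosed (M : Set (H →L[ℂ] H))) : TrOn Ω M :=
  ⟨hc, fun a ha b hb => h.comm a (hM ha) b (hM hb), fun a ha => h.faithful a (hM ha)⟩

lemma norm_star_apply (h : TrOn Ω N) {a : H →L[ℂ] H} (ha : a ∈ N) :
    ‖(star a) Ω‖ = ‖a Ω‖ := by
  have h1 := tr_star_mul_self Ω a
  have h2 := tr_star_mul_self Ω (star a)
  rw [star_star, h.comm a ha (star a) (star_mem ha), h1] at h2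
  have h3 : ‖a Ω‖ ^ 2 = ‖(star a) Ω‖ ^ 2 := by exact_mod_cast h2
  exact ((sq_eq_sq₀ (norm_nonneg _) (norm_nonneg _)).1 h3).symm

lemma norm_mul_apply_le (h : TrOn Ω N) {a b : H →L[ℂ] H} (ha : a ∈ N) (hb : b ∈ N) :
    ‖(a * b) Ω‖ ≤ ‖a Ω‖ * ‖b‖ := by
  rw [← h.norm_star_apply (mul_mem ha hb), star_mul, mul_apply_eq_comp,
    ← h.norm_star_apply ha, mul_comm, ← norm_star b]
  exact ContinuousLinearMap.le_opNorm _ _

/-- The operator norm on `N` is detected on the vectors `y Ω`, `y ∈ N`. -/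
lemma norm_le_of_forall (h : TrOn Ω N) {b : H →L[ℂ] H} (hb : b ∈ N) {C : ℝ} (hC : 0 ≤ C)
    (hbC : ∀ y ∈ N, ‖b (y Ω)‖ ≤ C * ‖y Ω‖) : ‖b‖ ≤ C := by
  by_contra hlt
  push Not at hlt
  have hb0 : b ≠ 0 := by rintro rfl; simp at hlt; linarith
  have : Nontrivial (H →L[ℂ] H) := ⟨⟨b, 0, hb0⟩⟩
  set a := star b * b with ha
  have ha0 : 0 ≤ a := star_mul_self_nonneg b
  have hasa : IsSelfAdjoint a := IsSelfAdjoint.of_nonneg ha0
  have hna : ‖a‖ = ‖b‖ * ‖b‖ := CStarRing.norm_star_mul_self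
  have hCa : C ^ 2 < ‖a‖ := by rw [hna]; nlinarith
  obtain ⟨t, ht1, ht2⟩ := exists_between hCa
  set κ : ℝ → ℝ := fun s => max (s - t) 0 with hκ
  have hκc : Continuous κ := by fun_prop
  set y := cfc κ a with hy
  have := h.closed
  have hyN : y ∈ N := cfc_mem κ (mul_mem (star_mem hb) hb)
  have hysa : IsSelfAdjoint y := cfc_predicate κ a
  have hy0 : y ≠ 0 := by
    intro h0
    have hmem : ‖a‖ ∈ spectrum ℝ a := CStarAlgebra.norm_mem_spectrum_of_nonneg ha0
    have h2 : κ ‖a‖ ∈ spectrum ℝ y := by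
      rw [hy, cfc_map_spectrum κ a]; exact ⟨_, hmem, rfl⟩
    rw [h0, spectrum.zero_eq] at h2
    have : κ ‖a‖ = 0 := h2
    simp only [hκ] at this
    have h3 : ‖a‖ - t ≤ max (‖a‖ - t) 0 := le_max_left _ _
    linarith
  have hyΩ : y Ω ≠ 0 := fun h0 => hy0 (h.faithful y hyN h0)
  have hpos : 0 ≤ y * a * y - t • (y * y) := by
    have e1 : y * a * y - t • (y * y) = cfc (fun s => κ s * s * κ s - t • (κ s * κ s)) a := by
      rw [cfc_sub _ _ a, cfc_mul _ _ a, cfc_mul _ _ a, cfc_smul t _ a, cfc_mul _ _ a, cfc_id' ℝ a]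
    rw [e1]
    apply cfc_nonneg
    intro s _
    simp only [hκ, smul_eq_mul]
    rcases le_total (s - t) 0 with h1 | h1
    · rw [max_eq_right h1]; simp
    · rw [max_eq_left h1]; nlinarith [mul_nonneg h1 (mul_nonneg h1 h1)]
  have h4 := ((ContinuousLinearMap.nonneg_iff_isPositive _).1 hpos).re_inner_nonneg_right Ω
  have e2 : ⟪Ω, (y * a * y - t • (y * y)) Ω⟫_ℂ =
      ((‖b (y Ω)‖ ^ 2 - t * ‖y Ω‖ ^ 2 : ℝ) : ℂ) := by
    have e3 : y * a * y = star (b * y) * (b * y) := by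
      rw [star_mul, hysa.star_eq, ha]; noncomm_ring
    have e4 : y * y = star y * y := by rw [hysa.star_eq]
    rw [← tr_apply, map_sub, e3, e4, tr_star_mul_self]
    rw [show t • (star y * y) = (t : ℂ) • (star y * y) from by simp, map_smul, tr_star_mul_self]
    simp
  rw [e2] at h4
  simp only [RCLike.re_to_complex, Complex.ofReal_re] at h4
  have h5 := hbC y hyN
  have h6 : 0 < ‖y Ω‖ := norm_pos_iff.2 hyΩ
  have h7 : ‖b (y Ω)‖ ^ 2 ≤ (C * ‖y Ω‖) ^ 2 := by gcongr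
  nlinarith [mul_pos h6 h6]

end TrOn

/-- A decreasing sequence of projections starting at `1` whose traces tend to zero. -/
structure IsPt (Ω : H) (e : ℕ → (H →L[ℂ] H)) : Prop where
  proj : ∀ n, IsStarProjection (e n)
  zero : e 0 = 1
  anti : ∀ n, e n * e (n + 1) = e (n + 1)
  lim : Tendsto (fun n => e n Ω) atTop (𝓝 0)

namespace IsPt

variable {Ω : H} {e : ℕ → (H →L[ℂ] H)}

lemma star_eq (h : IsPt Ω e) (n : ℕ) : star (e n) = e n := (h.proj n).isSelfAdjoint.star_eq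

lemma mul_self (h : IsPt Ω e) (n : ℕ) : e n * e n = e n := (h.proj n).isIdempotentElem.eq

lemma norm_le (h : IsPt Ω e) (n : ℕ) : ‖e n‖ ≤ 1 := (h.proj n).norm_le

lemma mul_of_le (h : IsPt Ω e) {m n : ℕ} (hmn : m ≤ n) : e m * e n = e n := by
  induction n, hmn using Nat.le_induction with
  | base => exact h.mul_self m
  | succ n _ ih => rw [← h.anti n, ← mul_assoc, ih]

lemma mul_of_ge (h : IsPt Ω e) {m n : ℕ} (hmn : m ≤ n) : e n * e m = e n := by
  have := congrArg star (h.mul_of_le hmn)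
  rwa [star_mul, h.star_eq, h.star_eq] at this

lemma mul_eq (h : IsPt Ω e) (m n : ℕ) : e m * e n = e (max m n) := by
  rcases le_total m n with h1 | h1
  · rw [max_eq_right h1, h.mul_of_le h1]
  · rw [max_eq_left h1, h.mul_of_ge h1]

lemma sub_proj (h : IsPt Ω e) {m n : ℕ} (hmn : m ≤ n) : IsStarProjection (e m - e n) := by
  refine ⟨?_, ?_⟩
  · unfold IsIdempotentElem
    rw [mul_sub, sub_mul, sub_mul, h.mul_self, h.mul_self, h.mul_of_le hmn, h.mul_of_ge hmn]
    abel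
  · exact (h.proj m).isSelfAdjoint.sub (h.proj n).isSelfAdjoint

end IsPt

/-- The compressions of `a` between the two sequences tend to zero in norm. -/
def Van (e : ℕ → (H →L[ℂ] H)) (a : H →L[ℂ] H) (e' : ℕ → (H →L[ℂ] H)) : Prop :=
  Tendsto (fun n => e n * a * e' n) atTop (𝓝 0)

/-- The compressions of `a` to the sequence are asymptotically scalar. -/
def Exc (e : ℕ → (H →L[ℂ] H)) (a : H →L[ℂ] H) : Prop :=
  ∃ c : ℂ, Van e (a - c • 1) e

section Van

variable {Ω : H} {e e' : ℕ → (H →L[ℂ] H)}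

lemma norm_compress_le (he : IsPt Ω e) (he' : IsPt Ω e') (a : H →L[ℂ] H) (n n' : ℕ) :
    ‖e n * a * e' n'‖ ≤ ‖a‖ := by
  calc ‖e n * a * e' n'‖ ≤ ‖e n‖ * ‖a‖ * ‖e' n'‖ :=
        (norm_mul_le _ _).trans (by gcongr; exact norm_mul_le _ _)
    _ ≤ 1 * ‖a‖ * 1 := by gcongr; exacts [he.norm_le n, he'.norm_le n']
    _ = ‖a‖ := by ring

lemma norm_compress_anti (he : IsPt Ω e) (he' : IsPt Ω e') (a : H →L[ℂ] H) {m n m' n' : ℕ}
    (h : m ≤ n) (h' : m' ≤ n') : ‖e n * a * e' n'‖ ≤ ‖e m * a * e' m'‖ := by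
  have : e n * a * e' n' = e n * (e m * a * e' m') * e' n' := by
    conv_lhs => rw [← he.mul_of_ge h, ← he'.mul_of_le h']
    noncomm_ring
  rw [this]
  exact norm_compress_le he he' _ _ _

lemma van_iff (he : IsPt Ω e) (he' : IsPt Ω e') (a : H →L[ℂ] H) :
    Van e a e' ↔ ∀ ε > 0, ∃ m m', ‖e m * a * e' m'‖ < ε := by
  unfold Van
  rw [NormedAddGroup.tendsto_nhds_zero]
  constructor
  · intro h ε hε
    obtain ⟨n, hn⟩ := (h ε hε).exists
    exact ⟨n, n, hn⟩
  · intro h ε hε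
    obtain ⟨m, m', hm⟩ := h ε hε
    filter_upwards [eventually_ge_atTop m, eventually_ge_atTop m'] with n h1 h2
    exact (norm_compress_anti he he' a h1 h2).trans_lt hm

lemma Van.exists_forall (he : IsPt Ω e) (he' : IsPt Ω e') {a : H →L[ℂ] H} (h : Van e a e')
    {ε : ℝ} (hε : 0 < ε) : ∃ m, ∀ n ≥ m, ∀ n' ≥ m, ‖e n * a * e' n'‖ < ε := by
  obtain ⟨m, m', hm⟩ := (van_iff he he' a).1 h ε hε
  exact ⟨max m m', fun n hn n' hn' => (norm_compress_anti he he' a
    (le_trans (le_max_left _ _) hn) (le_trans (le_max_right _ _) hn')).trans_lt hm⟩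

lemma not_van_iff (he : IsPt Ω e) (he' : IsPt Ω e') (a : H →L[ℂ] H) :
    ¬ Van e a e' ↔ ∃ ε > 0, ∀ m m', ε ≤ ‖e m * a * e' m'‖ := by
  rw [van_iff he he']; push Not; rfl

lemma Van.star (he : IsPt Ω e) (he' : IsPt Ω e') {a : H →L[ℂ] H} (h : Van e a e') :
    Van e' (star a) e := by
  have := Tendsto.star h
  simp only [star_mul, he.star_eq, he'.star_eq, star_zero, ← mul_assoc] at this
  exact this

omit [CompleteSpace H] in
lemma Van.add {a b : H →L[ℂ] H} (h : Van e a e') (h' : Van e b e') : Van e (a + b) e' := by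
  have := Tendsto.add h h'
  simp only [add_zero] at this
  unfold Van
  simpa only [mul_add, add_mul] using this

omit [CompleteSpace H] in
lemma Van.smul {a : H →L[ℂ] H} (c : ℂ) (h : Van e a e') : Van e (c • a) e' := by
  have := Tendsto.const_smul h c
  simp only [smul_zero] at this
  unfold Van
  simpa only [mul_smul_comm, smul_mul_assoc] using this

omit [CompleteSpace H] in
lemma Van.zero : Van e 0 e' := by
  unfold Van
  simp

/-- The elements whose compressions vanish. -/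
def vanSub (e e' : ℕ → (H →L[ℂ] H)) : Submodule ℂ (H →L[ℂ] H) where
  carrier := {a | Van e a e'}
  add_mem' := Van.add
  zero_mem' := Van.zero
  smul_mem' := fun c _ h => Van.smul c h

lemma isClosed_vanSub (he : IsPt Ω e) (he' : IsPt Ω e') :
    IsClosed (vanSub e e' : Set (H →L[ℂ] H)) := by
  apply isClosed_of_closure_subset
  intro a ha
  change Van e a e'
  rw [van_iff he he']
  intro ε hε
  obtain ⟨b, hb, hab⟩ := Metric.mem_closure_iff.1 ha (ε / 2) (by positivity)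
  obtain ⟨m, m', hm⟩ := (van_iff he he' b).1 hb (ε / 2) (by positivity)
  refine ⟨m, m', ?_⟩
  have : e m * a * e' m' = e m * (a - b) * e' m' + e m * b * e' m' := by noncomm_ring
  rw [this]
  have h1 := norm_compress_le he he' (a - b) m m'
  rw [dist_eq_norm] at hab
  linarith [norm_add_le (e m * (a - b) * e' m') (e m * b * e' m')]

/-- The excised elements. -/
noncomputable def excSub (e : ℕ → (H →L[ℂ] H)) : Submodule ℂ (H →L[ℂ] H) :=
  vanSub e e ⊔ Submodule.span ℂ {1}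

omit [CompleteSpace H] in
lemma mem_excSub {a : H →L[ℂ] H} : a ∈ excSub e ↔ Exc e a := by
  unfold excSub Exc
  rw [Submodule.mem_sup]
  constructor
  · rintro ⟨x, hx, y, hy, rfl⟩
    obtain ⟨c, rfl⟩ := Submodule.mem_span_singleton.1 hy
    exact ⟨c, by rw [add_sub_cancel_right]; exact hx⟩
  · rintro ⟨c, hc⟩
    exact ⟨_, hc, c • 1, Submodule.mem_span_singleton.2 ⟨c, rfl⟩, by simp⟩

lemma isClosed_excSub (he : IsPt Ω e) : IsClosed (excSub e : Set (H →L[ℂ] H)) :=
  Submodule.isClosed_sup_finiteDimensional _ _ (isClosed_vanSub he he)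

omit [CompleteSpace H] in
lemma Van.exc {a : H →L[ℂ] H} (h : Van e a e) : Exc e a := ⟨0, by simpa using h⟩

lemma exc_of_forall (he : IsPt Ω e) {a : H →L[ℂ] H}
    (h : ∀ ε > 0, ∃ (m : ℕ) (c : ℂ), ‖e m * (a - c • 1) * e m‖ < ε) : Exc e a := by
  rw [← mem_excSub]
  apply (isClosed_excSub he).closure_subset
  rw [Metric.mem_closure_iff]
  intro ε hε
  obtain ⟨m, c, hm⟩ := h ε hε
  refine ⟨a - e m * (a - c • 1) * e m, ?_, by simpa [dist_eq_norm] using hm⟩
  change _ ∈ excSub e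
  rw [mem_excSub]
  refine ⟨c, ?_⟩
  rw [van_iff he he]
  intro δ hδ
  refine ⟨m, m, ?_⟩
  have : e m * (a - e m * (a - c • 1) * e m - c • 1) * e m = 0 := by
    have h1 := he.mul_self m
    calc e m * (a - e m * (a - c • 1) * e m - c • 1) * e m
        = e m * (a - c • 1) * e m - (e m * e m) * (a - c • 1) * (e m * e m) := by noncomm_ring
      _ = 0 := by rw [h1, sub_self]
  rw [this, norm_zero]
  exact hδ

end Van

end Crest.Agent.R120
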