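import Mathlib

/-! Row 120: the bookkeeping well-order. -/

set_option autoImplicit false

namespace Crest.Agent.R120

open Cardinal in
/-- A well-order `ι` of uncountable cofinality with a listing of all codes in which every code
occurs above every given stage. -/
theorem exists_bookkeeping :
    ∃ (ι : Type) (_ : LinearOrder ι) (_ : WellFoundedLT ι),
      (∀ s : Set ι, s.Countable → ∃ β : ι, ∀ γ ∈ s, γ < β) ∧
      ∃ σ : ι → (Bool → ℕ → ℕ → (FreeGroup (ℕ ⊕ ι) →₀ ℂ)),
        ∀ (c : Bool → ℕ → ℕ → (FreeGroup (ℕ ⊕ ι) →₀ ℂ)) (β : ι), ∃ γ : ι, β < γ ∧ σ γ = c := by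
  let ι : Type := (continuum : Cardinal.{0}).ord.ToType
  have hι : #ι = continuum := mk_ord_toType _
  refine ⟨ι, inferInstance, inferInstance, ?_, ?_⟩
  · intro s hs
    rw [← not_isCofinal_iff]
    intro hc
    have h1 := Order.cof_le hc
    have h2 : Order.cof ι = (continuum : Cardinal.{0}).ord.cof := Ordinal.cof_toType _
    have h3 : ℵ₀ < (continuum : Cardinal.{0}).ord.cof := by
      have := lt_cof_ord_power (a := ℵ₀) (b := (2 : Cardinal.{0})) le_rfl (by norm_num)
      rwa [two_power_aleph0] at this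
    have h4 : #s ≤ ℵ₀ := le_aleph0_iff_set_countable.mpr hs
    rw [h2] at h1
    exact absurd (h1.trans h4) (not_le.mpr h3)
  · have hF : #(FreeGroup (ℕ ⊕ ι)) = continuum := by
      rw [mk_freeGroup, mk_sum, hι]
      simp [aleph0_le_continuum]
    haveI : Infinite (FreeGroup (ℕ ⊕ ι)) := by
      rw [Cardinal.infinite_iff, hF]; exact aleph0_le_continuum
    have hS : #(FreeGroup (ℕ ⊕ ι) →₀ ℂ) = continuum := by
      rw [mk_finsupp_of_infinite, hF, mk_complex, max_self]
    have hC : #(Bool → ℕ → ℕ → (FreeGroup (ℕ ⊕ ι) →₀ ℂ)) = continuum := by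
      rw [← power_def, ← power_def, ← power_def, hS]
      simp only [mk_eq_aleph0 ℕ, continuum_power_aleph0, mk_bool]
      rw [show (2 : Cardinal.{0}) = 1 + 1 from one_add_one_eq_two.symm, power_add, power_one,
        continuum_mul_self]
    have hP : #ι = #(ι × (Bool → ℕ → ℕ → (FreeGroup (ℕ ⊕ ι) →₀ ℂ))) := by
      rw [mk_prod, hC, hι]
      simp
    obtain ⟨e⟩ := Cardinal.eq.mp hP
    refine ⟨fun γ => (e γ).2, fun c β => ?_⟩
    by_contra hn
    push Not at hn
    have hle : ∀ δ : ι, e.symm (δ, c) ≤ β := by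
      intro δ
      by_contra h
      exact hn _ (not_le.mp h) (by simp)
    have hinj : Function.Injective (fun δ : ι => (⟨e.symm (δ, c), hle δ⟩ : Set.Iic β)) := by
      intro a b hab
      have := congrArg Subtype.val hab
      simpa using this
    have h1 : #ι ≤ #(Set.Iic β) := mk_le_of_injective hinj
    have h2 : #(Set.Iic β) < #ι := by
      apply mk_Iic_lt β
      · rw [hι]; simp [ι]
      · rw [hι]; exact aleph0_le_continuum
    exact absurd h1 (not_le.mpr h2)

end Crest.Agent.R120
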