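import Crest.Agent.R120.Basic

/-! Row 120: the diagonal algebra of a projection sequence and the conditional expectation. -/

set_option autoImplicit false
set_option linter.unusedSectionVars false

open scoped InnerProductSpace
open Filter Topology

namespace Crest.Agent.R120

variable {H : Type*} [NormedAddCommGroup H] [InnerProductSpace ℂ H] [CompleteSpace H]

lemma norm_add_le_max_of_orth {x y : H →L[ℂ] H} (h1 : star x * y = 0) (h2 : x * star y = 0) :
    ‖x + y‖ ≤ max ‖x‖ ‖y‖ := by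
  have h1' : star y * x = 0 := by simpa using congrArg star h1
  have e : star (x + y) * (x + y) = star x * x + star y * y := by
    rw [star_add, add_mul, mul_add, mul_add, h1, h1']; abel
  have h3 : (star x * x) * (star y * y) = 0 := by
    rw [mul_assoc, ← mul_assoc x, h2, zero_mul, mul_zero]
  have h4 := IsSelfAdjoint.norm_add_eq_max (IsSelfAdjoint.star_mul_self x)
    (IsSelfAdjoint.star_mul_self y) h3
  rw [← e, CStarRing.norm_star_mul_self, CStarRing.norm_star_mul_self,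
    CStarRing.norm_star_mul_self] at h4
  have hx := norm_nonneg x
  have hy := norm_nonneg y
  have hxy := norm_nonneg (x + y)
  rcases le_total ‖x‖ ‖y‖ with h | h
  · rw [max_eq_right h]
    rw [max_eq_right (by nlinarith)] at h4
    nlinarith
  · rw [max_eq_left h]
    rw [max_eq_left (by nlinarith)] at h4
    nlinarith

lemma norm_sum_le_of_orth {ι : Type*} (x : ι → (H →L[ℂ] H))
    (h1 : ∀ i j, i ≠ j → star (x i) * x j = 0) (h2 : ∀ i j, i ≠ j → x i * star (x j) = 0)
    {M : ℝ} (hM : 0 ≤ M) (s : Finset ι) (hs : ∀ i ∈ s, ‖x i‖ ≤ M) : ‖∑ i ∈ s, x i‖ ≤ M := by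
  classical
  induction s using Finset.induction with
  | empty => simpa using hM
  | insert j s hj ih =>
    rw [Finset.sum_insert hj]
    refine (norm_add_le_max_of_orth ?_ ?_).trans (max_le (hs j (by simp))
      (ih fun i hi => hs i (by simp [hi])))
    · rw [Finset.mul_sum]
      exact Finset.sum_eq_zero fun i hi => h1 j i (by rintro rfl; exact hj hi)
    · rw [star_sum, Finset.mul_sum]
      exact Finset.sum_eq_zero fun i hi => h2 j i (by rintro rfl; exact hj hi)

/-- The closed span of a projection sequence. -/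
noncomputable def Dsp (p : ℕ → (H →L[ℂ] H)) : Submodule ℂ (H →L[ℂ] H) :=
  (Submodule.span ℂ (Set.range p)).topologicalClosure

/-- `a` is orthogonal to the diagonal algebra of `p`. -/
def Cen (Ω : H) (p : ℕ → (H →L[ℂ] H)) (a : H →L[ℂ] H) : Prop := ∀ n, tr Ω (p n * a) = 0

variable {Ω : H} {p : ℕ → (H →L[ℂ] H)} {N : StarSubalgebra ℂ (H →L[ℂ] H)}

lemma mem_Dsp (p : ℕ → (H →L[ℂ] H)) (n : ℕ) : p n ∈ Dsp p :=
  Submodule.le_topologicalClosure _ (Submodule.subset_span ⟨n, rfl⟩)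

lemma isClosed_Dsp (p : ℕ → (H →L[ℂ] H)) : IsClosed (Dsp p : Set (H →L[ℂ] H)) :=
  Submodule.isClosed_topologicalClosure _

lemma Dsp_le {V : Submodule ℂ (H →L[ℂ] H)} (hV : IsClosed (V : Set (H →L[ℂ] H)))
    (h : ∀ n, p n ∈ V) : Dsp p ≤ V :=
  Submodule.topologicalClosure_minimal _ (Submodule.span_le.2 (by rintro _ ⟨n, rfl⟩; exact h n)) hV

/-- A continuous linear map into a closed subspace on the generators maps `Dsp` there. -/
lemma Dsp_map {E : Type*} [NormedAddCommGroup E] [NormedSpace ℂ E] (f : (H →L[ℂ] H) →L[ℂ] E)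
    {V : Submodule ℂ E} (hV : IsClosed (V : Set E)) (h : ∀ n, f (p n) ∈ V) {d : H →L[ℂ] H}
    (hd : d ∈ Dsp p) : f d ∈ V :=
  Dsp_le (V := V.comap (f : (H →L[ℂ] H) →ₗ[ℂ] E)) (hV.preimage f.continuous) h hd

lemma Dsp_eq_zero {E : Type*} [NormedAddCommGroup E] [NormedSpace ℂ E]
    (f : (H →L[ℂ] H) →L[ℂ] E) (h : ∀ n, f (p n) = 0) {d : H →L[ℂ] H} (hd : d ∈ Dsp p) :
    f d = 0 :=
  Dsp_map f (V := ⊥) (by simp) h hd

lemma Dsp_mem_alg (hN : IsClosed (N : Set (H →L[ℂ] H))) (h : ∀ n, p n ∈ N) {d : H →L[ℂ] H}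
    (hd : d ∈ Dsp p) : d ∈ N :=
  Dsp_le (V := Subalgebra.toSubmodule N.toSubalgebra) hN h hd

lemma Dsp_mul (hp : IsPt Ω p) {d d' : H →L[ℂ] H} (hd : d ∈ Dsp p) (hd' : d' ∈ Dsp p) :
    d * d' ∈ Dsp p := by
  have h1 : ∀ n, p n * d' ∈ Dsp p := fun n =>
    Dsp_map (ContinuousLinearMap.mul ℂ _ (p n)) (isClosed_Dsp p)
      (fun m => by rw [ContinuousLinearMap.mul_apply', hp.mul_eq]; exact mem_Dsp p _) hd'
  exact Dsp_map ((ContinuousLinearMap.mul ℂ _).flip d') (isClosed_Dsp p) h1 hd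

lemma Dsp_star (hp : IsPt Ω p) {d : H →L[ℂ] H} (hd : d ∈ Dsp p) : star d ∈ Dsp p := by
  let V : Submodule ℂ (H →L[ℂ] H) :=
    { carrier := {x | star x ∈ Dsp p}
      add_mem' := fun {a b} ha hb => by
        simp only [Set.mem_ofPred_eq, star_add]; exact add_mem ha hb
      zero_mem' := by simp
      smul_mem' := fun c a ha => by
        simp only [Set.mem_ofPred_eq, star_smul]; exact Submodule.smul_mem _ _ ha }
  exact Dsp_le (V := V) ((isClosed_Dsp p).preimage continuous_star)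
    (fun n => by change star (p n) ∈ Dsp p; rw [hp.star_eq]; exact mem_Dsp p n) hd

lemma one_mem_Dsp (hp : IsPt Ω p) : (1 : H →L[ℂ] H) ∈ Dsp p := hp.zero ▸ mem_Dsp p 0

lemma Cen.of_Dsp {a : H →L[ℂ] H} (h : Cen Ω p a) {d : H →L[ℂ] H} (hd : d ∈ Dsp p) :
    tr Ω (d * a) = 0 :=
  Dsp_eq_zero (p := p) ((tr Ω).comp ((ContinuousLinearMap.mul ℂ (H →L[ℂ] H)).flip a))
    (fun n => h n) hd

lemma Cen.tr_eq_zero (hp : IsPt Ω p) {a : H →L[ℂ] H} (h : Cen Ω p a) : tr Ω a = 0 := by
  simpa [hp.zero] using h 0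

lemma Cen.mul_left (hp : IsPt Ω p) {a d : H →L[ℂ] H} (h : Cen Ω p a) (hd : d ∈ Dsp p) :
    Cen Ω p (d * a) := fun n => by
  rw [← mul_assoc]; exact h.of_Dsp (Dsp_mul hp (mem_Dsp p n) hd)

lemma Cen.mul_right (hN : TrOn Ω N) (hp : IsPt Ω p) (hpN : ∀ n, p n ∈ N) {a d : H →L[ℂ] H}
    (ha : a ∈ N) (h : Cen Ω p a) (hd : d ∈ Dsp p) : Cen Ω p (a * d) := fun n => by
  rw [← mul_assoc, hN.comm _ (mul_mem (hpN n) ha) _ (Dsp_mem_alg hN.closed hpN hd), ← mul_assoc]
  exact h.of_Dsp (Dsp_mul hp hd (mem_Dsp p n))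

lemma Cen.star (hN : TrOn Ω N) (hp : IsPt Ω p) (hpN : ∀ n, p n ∈ N) {a : H →L[ℂ] H}
    (ha : a ∈ N) (h : Cen Ω p a) : Cen Ω p (star a) := fun n => by
  have : p n * Star.star a = Star.star (a * p n) := by rw [star_mul, hp.star_eq]
  rw [this, tr_star, hN.comm _ ha _ (hpN n), h n, star_zero]

lemma Cen.add {a b : H →L[ℂ] H} (h : Cen Ω p a) (h' : Cen Ω p b) : Cen Ω p (a + b) := fun n => by
  rw [mul_add, map_add, h n, h' n, add_zero]

lemma Cen.sub {a b : H →L[ℂ] H} (h : Cen Ω p a) (h' : Cen Ω p b) : Cen Ω p (a - b) := fun n => by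
  rw [mul_sub, map_sub, h n, h' n, sub_zero]

lemma Cen.smul {a : H →L[ℂ] H} (c : ℂ) (h : Cen Ω p a) : Cen Ω p (c • a) := fun n => by
  rw [mul_smul_comm, map_smul, h n, smul_zero]

lemma tendsto_tr_mul (hp : IsPt Ω p) (a : H →L[ℂ] H) :
    Tendsto (fun n => tr Ω (p n * a)) atTop (𝓝 0) := by
  have : (fun n => tr Ω (p n * a)) = fun n => ⟪p n Ω, a Ω⟫_ℂ := by
    funext n; rw [← tr_star_mul, hp.star_eq]
  rw [this]
  simpa using hp.lim.inner (𝕜 := ℂ) (tendsto_const_nhds (x := a Ω))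

lemma norm_sq_sub_succ (hp : IsPt Ω p) (j : ℕ) :
    ‖(p j - p (j + 1)) Ω‖ ^ 2 = ‖p j Ω‖ ^ 2 - ‖p (j + 1) Ω‖ ^ 2 := by
  have h1 := tr_proj Ω (hp.sub_proj (Nat.le_succ j))
  rw [map_sub, tr_proj Ω (hp.proj j), tr_proj Ω (hp.proj (j + 1))] at h1
  exact_mod_cast h1.symm

lemma norm_tr_mul_le_of_steps (hp : IsPt Ω p) {a : H →L[ℂ] H} {M : ℝ} (hM : 0 ≤ M)
    (h : ∀ j, ‖tr Ω ((p j - p (j + 1)) * a)‖ ≤ M * ‖(p j - p (j + 1)) Ω‖ ^ 2) (n : ℕ) :
    ‖tr Ω (p n * a)‖ ≤ M * ‖p n Ω‖ ^ 2 := by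
  have h1 : ∀ k, ‖tr Ω (p n * a) - tr Ω (p (n + k) * a)‖ ≤
      M * (‖p n Ω‖ ^ 2 - ‖p (n + k) Ω‖ ^ 2) := by
    intro k
    induction k with
    | zero => simp
    | succ k ih =>
      have h2 := h (n + k)
      rw [norm_sq_sub_succ hp, sub_mul, map_sub] at h2
      have h3 := norm_sub_le_norm_sub_add_norm_sub (tr Ω (p n * a)) (tr Ω (p (n + k) * a))
        (tr Ω (p (n + k + 1) * a))
      rw [← add_assoc]
      nlinarith
  have h2 : Tendsto (fun k => ‖tr Ω (p n * a) - tr Ω (p (n + k) * a)‖) atTop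
      (𝓝 ‖tr Ω (p n * a) - 0‖) := by
    apply Tendsto.norm
    apply tendsto_const_nhds.sub
    have := (tendsto_tr_mul hp a).comp (tendsto_add_atTop_nat n)
    simpa [Function.comp_def, add_comm] using this
  rw [sub_zero] at h2
  refine le_of_tendsto' h2 fun k => (h1 k).trans ?_
  nlinarith [sq_nonneg ‖p (n + k) Ω‖]

lemma cen_of_steps (hp : IsPt Ω p) {a : H →L[ℂ] H}
    (h : ∀ j, tr Ω ((p j - p (j + 1)) * a) = 0) : Cen Ω p a := fun n => by
  have := norm_tr_mul_le_of_steps hp (a := a) (le_refl 0) (fun j => by rw [h j]; simp) n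
  simpa using this

lemma norm_tr_proj_mul_le (hN : TrOn Ω N) {q y : H →L[ℂ] H} (hq : IsStarProjection q)
    (hqN : q ∈ N) (hy : y ∈ N) : ‖tr Ω (q * y)‖ ≤ ‖q * y * q‖ * ‖q Ω‖ ^ 2 := by
  have hqq : q * q = q := hq.isIdempotentElem.eq
  have h1 : tr Ω (q * y) = ⟪q Ω, (q * y * q) (q Ω)⟫_ℂ := by
    have e1 : tr Ω (q * y) = tr Ω (q * y * q) := by
      rw [hN.comm _ (mul_mem hqN hy) _ hqN, ← mul_assoc, hqq]
    rw [e1, ← mul_apply_eq_comp, ← tr_star_mul, hq.isSelfAdjoint.star_eq]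
    congr 1
    calc q * y * q = (q * q) * y * (q * q) := by rw [hqq]
      _ = _ := by noncomm_ring
  rw [h1]
  calc _ ≤ ‖q Ω‖ * ‖(q * y * q) (q Ω)‖ := norm_inner_le_norm _ _
    _ ≤ ‖q Ω‖ * (‖q * y * q‖ * ‖q Ω‖) := by gcongr; exact ContinuousLinearMap.le_opNorm _ _
    _ = _ := by ring

/-- A scalar multiple of a projection is controlled by its trace. -/
lemma norm_smul_proj_le (hN : TrOn Ω N) {q : H →L[ℂ] H} (hq : IsStarProjection q)
    (hqN : q ∈ N) {c : ℂ} {M : ℝ} (hM : 0 ≤ M) (h : ‖c‖ * ‖q Ω‖ ^ 2 ≤ M * ‖q Ω‖ ^ 2) :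
    ‖c • q‖ ≤ M := by
  by_cases h0 : q Ω = 0
  · rw [hN.faithful q hqN h0]; simpa using hM
  · have h1 : 0 < ‖q Ω‖ ^ 2 := by positivity
    have h2 : ‖c‖ ≤ M := le_of_mul_le_mul_right h h1
    rw [norm_smul]
    calc ‖c‖ * ‖q‖ ≤ M * 1 := by gcongr; exact hq.norm_le
      _ = M := mul_one M

lemma steps_mul_eq_zero (hp : IsPt Ω p) {i j : ℕ} (hij : i ≠ j) :
    (p i - p (i + 1)) * (p j - p (j + 1)) = 0 := by
  rw [mul_sub, sub_mul, sub_mul, hp.mul_eq, hp.mul_eq, hp.mul_eq, hp.mul_eq]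
  rcases lt_or_gt_of_ne hij with h | h
  · rw [max_eq_right (by omega), max_eq_right (by omega), max_eq_right (by omega),
      max_eq_right (by omega)]; abel
  · rw [max_eq_left (by omega), max_eq_left (by omega), max_eq_left (by omega),
      max_eq_left (by omega)]; abel

lemma norm_step_compress_le (hp : IsPt Ω p) (y : H →L[ℂ] H) (j : ℕ) :
    ‖(p j - p (j + 1)) * y * (p j - p (j + 1))‖ ≤ ‖p j * y * p j‖ := by
  have hq := hp.sub_proj (Nat.le_succ j)
  have h1 : (p j - p (j + 1)) * p j = p j - p (j + 1) := by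
    rw [sub_mul, hp.mul_self, hp.mul_of_ge (Nat.le_succ j)]
  have h2 : p j * (p j - p (j + 1)) = p j - p (j + 1) := by
    rw [mul_sub, hp.mul_self, hp.anti]
  have : (p j - p (j + 1)) * y * (p j - p (j + 1)) =
      (p j - p (j + 1)) * (p j * y * p j) * (p j - p (j + 1)) := by
    conv_lhs => rw [← h1]; rhs; rw [h1, ← h2]
    noncomm_ring
  rw [this]
  calc _ ≤ ‖p j - p (j + 1)‖ * ‖p j * y * p j‖ * ‖p j - p (j + 1)‖ :=
        (norm_mul_le _ _).trans (by gcongr; exact norm_mul_le _ _)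
    _ ≤ 1 * ‖p j * y * p j‖ * 1 := by gcongr <;> exact hq.norm_le
    _ = _ := by ring

/-- Excised and centred elements vanish. -/
lemma van_of_cen (hN : TrOn Ω N) (hp : IsPt Ω p) (hpN : ∀ n, p n ∈ N) {a : H →L[ℂ] H}
    (ha : a ∈ N) (hexc : Exc p a) (hc : Cen Ω p a) : Van p a p := by
  obtain ⟨f, hf⟩ := hexc
  rw [van_iff hp hp] at hf ⊢
  intro ε hε
  obtain ⟨m, m', hm⟩ := hf (ε / 2) (by positivity)
  set n := max m m'
  have h1 : ‖p n * (a - f • 1) * p n‖ < ε / 2 :=
    (norm_compress_anti hp hp _ (le_max_left _ _) (le_max_right _ _)).trans_lt hm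
  refine ⟨n, n, ?_⟩
  have hy : a - f • 1 ∈ N := sub_mem ha (SMulMemClass.smul_mem _ (one_mem _))
  have h2 : ‖f • p n‖ ≤ ‖p n * (a - f • 1) * p n‖ := by
    apply norm_smul_proj_le hN (hp.proj n) (hpN n) (norm_nonneg _)
    have h3 := norm_tr_proj_mul_le hN (hp.proj n) (hpN n) hy
    rw [mul_sub, map_sub, hc n, mul_smul_comm, mul_one, map_smul, tr_proj Ω (hp.proj n)] at h3
    simpa [mul_sub] using h3
  have h3 : p n * a * p n = p n * (a - f • 1) * p n + f • p n := by
    rw [mul_sub, sub_mul, mul_smul_comm, mul_one, smul_mul_assoc, hp.mul_self]; abel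
  rw [h3]
  linarith [norm_add_le (p n * (a - f • 1) * p n) (f • p n)]

/-- The conditional expectation onto the diagonal algebra of an excised element. -/
theorem exists_decomp (hN : TrOn Ω N) (hp : IsPt Ω p) (hpN : ∀ n, p n ∈ N) {a : H →L[ℂ] H}
    (ha : a ∈ N) (hexc : Exc p a) :
    ∃ d ∈ Dsp p, Cen Ω p (a - d) ∧ ∀ M : ℝ, 0 ≤ M →
      (∀ j, ‖tr Ω ((p j - p (j + 1)) * a)‖ ≤ M * ‖(p j - p (j + 1)) Ω‖ ^ 2) → ‖d‖ ≤ M := by
  obtain ⟨f, hf⟩ := hexc
  set q : ℕ → (H →L[ℂ] H) := fun j => p j - p (j + 1) with hq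
  have hqp : ∀ j, IsStarProjection (q j) := fun j => hp.sub_proj (Nat.le_succ j)
  have hqN : ∀ j, q j ∈ N := fun j => sub_mem (hpN _) (hpN _)
  have hqD : ∀ j, q j ∈ Dsp p := fun j => sub_mem (mem_Dsp p _) (mem_Dsp p _)
  set c : ℕ → ℂ := fun j => tr Ω (q j * a) / tr Ω (q j) with hc
  have hcq : ∀ j, c j * tr Ω (q j) = tr Ω (q j * a) := by
    intro j
    by_cases h0 : tr Ω (q j) = 0
    · have : q j = 0 := by
        apply hN.faithful _ (hqN j)
        rw [tr_proj Ω (hqp j)] at h0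
        have : ‖q j Ω‖ ^ 2 = 0 := by exact_mod_cast h0
        simpa using this
      simp [this]
    · simp only [hc]; field_simp
  have hy : a - f • 1 ∈ N := sub_mem ha (SMulMemClass.smul_mem _ (one_mem _))
  have horth : ∀ (α : ℕ → ℂ) (i j : ℕ), i ≠ j → star (α i • q i) * (α j • q j) = 0 := by
    intro α i j hij
    rw [star_smul, (hqp i).isSelfAdjoint.star_eq, smul_mul_assoc, mul_smul_comm,
      steps_mul_eq_zero hp hij]; simp
  have horth' : ∀ (α : ℕ → ℂ) (i j : ℕ), i ≠ j → (α i • q i) * star (α j • q j) = 0 := by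
    intro α i j hij
    rw [star_smul, (hqp j).isSelfAdjoint.star_eq, smul_mul_assoc, mul_smul_comm,
      steps_mul_eq_zero hp hij]; simp
  have hterm : ∀ j, ‖(c j - f) • q j‖ ≤ ‖p j * (a - f • 1) * p j‖ := by
    intro j
    apply norm_smul_proj_le hN (hqp j) (hqN j) (norm_nonneg _)
    have h3 := norm_tr_proj_mul_le hN (hqp j) (hqN j) hy
    have e3 : tr Ω (q j * (a - f • 1)) = (c j - f) * tr Ω (q j) := by
      rw [mul_sub, map_sub, mul_smul_comm, mul_one, map_smul, ← hcq j, smul_eq_mul, ← sub_mul]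
    rw [e3, norm_mul, tr_proj Ω (hqp j)] at h3
    have h4 := norm_step_compress_le hp (a - f • 1) j
    rw [Complex.norm_real, Real.norm_of_nonneg (by positivity)] at h3
    refine h3.trans ?_
    gcongr
  have hsum : Summable fun j => (c j - f) • q j := by
    rw [summable_iff_vanishing_norm]
    intro ε hε
    obtain ⟨m, hm⟩ := Van.exists_forall hp hp hf (half_pos hε)
    refine ⟨Finset.range m, fun t ht => ?_⟩
    refine lt_of_le_of_lt (norm_sum_le_of_orth _ (horth _) (horth' _) (half_pos hε).le t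
      fun i hi => ?_) (half_lt_self hε)
    have : m ≤ i := by
      by_contra h
      exact Finset.disjoint_left.1 ht hi (Finset.mem_range.2 (not_le.1 h))
    exact (hterm i).trans (hm i this i this).le
  set d := f • (1 : H →L[ℂ] H) + ∑' j, (c j - f) • q j with hd
  have hlim : Tendsto (fun n => f • (1 : H →L[ℂ] H) + ∑ j ∈ Finset.range n, (c j - f) • q j)
      atTop (𝓝 d) := tendsto_const_nhds.add hsum.hasSum.tendsto_sum_nat
  refine ⟨d, ?_, ?_, ?_⟩
  · refine (isClosed_Dsp p).mem_of_tendsto hlim (Eventually.of_forall fun n => ?_)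
    exact add_mem (Submodule.smul_mem _ _ (one_mem_Dsp hp))
      (Submodule.sum_mem _ fun j _ => Submodule.smul_mem _ _ (hqD j))
  · apply cen_of_steps hp
    intro i
    change tr Ω (q i * (a - d)) = 0
    have h1 := hsum.hasSum.mapL ((tr Ω).comp (ContinuousLinearMap.mul ℂ _ (q i)))
    have h2 : HasSum (fun j => ((tr Ω).comp (ContinuousLinearMap.mul ℂ _ (q i)))
        ((c j - f) • q j)) ((c i - f) * tr Ω (q i)) := by
      convert hasSum_single i _ using 1
      · simp [(hqp i).isIdempotentElem.eq]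
      · intro j hj
        have := steps_mul_eq_zero hp (Ne.symm hj)
        change q i * q j = 0 at this
        simp [this]
    have h3 := h1.unique h2
    simp only [ContinuousLinearMap.comp_apply, ContinuousLinearMap.mul_apply'] at h3
    rw [hd, mul_sub, mul_add, map_sub, map_add, h3, mul_smul_comm, mul_one, map_smul, ← hcq i,
      smul_eq_mul]
    ring
  · intro M hM hMa
    have hMp := norm_tr_mul_le_of_steps hp hM hMa
    have hbound : ∀ n, ‖f • (1 : H →L[ℂ] H) + ∑ j ∈ Finset.range n, (c j - f) • q j‖ ≤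
        M + ‖p n * (a - f • 1) * p n‖ := by
      intro n
      have e1 : f • (1 : H →L[ℂ] H) + ∑ j ∈ Finset.range n, (c j - f) • q j =
          ∑ j ∈ Finset.range n, c j • q j + f • p n := by
        have e2 : ∑ j ∈ Finset.range n, q j = 1 - p n := by
          rw [← hp.zero]; exact Finset.sum_range_sub' p n
        simp only [sub_smul, Finset.sum_sub_distrib, ← Finset.smul_sum, e2, smul_sub]
        abel
      rw [e1]
      have hqpn : ∀ j ∈ Finset.range n, q j * p n = 0 := by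
        intro j hj
        have := Finset.mem_range.1 hj
        simp only [hq]
        rw [sub_mul, hp.mul_of_le (by omega), hp.mul_of_le (by omega), sub_self]
      refine (norm_add_le_max_of_orth ?_ ?_).trans (max_le ?_ ?_)
      · rw [star_sum, Finset.sum_mul]
        refine Finset.sum_eq_zero fun j hj => ?_
        rw [star_smul, (hqp j).isSelfAdjoint.star_eq, smul_mul_assoc, mul_smul_comm, hqpn j hj]
        simp
      · rw [Finset.sum_mul]
        refine Finset.sum_eq_zero fun j hj => ?_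
        rw [star_smul, hp.star_eq, smul_mul_assoc, mul_smul_comm, hqpn j hj]
        simp
      · refine (norm_sum_le_of_orth _ (horth _) (horth' _) hM _ fun j _ => ?_).trans
          (le_add_of_nonneg_right (norm_nonneg _))
        apply norm_smul_proj_le hN (hqp j) (hqN j) hM
        have := hMa j
        change ‖tr Ω (q j * a)‖ ≤ M * ‖q j Ω‖ ^ 2 at this
        rwa [← hcq j, norm_mul, tr_proj Ω (hqp j), Complex.norm_real,
          Real.norm_of_nonneg (by positivity)] at this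
      · apply norm_smul_proj_le hN (hp.proj n) (hpN n) (by positivity)
        have h3 := norm_tr_proj_mul_le hN (hp.proj n) (hpN n) hy
        have h4 : f * tr Ω (p n) = tr Ω (p n * a) - tr Ω (p n * (a - f • 1)) := by
          rw [mul_sub, map_sub, mul_smul_comm, mul_one, map_smul, smul_eq_mul]; ring
        have h5 := congrArg norm h4
        rw [norm_mul, tr_proj Ω (hp.proj n), Complex.norm_real,
          Real.norm_of_nonneg (by positivity)] at h5
        rw [h5]
        refine (norm_sub_le _ _).trans ?_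
        have := hMp n
        nlinarith
    have h7 : Tendsto (fun n => M + ‖p n * (a - f • 1) * p n‖) atTop (𝓝 (M + ‖(0 : H →L[ℂ] H)‖)) :=
      tendsto_const_nhds.add (Tendsto.norm hf)
    have := le_of_tendsto_of_tendsto' hlim.norm h7 hbound
    simpa using this

end Crest.Agent.R120
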