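import Mathlib
import Crest.Prelude.Def_CStarRep

/-! Row 120: two cyclic representations with the same vector state are unitarily equivalent. -/

set_option autoImplicit false

open scoped InnerProductSpace

namespace Crest.Agent.R120

/-- The orbit map `a ↦ π a ξ` as a linear map. -/
noncomputable def eqvRepOrbit {A : Type*} [CStarAlgebra A]
    {K : Type*} [NormedAddCommGroup K] [InnerProductSpace ℂ K] [CompleteSpace K]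
    (π : A →⋆ₙₐ[ℂ] (K →L[ℂ] K)) (ξ : K) : A →ₗ[ℂ] K where
  toFun a := π a ξ
  map_add' a b := by simp
  map_smul' c a := by simp

theorem eqvRep_dense {A : Type*} [CStarAlgebra A]
    {K : Type*} [NormedAddCommGroup K] [InnerProductSpace ℂ K] [CompleteSpace K]
    (π : A →⋆ₙₐ[ℂ] (K →L[ℂ] K)) (ξ : K)
    (h : ∀ (η : K) (ε : ℝ), 0 < ε → ∃ y : A, ‖π y ξ - η‖ < ε) :
    DenseRange (eqvRepOrbit π ξ) := by
  rw [Metric.denseRange_iff]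
  intro η ε hε
  obtain ⟨y, hy⟩ := h η ε hε
  exact ⟨y, by rw [dist_comm, dist_eq_norm]; exact hy⟩

theorem eqvRep_norm_sq {A : Type*} [CStarAlgebra A]
    {K : Type*} [NormedAddCommGroup K] [InnerProductSpace ℂ K] [CompleteSpace K]
    (π : A →⋆ₙₐ[ℂ] (K →L[ℂ] K)) (ξ : K) (b : A) :
    (⟪ξ, π (star b * b) ξ⟫_ℂ).re = ‖π b ξ‖ ^ 2 := by
  rw [map_mul, map_star, ContinuousLinearMap.star_eq_adjoint]
  show (⟪ξ, ContinuousLinearMap.adjoint (π b) (π b ξ)⟫_ℂ).re = _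
  rw [ContinuousLinearMap.adjoint_inner_right]
  exact inner_self_eq_norm_sq (𝕜 := ℂ) _

theorem unitarilyEquivalent_of_state_eq {A : Type*} [CStarAlgebra A]
    {K₁ : Type*} [NormedAddCommGroup K₁] [InnerProductSpace ℂ K₁] [CompleteSpace K₁]
    {K₂ : Type*} [NormedAddCommGroup K₂] [InnerProductSpace ℂ K₂] [CompleteSpace K₂]
    (π₁ : A →⋆ₙₐ[ℂ] (K₁ →L[ℂ] K₁)) (π₂ : A →⋆ₙₐ[ℂ] (K₂ →L[ℂ] K₂)) (ξ₁ : K₁) (ξ₂ : K₂)
    (h₁ : ∀ (η : K₁) (ε : ℝ), 0 < ε → ∃ y : A, ‖π₁ y ξ₁ - η‖ < ε)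
    (h₂ : ∀ (η : K₂) (ε : ℝ), 0 < ε → ∃ y : A, ‖π₂ y ξ₂ - η‖ < ε)
    (h : ∀ a : A, ⟪ξ₁, π₁ a ξ₁⟫_ℂ = ⟪ξ₂, π₂ a ξ₂⟫_ℂ) :
    Crest.OpAlg.AreUnitarilyEquivalent π₁ π₂ := by
  have d₁ := eqvRep_dense π₁ ξ₁ h₁
  have d₂ := eqvRep_dense π₂ ξ₂ h₂
  have hn : ∀ x : A, ‖eqvRepOrbit π₂ ξ₂ (LinearEquiv.refl ℂ A x)‖ = ‖eqvRepOrbit π₁ ξ₁ x‖ := by
    intro x
    show ‖π₂ x ξ₂‖ = ‖π₁ x ξ₁‖
    have e : ‖π₂ x ξ₂‖ ^ 2 = ‖π₁ x ξ₁‖ ^ 2 := by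
      rw [← eqvRep_norm_sq, ← eqvRep_norm_sq, h]
    exact (pow_left_inj₀ (norm_nonneg _) (norm_nonneg _) two_ne_zero).mp e
  let U := (LinearEquiv.refl ℂ A).extendOfIsometry _ _ d₁ d₂ hn
  have hU : ∀ x : A, U (π₁ x ξ₁) = π₂ x ξ₂ := fun x =>
    LinearEquiv.extendOfIsometry_eq (LinearEquiv.refl ℂ A) _ _ d₁ d₂ hn x
  refine ⟨U, fun a v => ?_⟩
  refine d₁.induction_on (p := fun v => U (π₁ a v) = π₂ a (U v)) v ?_ ?_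
  · exact isClosed_eq (U.continuous.comp (π₁ a).continuous) ((π₂ a).continuous.comp U.continuous)
  · intro x
    show U (π₁ a (π₁ x ξ₁)) = π₂ a (U (π₁ x ξ₁))
    have e1 : π₁ a (π₁ x ξ₁) = π₁ (a * x) ξ₁ := by rw [map_mul]; rfl
    rw [e1, hU, hU, map_mul]
    rfl

end Crest.Agent.R120
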