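import Mathlib
import Crest.Prelude.Def_CStarRep

/-! Row 120: Schur's lemma, cyclicity and excision for irreducible representations. -/

set_option autoImplicit false

open scoped InnerProductSpace

namespace Crest.Agent.R120

variable {A : Type*} [CStarAlgebra A]
  {K : Type*} [NormedAddCommGroup K] [InnerProductSpace ℂ K] [CompleteSpace K]

/-- An operator commuting with an irreducible representation is zero or injective. -/
theorem excision_ker (π : A →⋆ₙₐ[ℂ] (K →L[ℂ] K)) (hπ : Crest.OpAlg.IsIrreducibleRep π)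
    (T : K →L[ℂ] K) (hT : ∀ a : A, Commute T (π a)) :
    T = 0 ∨ ∀ v : K, T v = 0 → v = 0 := by
  have h := hπ.2 (LinearMap.ker (T : K →ₗ[ℂ] K)) (ContinuousLinearMap.isClosed_ker T) (by
    intro a v hv
    have hv' : T v = 0 := hv
    show T (π a v) = 0
    have : (T * π a) v = (π a * T) v := by rw [(hT a).eq]
    simpa [hv'] using this)
  rcases h with h | h
  · right
    intro v hv
    have : v ∈ LinearMap.ker (T : K →ₗ[ℂ] K) := hv
    rw [h] at this
    simpa using this
  · left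
    ext v
    have : v ∈ LinearMap.ker (T : K →ₗ[ℂ] K) := by rw [h]; trivial
    exact this

/-- An irreducible representation of a unital algebra is unital. -/
theorem irred_map_one (π : A →⋆ₙₐ[ℂ] (K →L[ℂ] K)) (hπ : Crest.OpAlg.IsIrreducibleRep π) :
    π 1 = 1 := by
  have hc : ∀ a : A, Commute (1 - π 1) (π a) := by
    intro a
    have h1 : π 1 * π a = π a := by rw [← map_mul, one_mul]
    have h2 : π a * π 1 = π a := by rw [← map_mul, mul_one]
    show (1 - π 1) * π a = π a * (1 - π 1)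
    rw [sub_mul, mul_sub, h1, h2, one_mul, mul_one]
  rcases excision_ker π hπ _ hc with h | h
  · exact (sub_eq_zero.mp h).symm
  · exfalso
    apply hπ.1
    ext a v
    have h1 : π 1 * π a = π a := by rw [← map_mul, one_mul]
    have : (1 - π 1) (π a v) = 0 := by
      have h3 : ((1 - π 1) * π a) v = 0 := by rw [sub_mul, h1, one_mul, sub_self]; rfl
      exact h3
    simpa using h _ this

/-- Every nonzero vector of an irreducible representation is cyclic. -/
theorem irred_cyclic (π : A →⋆ₙₐ[ℂ] (K →L[ℂ] K)) (hπ : Crest.OpAlg.IsIrreducibleRep π)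
    (ξ : K) (hξ : ξ ≠ 0) (η : K) (ε : ℝ) (hε : 0 < ε) : ∃ y : A, ‖π y ξ - η‖ < ε := by
  let V : Submodule ℂ K :=
    { carrier := Set.range (fun y : A => π y ξ)
      add_mem' := by
        rintro _ _ ⟨a, rfl⟩ ⟨b, rfl⟩
        exact ⟨a + b, by simp⟩
      zero_mem' := ⟨0, by simp⟩
      smul_mem' := by
        rintro c _ ⟨a, rfl⟩
        exact ⟨c • a, by simp⟩ }
  have hinv : ∀ a : A, ∀ v ∈ V.topologicalClosure, π a v ∈ V.topologicalClosure := by
    intro a v hv
    have hm : Set.MapsTo (π a) (V : Set K) (V : Set K) := by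
      rintro _ ⟨b, rfl⟩
      exact ⟨a * b, by simp⟩
    exact (hm.closure (π a).continuous) hv
  rcases hπ.2 V.topologicalClosure V.isClosed_topologicalClosure hinv with h | h
  · exfalso
    have : ξ ∈ V.topologicalClosure := by
      apply V.le_topologicalClosure
      exact ⟨1, by simp [irred_map_one π hπ]⟩
    rw [h] at this
    exact hξ (by simpa using this)
  · have : η ∈ V.topologicalClosure := by rw [h]; trivial
    have h2 : η ∈ closure (V : Set K) := this
    rw [Metric.mem_closure_iff] at h2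
    obtain ⟨_, ⟨y, rfl⟩, hy⟩ := h2 ε hε
    exact ⟨y, by rw [← dist_eq_norm, dist_comm]; exact hy⟩

/-- Schur's lemma for self-adjoint operators. -/
theorem excision_schur_sa (π : A →⋆ₙₐ[ℂ] (K →L[ℂ] K)) (hπ : Crest.OpAlg.IsIrreducibleRep π)
    (S : K →L[ℂ] K) (hS : IsSelfAdjoint S) (hT : ∀ a : A, Commute S (π a)) :
    ∃ r : ℝ, S = algebraMap ℝ (K →L[ℂ] K) r := by
  have key : ∀ s ∈ spectrum ℝ S, ∀ t ∈ spectrum ℝ S, ¬ s < t := by
    intro s hs t ht hst
    set m : ℝ := (s + t) / 2 with hm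
    let f : ℝ → ℝ := fun x => max (m - x) 0
    let g : ℝ → ℝ := fun x => max (x - m) 0
    have hf : Continuous f := by fun_prop
    have hg : Continuous g := by fun_prop
    have hgf : cfc g S * cfc f S = 0 := by
      rw [← cfc_mul g f S]
      have : (fun x => g x * f x) = fun _ => (0 : ℝ) := by
        funext x
        simp only [f, g]
        rcases le_total x m with h | h
        · rw [max_eq_right (by linarith : x - m ≤ 0), zero_mul]
        · rw [max_eq_right (by linarith : m - x ≤ 0), mul_zero]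
      rw [this]
      simp
    have hz : ∀ (k : ℝ → ℝ), Continuous k → cfc k S = 0 → ∀ x ∈ spectrum ℝ S, k x = 0 := by
      intro k hk h0 x hx
      have h1 : cfc k S = cfc (fun _ : ℝ => (0 : ℝ)) S := by rw [h0]; simp
      exact eqOn_of_cfc_eq_cfc h1 hk.continuousOn continuousOn_const hS hx
    rcases excision_ker π hπ (cfc g S) (fun a => (hT a).cfc_real g) with h | h
    · have := hz g hg h t ht
      simp only [g] at this
      have h2 : 0 < t - m := by linarith
      rw [max_eq_left h2.le] at this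
      linarith
    · have h0 : cfc f S = 0 := by
        ext v
        apply h
        have : (cfc g S * cfc f S) v = 0 := by rw [hgf]; rfl
        exact this
      have := hz f hf h0 s hs
      simp only [f] at this
      have h2 : 0 < m - s := by linarith
      rw [max_eq_left h2.le] at this
      linarith
  by_cases hne : (spectrum ℝ S).Nonempty
  · obtain ⟨r, hr⟩ := hne
    refine ⟨r, CFC.eq_algebraMap_of_spectrum_subset_singleton S r ?_ hS⟩
    intro x hx
    have h1 := key x hx r hr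
    have h2 := key r hr x hx
    exact le_antisymm (not_lt.mp h2) (not_lt.mp h1)
  · refine ⟨0, CFC.eq_algebraMap_of_spectrum_subset_singleton S 0 ?_ hS⟩
    rw [Set.not_nonempty_iff_eq_empty.mp hne]
    exact Set.empty_subset _

/-- Schur's lemma. -/
theorem excision_schur (π : A →⋆ₙₐ[ℂ] (K →L[ℂ] K)) (hπ : Crest.OpAlg.IsIrreducibleRep π)
    (T : K →L[ℂ] K) (hT : ∀ a : A, Commute T (π a)) :
    ∃ c : ℂ, ∀ v, T v = c • v := by
  have hTs : ∀ a : A, Commute (star T) (π a) := by
    intro a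
    have h := (hT (star a)).star_star
    rw [← map_star, star_star] at h
    exact h
  have h1 : IsSelfAdjoint (T + star T) := IsSelfAdjoint.add_star_self T
  have h2 : IsSelfAdjoint (Complex.I • (T - star T)) := by
    show star (Complex.I • (T - star T)) = Complex.I • (T - star T)
    rw [star_smul, star_sub, star_star]
    simp only [RCLike.star_def, Complex.conj_I, neg_smul, ← smul_neg, neg_sub]
  obtain ⟨r, hr⟩ := excision_schur_sa π hπ _ h1 (fun a => (hT a).add_left (hTs a))
  obtain ⟨s, hs⟩ := excision_schur_sa π hπ _ h2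
    (fun a => ((hT a).sub_left (hTs a)).smul_left _)
  refine ⟨((r : ℂ) - Complex.I * s) / 2, fun v => ?_⟩
  have e1 : T v + (star T) v = (r : ℂ) • v := by
    have := congrArg (fun X : K →L[ℂ] K => X v) hr
    simpa [Algebra.algebraMap_eq_smul_one] using this
  have e2 : Complex.I • (T v - (star T) v) = (s : ℂ) • v := by
    have := congrArg (fun X : K →L[ℂ] K => X v) hs
    simpa [Algebra.algebraMap_eq_smul_one] using this
  have e3 : T v - (star T) v = (-Complex.I * s) • v := by
    rw [mul_smul, ← e2, smul_smul]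
    simp
  have e4 : (2 : ℂ) • T v = ((r : ℂ) - Complex.I * s) • v := by
    rw [two_smul, sub_smul, ← e1]
    have : T v = (star T) v + (-Complex.I * s) • v := by rw [← e3]; abel
    rw [neg_mul, neg_smul] at this
    nth_rewrite 2 [this]
    abel
  have e5 : T v = (1 / 2 : ℂ) • ((2 : ℂ) • T v) := by rw [smul_smul]; simp
  rw [e5, e4, smul_smul]
  congr 1
  ring

/-- Two-vector lemma: a functional `z ↦ ⟪α, zξ⟫ + ⟪ξ, zα⟫` vanishing on the algebra forces
`α ∈ ℂ ξ`. -/
theorem excision_two (π : A →⋆ₙₐ[ℂ] (K →L[ℂ] K)) (hπ : Crest.OpAlg.IsIrreducibleRep π)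
    (ξ α η : K) (hξ : ξ ≠ 0) (hη : ⟪η, ξ⟫_ℂ = 0)
    (hω : ∀ z : A, ⟪α, π z ξ⟫_ℂ + ⟪ξ, π z α⟫_ℂ = 0) : ⟪η, α⟫_ℂ = 0 := by
  let E := WithLp 2 (K × K)
  let e : E ≃L[ℂ] K × K := WithLp.prodContinuousLinearEquiv 2 ℂ K K
  let D : A → (E →L[ℂ] E) := fun a =>
    (e.symm : K × K →L[ℂ] E) ∘L ((π a).prodMap (π a)) ∘L (e : E →L[ℂ] K × K)
  have hD : ∀ (a : A) (u v : K), D a (WithLp.toLp 2 (u, v)) = WithLp.toLp 2 (π a u, π a v) := by
    intro a u v; rfl
  have hin : ∀ u v u' v' : K, ⟪(WithLp.toLp 2 (u, v) : E), WithLp.toLp 2 (u', v')⟫_ℂ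
      = ⟪u, u'⟫_ℂ + ⟪v, v'⟫_ℂ := by
    intro u v u' v'; rfl
  have hDadj : ∀ (a : A) (x y : E), ⟪x, D a y⟫_ℂ = ⟪D (star a) x, y⟫_ℂ := by
    intro a x y
    obtain ⟨⟨u, v⟩⟩ := x
    obtain ⟨⟨u', v'⟩⟩ := y
    rw [hD, hD, hin, hin, map_star, ContinuousLinearMap.star_eq_adjoint,
      ContinuousLinearMap.adjoint_inner_left, ContinuousLinearMap.adjoint_inner_left]
  let V : Submodule ℂ E :=
    { carrier := Set.range (fun y : A => (WithLp.toLp 2 (π y ξ, π y α) : E))
      add_mem' := by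
        rintro _ _ ⟨a, rfl⟩ ⟨b, rfl⟩
        refine ⟨a + b, ?_⟩
        simp only [map_add, ContinuousLinearMap.add_apply]
        rfl
      zero_mem' := ⟨0, by simp only [map_zero, ContinuousLinearMap.zero_apply]; rfl⟩
      smul_mem' := by
        rintro c _ ⟨a, rfl⟩
        refine ⟨c • a, ?_⟩
        simp only [map_smul, ContinuousLinearMap.smul_apply]
        rfl }
  let N : Submodule ℂ E := Vᗮ
  have hVinv : ∀ a : A, ∀ v ∈ V, D a v ∈ V := by
    rintro a _ ⟨b, rfl⟩
    refine ⟨a * b, ?_⟩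
    rw [hD]
    simp
  have hperp : ∀ W : Submodule ℂ E, (∀ a : A, ∀ v ∈ W, D a v ∈ W) →
      ∀ a : A, ∀ v ∈ Wᗮ, D a v ∈ Wᗮ := by
    intro W hW a v hv
    rw [Submodule.mem_orthogonal] at hv ⊢
    intro u hu
    rw [hDadj]
    exact hv _ (hW _ _ hu)
  have hNinv := hperp V hVinv
  have hNNinv := hperp N hNinv
  haveI : CompleteSpace E := inferInstanceAs (CompleteSpace (WithLp 2 (K × K)))
  haveI : CompleteSpace N := (V.isClosed_orthogonal).completeSpace_coe
  haveI : N.HasOrthogonalProjection := Submodule.HasOrthogonalProjection.ofCompleteSpace N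
  let P : E →L[ℂ] E := N.starProjection
  have hPD : ∀ (a : A) (x : E), P (D a x) = D a (P x) := by
    intro a x
    apply Submodule.eq_starProjection_of_mem_orthogonal
    · exact hNinv a _ (N.starProjection_apply_mem x)
    · rw [← map_sub]
      exact hNNinv a _ (N.sub_starProjection_mem_orthogonal x)
  let i1 : K →L[ℂ] E := (e.symm : K × K →L[ℂ] E) ∘L ContinuousLinearMap.inl ℂ K K
  let i2 : K →L[ℂ] E := (e.symm : K × K →L[ℂ] E) ∘L ContinuousLinearMap.inr ℂ K K
  let q1 : E →L[ℂ] K := ContinuousLinearMap.fst ℂ K K ∘L (e : E →L[ℂ] K × K)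
  let q2 : E →L[ℂ] K := ContinuousLinearMap.snd ℂ K K ∘L (e : E →L[ℂ] K × K)
  have hi1 : ∀ (a : A) (v : K), i1 (π a v) = D a (i1 v) := by
    intro a v
    show WithLp.toLp 2 (π a v, 0) = D a (WithLp.toLp 2 (v, 0))
    rw [hD, map_zero]
  have hi2 : ∀ (a : A) (v : K), i2 (π a v) = D a (i2 v) := by
    intro a v
    show WithLp.toLp 2 (0, π a v) = D a (WithLp.toLp 2 (0, v))
    rw [hD, map_zero]
  have hq1 : ∀ (a : A) (x : E), q1 (D a x) = π a (q1 x) := by
    intro a x; rfl
  have hq2 : ∀ (a : A) (x : E), q2 (D a x) = π a (q2 x) := by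
    intro a x; rfl
  have hblock : ∀ (i : K →L[ℂ] E) (q : E →L[ℂ] K), (∀ (a : A) (v : K), i (π a v) = D a (i v)) →
      (∀ (a : A) (x : E), q (D a x) = π a (q x)) → ∃ c : ℂ, ∀ v, q (P (i v)) = c • v := by
    intro i q hi hq
    apply excision_schur π hπ (q ∘L P ∘L i)
    intro a
    ext v
    show q (P (i (π a v))) = π a (q (P (i v)))
    rw [hi, hPD, hq]
  obtain ⟨c1, h1⟩ := hblock i1 q1 hi1 hq1
  obtain ⟨c2, h2⟩ := hblock i1 q2 hi1 hq2
  obtain ⟨c3, h3⟩ := hblock i2 q1 hi2 hq1
  obtain ⟨c4, h4⟩ := hblock i2 q2 hi2 hq2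
  have hsum : ∀ u v : K, (WithLp.toLp 2 (u, v) : E) = i1 u + i2 v := by
    intro u v
    show WithLp.toLp 2 (u, v) = WithLp.toLp 2 (u, 0) + WithLp.toLp 2 (0, v)
    rw [← WithLp.toLp_add]
    simp
  -- (ξ, α) ∈ V so P kills it; (α, ξ) ∈ N so P fixes it
  have hV : (WithLp.toLp 2 (ξ, α) : E) ∈ V := ⟨1, by simp [irred_map_one π hπ]⟩
  have hP0 : P (WithLp.toLp 2 (ξ, α)) = 0 := by
    rw [Submodule.starProjection_apply_eq_zero_iff]
    exact Submodule.le_orthogonal_orthogonal V hV
  have hN : (WithLp.toLp 2 (α, ξ) : E) ∈ N := by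
    rw [Submodule.mem_orthogonal']
    rintro _ ⟨z, rfl⟩
    rw [hin]
    exact hω z
  have hP1 : P (WithLp.toLp 2 (α, ξ)) = WithLp.toLp 2 (α, ξ) :=
    Submodule.starProjection_eq_self_iff.mpr hN
  have e1 : c1 • ξ + c3 • α = 0 := by
    have := congrArg q1 hP0
    rw [hsum, map_add, map_add, h1, h3, map_zero] at this
    exact this
  have e2 : c2 • ξ + c4 • α = 0 := by
    have := congrArg q2 hP0
    rw [hsum, map_add, map_add, h2, h4, map_zero] at this
    exact this
  have e3 : c1 • α + c3 • ξ = α := by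
    have := congrArg q1 hP1
    rw [hsum, map_add, map_add, h1, h3, ← hsum] at this
    exact this
  have e4 : c2 • α + c4 • ξ = ξ := by
    have := congrArg q2 hP1
    rw [hsum, map_add, map_add, h2, h4, ← hsum] at this
    exact this
  by_contra ha
  have f2 := congrArg (fun x => ⟪η, x⟫_ℂ) e2
  have f4 := congrArg (fun x => ⟪η, x⟫_ℂ) e4
  simp only [inner_add_right, inner_smul_right, hη, mul_zero, zero_add, add_zero,
    inner_zero_right] at f2 f4
  have g4 : c4 = 0 := (mul_eq_zero.mp f2).resolve_right ha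
  have g2 : c2 = 0 := (mul_eq_zero.mp f4).resolve_right ha
  rw [g2, g4] at e4
  exact hξ (by simpa using e4.symm)

/-- Vectors orthogonal to `ξ` are approximated by `π h ξ` with `h` self-adjoint. -/
theorem excision_sa_approx (π : A →⋆ₙₐ[ℂ] (K →L[ℂ] K)) (hπ : Crest.OpAlg.IsIrreducibleRep π)
    (ξ η : K) (hξ : ξ ≠ 0) (hη : ⟪η, ξ⟫_ℂ = 0) (μ : ℝ) (hμ : 0 < μ) :
    ∃ h : A, IsSelfAdjoint h ∧ ‖π h ξ - η‖ < μ := by
  let S : Set K := {v | ∃ h : A, IsSelfAdjoint h ∧ π h ξ = v}
  have hsm : ∀ (r : ℝ) (h : A), IsSelfAdjoint h → IsSelfAdjoint ((r : ℂ) • h) := by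
    intro r h hh
    show star ((r : ℂ) • h) = (r : ℂ) • h
    rw [star_smul, hh.star_eq]
    simp
  have hconv : Convex ℝ S := by
    rintro _ ⟨a, ha, rfl⟩ _ ⟨b, hb, rfl⟩ s t _ _ _
    refine ⟨(s : ℂ) • a + (t : ℂ) • b, (hsm s a ha).add (hsm t b hb), ?_⟩
    rw [map_add, map_smul, map_smul]
    simp
  have hmem : η ∈ closure S := by
    by_contra hn
    obtain ⟨f, u, hf1, hf2⟩ := RCLike.geometric_hahn_banach_closed_point (𝕜 := ℂ)
      hconv.closure isClosed_closure hn
    have hu : 0 < u := by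
      have := hf1 0 (subset_closure ⟨0, IsSelfAdjoint.zero A, by simp⟩)
      simpa using this
    have hre : ∀ h : A, IsSelfAdjoint h → (f (π h ξ)).re = 0 := by
      intro h hh
      by_contra hne
      have := hf1 (π (((u / (f (π h ξ)).re : ℝ) : ℂ) • h) ξ)
        (subset_closure ⟨_, hsm _ h hh, rfl⟩)
      rw [map_smul, ContinuousLinearMap.smul_apply, map_smul, smul_eq_mul] at this
      simp only [RCLike.re_to_complex, Complex.re_ofReal_mul] at this
      rw [div_mul_cancel₀ _ hne] at this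
      exact lt_irrefl _ this
    set α : K := (InnerProductSpace.toDual ℂ K).symm f with hα
    have hfα : ∀ v, f v = ⟪α, v⟫_ℂ := by
      intro v
      rw [hα, InnerProductSpace.toDual_symm_apply]
    have hsa : ∀ h : A, IsSelfAdjoint h → ⟪α, π h ξ⟫_ℂ + ⟪ξ, π h α⟫_ℂ = 0 := by
      intro h hh
      have h1 : ⟪ξ, π h α⟫_ℂ = ⟪π h ξ, α⟫_ℂ := by
        conv_lhs => rw [← hh.star_eq, map_star, ContinuousLinearMap.star_eq_adjoint,
          ContinuousLinearMap.adjoint_inner_right]
      have h2 := hre h hh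
      rw [hfα] at h2
      rw [h1, ← inner_conj_symm (π h ξ) α, Complex.add_conj, h2]
      simp
    have hall : ∀ z : A, ⟪α, π z ξ⟫_ℂ + ⟪ξ, π z α⟫_ℂ = 0 := by
      intro z
      have h1 : IsSelfAdjoint (z + star z) := IsSelfAdjoint.add_star_self z
      have h2 : IsSelfAdjoint (Complex.I • (z - star z)) := by
        show star (Complex.I • (z - star z)) = Complex.I • (z - star z)
        rw [star_smul, star_sub, star_star]
        simp only [RCLike.star_def, Complex.conj_I, neg_smul, ← smul_neg, neg_sub]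
      have a1 := hsa _ h1
      have a2 := hsa _ h2
      simp only [map_add, map_smul, map_sub, ContinuousLinearMap.add_apply,
        ContinuousLinearMap.smul_apply, ContinuousLinearMap.sub_apply, inner_add_right,
        inner_smul_right, inner_sub_right] at a1 a2
      have a3 : (⟪α, π z ξ⟫_ℂ - ⟪α, π (star z) ξ⟫_ℂ) + (⟪ξ, π z α⟫_ℂ - ⟪ξ, π (star z) α⟫_ℂ)
          = 0 := by
        rw [← mul_add] at a2
        exact (mul_eq_zero.mp a2).resolve_left Complex.I_ne_zero
      linear_combination (a1 + a3) / 2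
    have h0 := excision_two π hπ ξ α η hξ hη hall
    have h1 : f η = 0 := by
      rw [hfα, ← inner_conj_symm, h0]
      simp
    rw [h1] at hf2
    simp only [map_zero] at hf2
    linarith
  rw [Metric.mem_closure_iff] at hmem
  obtain ⟨_, ⟨h, hh, rfl⟩, hy⟩ := hmem μ hμ
  exact ⟨h, hh, by rw [← dist_eq_norm, dist_comm]; exact hy⟩

/-- Key lemma: `*`-strong approximation of a rank-one nilpotent on one vector. -/
theorem excision_key (π : A →⋆ₙₐ[ℂ] (K →L[ℂ] K)) (hπ : Crest.OpAlg.IsIrreducibleRep π)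
    (ξ η : K) (hξ : ξ ≠ 0) (hη : ⟪ξ, η⟫_ℂ = 0) (μ : ℝ) (hμ : 0 < μ) :
    ∃ z : A, ‖π z ξ - η‖ < μ ∧ ‖π (star z) ξ‖ < μ := by
  have hη' : ⟪η, ξ⟫_ℂ = 0 := by rw [← inner_conj_symm, hη]; simp
  obtain ⟨h1, s1, n1⟩ := excision_sa_approx π hπ ξ ((1 / 2 : ℂ) • η) hξ
    (by rw [inner_smul_left, hη', mul_zero]) (μ / 2) (by linarith)
  obtain ⟨h2, s2, n2⟩ := excision_sa_approx π hπ ξ ((-Complex.I / 2 : ℂ) • η) hξ
    (by rw [inner_smul_left, hη', mul_zero]) (μ / 2) (by linarith)
  have hI : ∀ v : K, ‖Complex.I • v‖ = ‖v‖ := by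
    intro v; rw [norm_smul, Complex.norm_I, one_mul]
  have hII : Complex.I • ((-Complex.I / 2 : ℂ) • η) = (1 / 2 : ℂ) • η := by
    rw [smul_smul]
    congr 1
    have := Complex.I_mul_I
    linear_combination (-1 / 2 : ℂ) * this
  refine ⟨h1 + Complex.I • h2, ?_, ?_⟩
  · have : π (h1 + Complex.I • h2) ξ - η = (π h1 ξ - (1 / 2 : ℂ) • η)
        + Complex.I • (π h2 ξ - (-Complex.I / 2 : ℂ) • η) := by
      rw [smul_sub, hII]
      simp only [map_add, map_smul, ContinuousLinearMap.add_apply, ContinuousLinearMap.smul_apply]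
      module
    rw [this]
    refine lt_of_le_of_lt (norm_add_le _ _) ?_
    rw [hI]
    linarith
  · have : π (star (h1 + Complex.I • h2)) ξ = (π h1 ξ - (1 / 2 : ℂ) • η)
        - Complex.I • (π h2 ξ - (-Complex.I / 2 : ℂ) • η) := by
      rw [smul_sub, hII, star_add, star_smul, s1.star_eq, s2.star_eq]
      simp only [map_add, map_smul, ContinuousLinearMap.add_apply, ContinuousLinearMap.smul_apply,
        RCLike.star_def, Complex.conj_I]
      module
    rw [this]
    refine lt_of_le_of_lt (norm_sub_le _ _) ?_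
    rw [hI]
    linarith

theorem excision_inner_star_mul (π : A →⋆ₙₐ[ℂ] (K →L[ℂ] K)) (ξ : K) (b : A) :
    (⟪ξ, π (star b * b) ξ⟫_ℂ).re = ‖π b ξ‖ ^ 2 := by
  rw [map_mul, map_star, ContinuousLinearMap.star_eq_adjoint, ContinuousLinearMap.mul_apply,
    ContinuousLinearMap.adjoint_inner_right]
  exact inner_self_eq_norm_sq (𝕜 := ℂ) _

/-- Excision of the vector state of an irreducible representation
(Akemann-Anderson-Pedersen, approximate form). -/
theorem irred_excision (π : A →⋆ₙₐ[ℂ] (K →L[ℂ] K)) (hπ : Crest.OpAlg.IsIrreducibleRep π)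
    (ξ : K) (hξ : ξ ≠ 0) (F : Finset A) (hF : ∀ y ∈ F, ⟪ξ, π y ξ⟫_ℂ = 0)
    (ε : ℝ) (hε : 0 < ε) :
    ∃ h : A, IsSelfAdjoint h ∧ spectrum ℝ h ⊆ Set.Icc 0 1 ∧ ‖π h ξ - ξ‖ < ε ∧
      ∀ y ∈ F, ‖h * y * h‖ < ε := by
  classical
  letI := CStarAlgebra.spectralOrder A
  letI := CStarAlgebra.spectralOrderedRing A
  set δ : ℝ := ε ^ 2 / 16 with hδ
  have hδ0 : 0 < δ := by positivity
  set n : ℝ := (F.card : ℝ) with hn
  have hn0 : 0 ≤ n := by positivity
  set μ : ℝ := min 1 (δ * ε ^ 2 / (2 * n + 1)) with hμ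
  have hμ0 : 0 < μ := lt_min one_pos (by positivity)
  have hμ1 : μ ≤ 1 := min_le_left _ _
  have hμ2 : μ * (2 * n + 1) ≤ δ * ε ^ 2 := by
    have : μ ≤ δ * ε ^ 2 / (2 * n + 1) := min_le_right _ _
    rwa [le_div_iff₀ (by positivity)] at this
  have hz : ∀ y : A, ∃ z : A, y ∈ F → ‖π z ξ - π y ξ‖ < μ ∧ ‖π (star z) ξ‖ < μ := by
    intro y
    by_cases hy : y ∈ F
    · obtain ⟨z, hz⟩ := excision_key π hπ ξ (π y ξ) hξ (hF y hy) μ hμ0
      exact ⟨z, fun _ => hz⟩
    · exact ⟨0, fun h => absurd h hy⟩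
  choose z hz using hz
  let l1 : A → A := fun y => y - z y
  let l2 : A → A := fun y => star (z y)
  have hl1 : ∀ y ∈ F, ‖π (l1 y) ξ‖ < μ := by
    intro y hy
    have := (hz y hy).1
    simp only [l1, map_sub, ContinuousLinearMap.sub_apply]
    rwa [norm_sub_rev]
  have hl2 : ∀ y ∈ F, ‖π (l2 y) ξ‖ < μ := fun y hy => (hz y hy).2
  let s : A := ∑ y ∈ F, (star (l1 y) * l1 y + star (l2 y) * l2 y)
  have hterm : ∀ y : A, 0 ≤ star (l1 y) * l1 y + star (l2 y) * l2 y := fun y =>
    add_nonneg (star_mul_self_nonneg _) (star_mul_self_nonneg _)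
  have hs0 : 0 ≤ s := Finset.sum_nonneg fun y _ => hterm y
  have hssa : IsSelfAdjoint s := IsSelfAdjoint.of_nonneg hs0
  have hspec : ∀ t ∈ spectrum ℝ s, 0 ≤ t := fun t ht => spectrum_nonneg_of_nonneg hs0 ht
  let f : ℝ → ℝ := fun t => δ / (δ + t)
  have hf : ContinuousOn f (spectrum ℝ s) := by
    apply ContinuousOn.div continuousOn_const (by fun_prop)
    intro t ht
    have := hspec t ht
    positivity
  have hf01 : ∀ t ∈ spectrum ℝ s, f t ∈ Set.Icc (0 : ℝ) 1 := by
    intro t ht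
    have := hspec t ht
    refine ⟨by positivity, ?_⟩
    show δ / (δ + t) ≤ 1
    rw [div_le_one (by positivity)]
    linarith
  let h : A := cfc f s
  have hh : IsSelfAdjoint h := cfc_predicate f s
  have hnorm : ‖h‖ ≤ 1 := by
    apply norm_cfc_le zero_le_one
    intro t ht
    have := hf01 t ht
    rw [Real.norm_eq_abs, abs_of_nonneg this.1]
    exact this.2
  have hhsh : ‖h * s * h‖ ≤ δ := by
    have e : h * s * h = cfc (fun t => f t * t * f t) s := by
      rw [cfc_mul (fun t => f t * t) f s (hf.mul continuousOn_id) hf,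
        cfc_mul f (fun t => t) s hf continuousOn_id, cfc_id' ℝ s]
    rw [e]
    apply norm_cfc_le hδ0.le
    intro t ht
    have h0 := hspec t ht
    have h1 := hf01 t ht
    have h2 : f t * t ≤ δ := by
      show δ / (δ + t) * t ≤ δ
      rw [div_mul_eq_mul_div, div_le_iff₀ (by positivity)]
      nlinarith
    have h3 : 0 ≤ f t * t := mul_nonneg h1.1 h0
    rw [Real.norm_eq_abs, abs_of_nonneg (mul_nonneg h3 h1.1)]
    nlinarith [h1.1, h1.2]
  have hlh : ∀ l : A, star l * l ≤ s → ‖l * h‖ ≤ ε / 4 := by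
    intro l hl
    have h1 : star h * (star l * l) * h ≤ star h * s * h := star_left_conjugate_le_conjugate hl h
    have h2 : star h * (star l * l) * h = star (l * h) * (l * h) := by
      rw [star_mul]; noncomm_ring
    rw [h2, hh.star_eq] at h1
    have h3 := CStarAlgebra.norm_le_norm_of_nonneg_of_le (star_mul_self_nonneg (l * h)) h1
    rw [CStarRing.norm_star_mul_self] at h3
    have h4 : ‖l * h‖ * ‖l * h‖ ≤ (ε / 4) * (ε / 4) := by
      calc _ ≤ δ := h3.trans hhsh
        _ = _ := by rw [hδ]; ring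
    exact (mul_self_le_mul_self_iff (norm_nonneg _) (by positivity)).mpr h4
  refine ⟨h, hh, ?_, ?_, ?_⟩
  · rw [cfc_map_spectrum f s]
    rintro _ ⟨t, ht, rfl⟩
    exact hf01 t ht
  · -- ‖(1 - h) ξ‖² ≤ ⟪ξ, s ξ⟫ / δ
    have hle : (δ : ℝ) • (star (1 - h) * (1 - h)) ≤ s := by
      have e1 : (1 - h) = cfc (fun t => 1 - f t) s := by
        rw [cfc_sub (fun _ => (1 : ℝ)) f s continuousOn_const hf, cfc_const_one ℝ s]
      have hc : ContinuousOn (fun t => 1 - f t) (spectrum ℝ s) := continuousOn_const.sub hf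
      have e2 : star (1 - h) = 1 - h := by rw [star_sub, star_one, hh.star_eq]
      have e3 : (δ : ℝ) • (star (1 - h) * (1 - h))
          = cfc (fun t => δ • ((1 - f t) * (1 - f t))) s := by
        rw [e2, cfc_smul δ (fun t => (1 - f t) * (1 - f t)) s (hc.mul hc),
          cfc_mul (fun t => 1 - f t) (fun t => 1 - f t) s hc hc, ← e1]
      rw [e3]
      nth_rewrite 2 [← cfc_id' ℝ s]
      apply cfc_mono _ ((hc.mul hc).const_smul δ) continuousOn_id
      intro t ht
      have h0 := hspec t ht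
      have h1 := hf01 t ht
      have h2 : δ * (1 - f t) ≤ t := by
        have : 1 - f t = t / (δ + t) := by
          show 1 - δ / (δ + t) = t / (δ + t)
          field_simp
          ring
        rw [this, ← mul_div_assoc, div_le_iff₀ (by positivity)]
        nlinarith
      have h3 : 0 ≤ 1 - f t := by linarith [h1.2]
      show δ * ((1 - f t) * (1 - f t)) ≤ t
      nlinarith [h1.1]
    obtain ⟨b, hb⟩ := CStarAlgebra.nonneg_iff_eq_star_mul_self.mp (sub_nonneg.mpr hle)
    have hb0 := excision_inner_star_mul π ξ b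
    rw [← hb] at hb0
    have h1 := excision_inner_star_mul π ξ (1 - h)
    have hsval : (⟪ξ, π s ξ⟫_ℂ).re ≤ 2 * n * μ ^ 2 := by
      have : (⟪ξ, π s ξ⟫_ℂ).re = ∑ y ∈ F, (‖π (l1 y) ξ‖ ^ 2 + ‖π (l2 y) ξ‖ ^ 2) := by
        simp only [s, map_sum, ContinuousLinearMap.sum_apply, inner_sum, Complex.re_sum]
        refine Finset.sum_congr rfl fun y _ => ?_
        rw [map_add, ContinuousLinearMap.add_apply, inner_add_right, Complex.add_re,
          excision_inner_star_mul, excision_inner_star_mul]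
      rw [this]
      calc _ ≤ ∑ _y ∈ F, 2 * μ ^ 2 := by
            refine Finset.sum_le_sum fun y hy => ?_
            have a1 := pow_le_pow_left₀ (norm_nonneg _) (hl1 y hy).le 2
            have a2 := pow_le_pow_left₀ (norm_nonneg _) (hl2 y hy).le 2
            linarith
        _ = 2 * n * μ ^ 2 := by rw [Finset.sum_const, nsmul_eq_mul]; ring
    have hexp : (⟪ξ, π (s - (δ : ℝ) • (star (1 - h) * (1 - h))) ξ⟫_ℂ).re
        = (⟪ξ, π s ξ⟫_ℂ).re - δ * ‖π (1 - h) ξ‖ ^ 2 := by
      rw [← h1, ← Complex.coe_smul, map_sub, map_smul, ContinuousLinearMap.sub_apply,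
        ContinuousLinearMap.smul_apply, inner_sub_right, inner_smul_right, Complex.sub_re,
        Complex.re_ofReal_mul]
    rw [hexp] at hb0
    have hv : π (1 - h) ξ = -(π h ξ - ξ) := by
      rw [map_sub, irred_map_one π hπ]
      simp
    rw [hv, norm_neg] at hb0
    have hlt : δ * ‖π h ξ - ξ‖ ^ 2 < δ * ε ^ 2 := by
      have a1 : 0 ≤ ‖π b ξ‖ ^ 2 := by positivity
      have a2 : 2 * n * μ ^ 2 ≤ 2 * n * μ := by
        apply mul_le_mul_of_nonneg_left _ (by positivity)
        nlinarith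
      nlinarith
    have := lt_of_mul_lt_mul_left hlt hδ0.le
    exact lt_of_pow_lt_pow_left₀ 2 hε.le this
  · intro y hy
    have hle : star (l1 y) * l1 y + star (l2 y) * l2 y ≤ s :=
      Finset.single_le_sum (f := fun y => star (l1 y) * l1 y + star (l2 y) * l2 y)
        (fun y _ => hterm y) hy
    have a1 := hlh (l1 y) ((le_add_of_nonneg_right (star_mul_self_nonneg _)).trans hle)
    have a2 := hlh (l2 y) ((le_add_of_nonneg_left (star_mul_self_nonneg _)).trans hle)
    have e : h * y * h = h * (l1 y * h) + star (l2 y * h) * h := by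
      simp only [l1, l2, star_mul, star_star, hh.star_eq]
      noncomm_ring
    rw [e]
    have b1 : ‖h * (l1 y * h)‖ ≤ ε / 4 := by
      calc _ ≤ ‖h‖ * ‖l1 y * h‖ := norm_mul_le _ _
        _ ≤ 1 * (ε / 4) := mul_le_mul hnorm a1 (norm_nonneg _) zero_le_one
        _ = _ := one_mul _
    have b2 : ‖star (l2 y * h) * h‖ ≤ ε / 4 := by
      calc _ ≤ ‖star (l2 y * h)‖ * ‖h‖ := norm_mul_le _ _
        _ ≤ (ε / 4) * 1 := by
            rw [norm_star]
            exact mul_le_mul a2 hnorm (norm_nonneg _) (by positivity)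
        _ = _ := mul_one _
    have := norm_add_le (h * (l1 y * h)) (star (l2 y * h) * h)
    linarith

end Crest.Agent.R120
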