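import Crest.Agent.R120.Step
import Crest.Agent.R120.EqvRep
import Crest.Agent.R120.Basic

/-! Row 120: excising projection sequences under two irreducible representations. -/

set_option autoImplicit false
set_option linter.unusedSectionVars false
set_option linter.unusedSimpArgs false
set_option linter.unusedVariables false

open scoped InnerProductSpace
open Filter Topology Set

namespace Crest.Agent.R120

lemma exists_seq_rec {α : Type*} (Inv : ℕ → α → Prop) (Rl : ℕ → α → α → Prop) (a₀ : α)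
    (h₀ : Inv 0 a₀) (hstep : ∀ n a, Inv n a → ∃ b, Inv (n + 1) b ∧ Rl n a b) :
    ∃ f : ℕ → α, f 0 = a₀ ∧ ∀ n, Inv n (f n) ∧ Rl n (f n) (f (n + 1)) := by
  choose g hg1 hg2 using hstep
  let f : (n : ℕ) → {a // Inv n a} := fun n =>
    Nat.rec ⟨a₀, h₀⟩ (fun n x => ⟨g n x.1 x.2, hg1 n x.1 x.2⟩) n
  exact ⟨fun n => (f n).1, rfl, fun n => ⟨(f n).2, hg2 n _ _⟩⟩

variable {A : Type*} [CStarAlgebra A]
  {K : Type*} [NormedAddCommGroup K] [InnerProductSpace ℂ K] [CompleteSpace K]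

lemma dec_mul_of_le {R : Type*} [Semigroup R] {e : ℕ → R} (h0 : ∀ n, e n * e n = e n)
    (h : ∀ n, e n * e (n + 1) = e (n + 1)) {m n : ℕ} (hmn : m ≤ n) : e m * e n = e n := by
  induction n, hmn using Nat.le_induction with
  | base => exact h0 m
  | succ n _ ih => rw [← h n, ← mul_assoc, ih]

lemma exists_unit_of_irred (π : A →⋆ₙₐ[ℂ] (K →L[ℂ] K)) (hπ : Crest.OpAlg.IsIrreducibleRep π) :
    ∃ ξ : K, ‖ξ‖ = 1 := by
  rcases subsingleton_or_nontrivial K with h | h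
  · exact absurd (by ext a x; exact Subsingleton.elim _ _) hπ.1
  · exact exists_norm_eq K zero_le_one

lemma limit_vector (π : A →⋆ₙₐ[ℂ] (K →L[ℂ] K)) {e : ℕ → A} {ξ : ℕ → K}
    (he : ∀ n, IsStarProjection (e n)) (hanti : ∀ n, e n * e (n + 1) = e (n + 1))
    (hfix : ∀ n, π (e n) (ξ n) = ξ n) (hnorm : ∀ n, 1 / 2 ≤ ‖ξ n‖)
    (hstep : ∀ n, ‖ξ (n + 1) - ξ n‖ ≤ (1 / 2) ^ (n + 2)) :
    ∃ ζ : K, ζ ≠ 0 ∧ ∀ n, π (e n) ζ = ζ := by
  have hc : CauchySeq ξ := by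
    refine cauchySeq_of_le_geometric (1 / 2) (1 / 4) (by norm_num) fun n => ?_
    rw [dist_comm, dist_eq_norm]
    refine (hstep n).trans (le_of_eq ?_)
    ring
  obtain ⟨ζ, hζ⟩ := cauchySeq_tendsto_of_complete hc
  refine ⟨ζ, fun h0 => ?_, fun n => ?_⟩
  · have := ge_of_tendsto' hζ.norm hnorm
    rw [h0, norm_zero] at this
    norm_num at this
  · refine tendsto_nhds_unique (((π (e n)).continuous.tendsto ζ).comp hζ) (hζ.congr' ?_)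
    filter_upwards [eventually_ge_atTop n] with m hm
    change ξ m = π (e n) (ξ m)
    conv_rhs => rw [← hfix m, ← mul_apply_eq_comp, ← map_mul,
      dec_mul_of_le (fun n => (he n).isIdempotentElem.eq) hanti hm, hfix m]

theorem exists_points {τ : A →L[ℂ] ℂ} (hτ : RichTrace τ) {κ : Type*} (M : κ → Set A)
    (le : κ → κ → Prop) (hsep : ∀ i, TopologicalSpace.IsSeparable (M i))
    (hup : ∀ i x y, ∃ j, le i j ∧ x ∈ M j ∧ y ∈ M j) (i₀ : κ)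
    {K₁ : Type*} [NormedAddCommGroup K₁] [InnerProductSpace ℂ K₁] [CompleteSpace K₁]
    {K₂ : Type*} [NormedAddCommGroup K₂] [InnerProductSpace ℂ K₂] [CompleteSpace K₂]
    (π₁ : A →⋆ₙₐ[ℂ] (K₁ →L[ℂ] K₁)) (π₂ : A →⋆ₙₐ[ℂ] (K₂ →L[ℂ] K₂))
    (hπ₁ : Crest.OpAlg.IsIrreducibleRep π₁) (hπ₂ : Crest.OpAlg.IsIrreducibleRep π₂) :
    ∃ (i : ℕ → κ) (e : Bool → ℕ → A) (ξ₁ : K₁) (ξ₂ : K₂),
      (∀ n, le (i n) (i (n + 1))) ∧ ξ₁ ≠ 0 ∧ ξ₂ ≠ 0 ∧
      (∀ n, π₁ (e false n) ξ₁ = ξ₁) ∧ (∀ n, π₂ (e true n) ξ₂ = ξ₂) ∧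
      (∀ ε n, IsStarProjection (e ε n)) ∧ (∀ ε, e ε 0 = 1) ∧
      (∀ ε n, e ε n * e ε (n + 1) = e ε (n + 1)) ∧ (∀ ε n, e ε n ∈ M (i n)) ∧
      (∀ n, τ (e true n) = τ (e false n)) ∧ (∀ ε n, ‖τ (e ε (n + 1))‖ ≤ (1 / 2) ^ n) ∧
      ∀ ε n, ∀ x ∈ M (i n), ∀ δ > 0, ∃ (m : ℕ) (c : ℂ), ‖e ε m * (x - c • 1) * e ε m‖ < δ := by
  classical
  have hd : ∀ i, ∃ d : ℕ → A, M i ⊆ closure (range d) := by
    intro i
    obtain ⟨c, hc, hM⟩ := hsep i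
    obtain ⟨d, hd⟩ := (hc.insert 0).exists_eq_range (insert_nonempty _ _)
    exact ⟨d, hM.trans (closure_mono (hd ▸ subset_insert _ _))⟩
  choose d hd using hd
  obtain ⟨ξ₁, hξ₁⟩ := exists_unit_of_irred π₁ hπ₁
  obtain ⟨ξ₂, hξ₂⟩ := exists_unit_of_irred π₂ hπ₂
  obtain ⟨i₁, -, hi₁, -⟩ := hup i₀ 1 1
  let Inv : ℕ → (Bool → A) × K₁ × K₂ × κ × Finset κ → Prop := fun n s =>
    (∀ ε, IsStarProjection (s.1 ε)) ∧ π₁ (s.1 false) s.2.1 = s.2.1 ∧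
      π₂ (s.1 true) s.2.2.1 = s.2.2.1 ∧ 1 / 2 + (1 / 2) ^ (n + 1) ≤ ‖s.2.1‖ ∧
      1 / 2 + (1 / 2) ^ (n + 1) ≤ ‖s.2.2.1‖ ∧ (∀ ε, s.1 ε ∈ M s.2.2.2.1) ∧
      τ (s.1 true) = τ (s.1 false) ∧ s.2.2.2.1 ∈ s.2.2.2.2
  let Rl : ℕ → (Bool → A) × K₁ × K₂ × κ × Finset κ → (Bool → A) × K₁ × K₂ × κ × Finset κ →
      Prop := fun n s s' =>
    (∀ ε, s.1 ε * s'.1 ε = s'.1 ε) ∧ ‖s'.2.1 - s.2.1‖ ≤ (1 / 2) ^ (n + 2) ∧
      ‖s'.2.2.1 - s.2.2.1‖ ≤ (1 / 2) ^ (n + 2) ∧ le s.2.2.2.1 s'.2.2.2.1 ∧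
      s.2.2.2.2 ⊆ s'.2.2.2.2 ∧ (∀ ε, ‖τ (s'.1 ε)‖ ≤ (1 / 2) ^ n) ∧
      ∀ ε, ∀ j ∈ s.2.2.2.2, ∀ k ≤ n, ∃ c : ℂ,
        ‖s'.1 ε * (d j k - c • 1) * s'.1 ε‖ < (1 / 2) ^ (n + 2)
  obtain ⟨f, hf0, hf⟩ := exists_seq_rec Inv Rl (fun _ => 1, ξ₁, ξ₂, i₁, {i₁})
    ⟨fun _ => IsStarProjection.one _, by simp [irred_map_one π₁ hπ₁],
      by simp [irred_map_one π₂ hπ₂], by simp [hξ₁]; norm_num, by simp [hξ₂]; norm_num,
      fun _ => hi₁, rfl, by simp⟩ (by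
      rintro n ⟨e, ζ₁, ζ₂, i, Φ⟩ ⟨h1, h2, h3, h4, h5, h6, h7, h8⟩
      dsimp only at h1 h2 h3 h4 h5 h6 h7 h8
      have hp : (0 : ℝ) < (1 / 2) ^ (n + 1) := by positivity
      have hp2 : (0 : ℝ) < (1 / 2) ^ (n + 2) := by positivity
      have hh : (1 / 2 : ℝ) ^ (n + 1) = 2 * (1 / 2) ^ (n + 2) := by ring
      let F : Finset A := (Φ ×ˢ Finset.range (n + 1)).image fun x => d x.1 x.2
      obtain ⟨m₁, hm₁⟩ := hτ.step π₁ hπ₁ ζ₁ (by rw [← norm_pos_iff]; linarith) (e false)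
        (h1 false) h2 F _ hp2
      obtain ⟨m₂, hm₂⟩ := hτ.step π₂ hπ₂ ζ₂ (by rw [← norm_pos_iff]; linarith) (e true)
        (h1 true) h3 F _ hp2
      set m := max (max m₁ m₂) n with hm
      obtain ⟨p₁, a1, a2, a3, a4, a5⟩ := hm₁ m (le_trans (le_max_left _ _) (le_max_left _ _))
      obtain ⟨p₂, b1, b2, b3, b4, b5⟩ := hm₂ m (le_trans (le_max_right _ _) (le_max_left _ _))
      obtain ⟨j, hj1, hj2, hj3⟩ := hup i p₁ p₂
      have hτm : ‖((1 / 2 : ℂ)) ^ m‖ ≤ (1 / 2 : ℝ) ^ n := by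
        rw [norm_pow]
        have : ‖(1 / 2 : ℂ)‖ = 1 / 2 := by simp
        rw [this]
        exact pow_le_pow_of_le_one (by norm_num) (by norm_num) (le_max_right _ _)
      refine ⟨(fun ε => cond ε p₂ p₁, π₁ p₁ ζ₁, π₂ p₂ ζ₂, j, insert j Φ),
        ⟨?_, ?_, ?_, ?_, ?_, ?_, ?_, ?_⟩, ?_, a4.le, b4.le, hj1, Finset.subset_insert _ _, ?_, ?_⟩
      · intro ε; cases ε; exacts [a1, b1]
      · change π₁ p₁ (π₁ p₁ ζ₁) = _
        rw [← mul_apply_eq_comp, ← map_mul, a1.isIdempotentElem.eq]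
      · change π₂ p₂ (π₂ p₂ ζ₂) = _
        rw [← mul_apply_eq_comp, ← map_mul, b1.isIdempotentElem.eq]
      · change _ ≤ ‖π₁ p₁ ζ₁‖
        have := norm_sub_norm_le ζ₁ (π₁ p₁ ζ₁)
        rw [norm_sub_rev] at this
        linarith
      · change _ ≤ ‖π₂ p₂ ζ₂‖
        have := norm_sub_norm_le ζ₂ (π₂ p₂ ζ₂)
        rw [norm_sub_rev] at this
        linarith
      · intro ε; cases ε; exacts [hj2, hj3]
      · exact b3.trans a3.symm
      · exact Finset.mem_insert_self _ _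
      · intro ε; cases ε; exacts [a2, b2]
      · intro ε; cases ε
        · change ‖τ p₁‖ ≤ _; rw [a3]; exact hτm
        · change ‖τ p₂‖ ≤ _; rw [b3]; exact hτm
      · intro ε j' hj' k hk
        have hmem : d j' k ∈ F := Finset.mem_image.2
          ⟨(j', k), Finset.mem_product.2 ⟨hj', Finset.mem_range.2 (Nat.lt_succ_of_le hk)⟩, rfl⟩
        cases ε
        exacts [a5 _ hmem, b5 _ hmem])
  have hpos : ∀ n : ℕ, (0 : ℝ) < (1 / 2) ^ n := fun n => by positivity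
  obtain ⟨ζ₁, hζ₁, hζ₁'⟩ := limit_vector π₁ (e := fun n => (f n).1 false) (ξ := fun n => (f n).2.1)
    (fun n => (hf n).1.1 false) (fun n => (hf n).2.1 false) (fun n => (hf n).1.2.1)
    (fun n => by linarith [(hf n).1.2.2.2.1, hpos (n + 1)]) (fun n => (hf n).2.2.1)
  obtain ⟨ζ₂, hζ₂, hζ₂'⟩ := limit_vector π₂ (e := fun n => (f n).1 true)
    (ξ := fun n => (f n).2.2.1)
    (fun n => (hf n).1.1 true) (fun n => (hf n).2.1 true) (fun n => (hf n).1.2.2.1)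
    (fun n => by linarith [(hf n).1.2.2.2.2.1, hpos (n + 1)]) (fun n => (hf n).2.2.2.1)
  refine ⟨fun n => (f n).2.2.2.1, fun ε n => (f n).1 ε, ζ₁, ζ₂, fun n => (hf n).2.2.2.2.1, hζ₁, hζ₂,
    hζ₁', hζ₂', fun ε n => (hf n).1.1 ε, fun ε => by simp only [hf0], fun ε n => (hf n).2.1 ε,
    fun ε n => (hf n).1.2.2.2.2.2.1 ε, fun n => (hf n).1.2.2.2.2.2.2.1,
    fun ε n => (hf n).2.2.2.2.2.2.1 ε, fun ε n x hx δ hδ => ?_⟩
  have hΦ : Monotone fun n => (f n).2.2.2.2 :=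
    monotone_nat_of_le_succ fun n => (hf n).2.2.2.2.2.1
  obtain ⟨_, ⟨k, rfl⟩, hk⟩ := Metric.mem_closure_iff.1 (hd _ hx) (δ / 2) (half_pos hδ)
  obtain ⟨l, hl⟩ := exists_pow_lt_of_lt_one (half_pos hδ) (by norm_num : (1 / 2 : ℝ) < 1)
  set m := max (max n k) l with hm
  obtain ⟨c, hc⟩ := (hf m).2.2.2.2.2.2.2 ε _
    (hΦ (le_trans (le_max_left n k) (le_max_left _ l)) (hf n).1.2.2.2.2.2.2.2) k
    (le_trans (le_max_right n k) (le_max_left _ l))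
  refine ⟨m + 1, c, ?_⟩
  set p := (f (m + 1)).1 ε with hp
  have hpn : ‖p‖ ≤ 1 := ((hf (m + 1)).1.1 ε).norm_le
  have e1 : p * (x - c • 1) * p =
      p * (x - d (f n).2.2.2.1 k) * p + p * (d (f n).2.2.2.1 k - c • 1) * p := by noncomm_ring
  have h1 : ‖p * (x - d (f n).2.2.2.1 k) * p‖ ≤ ‖x - d (f n).2.2.2.1 k‖ := by
    calc _ ≤ ‖p‖ * ‖x - d (f n).2.2.2.1 k‖ * ‖p‖ :=
          (norm_mul_le _ _).trans (by gcongr; exact norm_mul_le _ _)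
      _ ≤ 1 * ‖x - d (f n).2.2.2.1 k‖ * 1 := by gcongr
      _ = _ := by ring
  have h2 : (1 / 2 : ℝ) ^ (m + 2) ≤ (1 / 2) ^ l :=
    pow_le_pow_of_le_one (by norm_num) (by norm_num) (by omega)
  rw [dist_eq_norm] at hk
  rw [e1]
  linarith [norm_add_le (p * (x - d (f n).2.2.2.1 k) * p) (p * (d (f n).2.2.2.1 k - c • 1) * p)]

lemma fix_state (π : A →⋆ₙₐ[ℂ] (K →L[ℂ] K)) (hπ : π 1 = 1) {e : ℕ → A}
    (he : ∀ n, IsStarProjection (e n)) {ζ : K} (hζ : ∀ n, π (e n) ζ = ζ) {x : A} {c : ℂ}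
    (h : Tendsto (fun n => e n * (x - c • 1) * e n) atTop (𝓝 0)) :
    ⟪ζ, π x ζ⟫_ℂ = c * ((‖ζ‖ ^ 2 : ℝ) : ℂ) := by
  have h1 : ∀ n, ⟪ζ, π (e n * (x - c • 1) * e n) ζ⟫_ℂ =
      ⟪ζ, π x ζ⟫_ℂ - c * ((‖ζ‖ ^ 2 : ℝ) : ℂ) := by
    intro n
    rw [map_mul, map_mul, mul_apply_eq_comp, mul_apply_eq_comp, hζ, ← inner_star_left, ← map_star,
      (he n).isSelfAdjoint.star_eq, hζ, map_sub, map_smul, hπ, sub_apply, inner_sub_right]
    simp [inner_smul_right, inner_self_eq_norm_sq_to_K]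
  have h2 : Tendsto (fun n => ⟪ζ, π (e n * (x - c • 1) * e n) ζ⟫_ℂ) atTop (𝓝 0) := by
    refine squeeze_zero_norm (a := fun n => ‖ζ‖ * (‖e n * (x - c • 1) * e n‖ * ‖ζ‖))
      (fun n => ?_) (by simpa using (h.norm.mul_const ‖ζ‖).const_mul ‖ζ‖)
    refine (norm_inner_le_norm _ _).trans ?_
    gcongr
    refine (ContinuousLinearMap.le_opNorm _ _).trans ?_
    gcongr
    exact NonUnitalStarAlgHom.norm_apply_le π _
  simp only [h1] at h2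
  exact sub_eq_zero.1 (tendsto_const_nhds_iff.1 h2)

lemma dec_limit {E : ℕ → (K →L[ℂ] K)} (hE : ∀ n, IsStarProjection (E n))
    (hanti : ∀ n, E n * E (n + 1) = E (n + 1)) (ζ : K) :
    ∃ η : K, Tendsto (fun n => E n ζ) atTop (𝓝 η) ∧ ∀ n, E n η = η := by
  have hle : ∀ {m n}, m ≤ n → E m * E n = E n := fun h =>
    dec_mul_of_le (fun n => (hE n).isIdempotentElem.eq) hanti h
  have hsq : ∀ {m n}, m ≤ n → ‖E m ζ - E n ζ‖ ^ 2 = ‖E m ζ‖ ^ 2 - ‖E n ζ‖ ^ 2 := by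
    intro m n h
    have hge : E n * E m = E n := by
      have := congrArg star (hle h)
      rwa [star_mul, (hE n).isSelfAdjoint.star_eq, (hE m).isSelfAdjoint.star_eq] at this
    have hp : IsStarProjection (E m - E n) := by
      refine ⟨?_, (hE m).isSelfAdjoint.sub (hE n).isSelfAdjoint⟩
      unfold IsIdempotentElem
      rw [mul_sub, sub_mul, sub_mul, (hE m).isIdempotentElem.eq, (hE n).isIdempotentElem.eq,
        hle h, hge]
      abel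
    have h1 := tr_proj ζ hp
    rw [map_sub, tr_proj ζ (hE m), tr_proj ζ (hE n)] at h1
    exact_mod_cast h1.symm
  have hc : CauchySeq fun n => E n ζ := by
    rw [Metric.cauchySeq_iff']
    intro δ hδ
    have hb : BddBelow (Set.range fun n => ‖E n ζ‖ ^ 2) :=
      ⟨0, by rintro _ ⟨m, rfl⟩; positivity⟩
    obtain ⟨m, hm⟩ := exists_lt_of_ciInf_lt (f := fun n => ‖E n ζ‖ ^ 2)
      (a := (⨅ n, ‖E n ζ‖ ^ 2) + δ ^ 2) (by linarith [pow_pos hδ 2])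
    refine ⟨m, fun n hn => ?_⟩
    rw [dist_comm, dist_eq_norm]
    refine lt_of_pow_lt_pow_left₀ 2 hδ.le ?_
    rw [hsq hn]
    linarith [ciInf_le hb n]
  obtain ⟨η, hη⟩ := cauchySeq_tendsto_of_complete hc
  refine ⟨η, hη, fun n => ?_⟩
  refine tendsto_nhds_unique (((E n).continuous.tendsto η).comp hη) (hη.congr' ?_)
  filter_upwards [eventually_ge_atTop n] with m hm
  change E m ζ = E n (E m ζ)
  rw [← mul_apply_eq_comp, hle hm]

theorem equivalent_of_points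
    {K₁ : Type*} [NormedAddCommGroup K₁] [InnerProductSpace ℂ K₁] [CompleteSpace K₁]
    {K₂ : Type*} [NormedAddCommGroup K₂] [InnerProductSpace ℂ K₂] [CompleteSpace K₂]
    (π₁ : A →⋆ₙₐ[ℂ] (K₁ →L[ℂ] K₁)) (π₂ : A →⋆ₙₐ[ℂ] (K₂ →L[ℂ] K₂))
    (hπ₁ : Crest.OpAlg.IsIrreducibleRep π₁) (hπ₂ : Crest.OpAlg.IsIrreducibleRep π₂)
    (e : Bool → ℕ → A) {ξ₁ : K₁} {ξ₂ : K₂} (h₁ : ξ₁ ≠ 0) (h₂ : ξ₂ ≠ 0)
    (hf₁ : ∀ n, π₁ (e false n) ξ₁ = ξ₁) (hf₂ : ∀ n, π₂ (e true n) ξ₂ = ξ₂)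
    (he : ∀ ε n, IsStarProjection (e ε n)) (hanti : ∀ ε n, e ε n * e ε (n + 1) = e ε (n + 1))
    (hexc : ∀ ε x, ∃ c : ℂ, Tendsto (fun n => e ε n * (x - c • 1) * e ε n) atTop (𝓝 0))
    {a : A} {α : ℝ} (hα : 0 < α) (ha : ∀ m m', α ≤ ‖e true m * a * e false m'‖) :
    Crest.OpAlg.AreUnitarilyEquivalent π₁ π₂ := by
  have o₁ := irred_map_one π₁ hπ₁
  have o₂ := irred_map_one π₂ hπ₂
  obtain ⟨η, hη, hηe⟩ := dec_limit (E := fun n => π₁ (e true n)) (fun n => (he true n).map π₁)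
    (fun n => by rw [← map_mul, hanti]) (π₁ a ξ₁)
  have hlow : ∀ n, α ^ 2 * ‖ξ₁‖ ^ 2 ≤ ‖π₁ (e true n) (π₁ a ξ₁)‖ ^ 2 := by
    intro n
    obtain ⟨c, hc⟩ := hexc false (star (e true n * a) * (e true n * a))
    have h3 := fix_state π₁ o₁ (he false) hf₁ hc
    rw [map_mul, map_star, ← tr_apply, tr_star_mul_self, map_mul, mul_apply_eq_comp] at h3
    have h4 : α ^ 2 ≤ ‖c‖ := by
      apply le_of_forall_pos_le_add
      intro δ hδ
      rw [NormedAddGroup.tendsto_nhds_zero] at hc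
      obtain ⟨k, hk⟩ := (hc δ hδ).exists
      have e1 : star (e true n * a * e false k) * (e true n * a * e false k) =
          e false k * (star (e true n * a) * (e true n * a) - c • 1) * e false k +
            c • e false k := by
        rw [star_mul _ (e false k), (he false k).isSelfAdjoint.star_eq, mul_sub, sub_mul,
          mul_smul_comm, mul_one, smul_mul_assoc, (he false k).isIdempotentElem.eq, sub_add_cancel]
        simp only [mul_assoc]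
      have h5 : ‖e true n * a * e false k‖ * ‖e true n * a * e false k‖ ≤ δ + ‖c‖ := by
        rw [← CStarRing.norm_star_mul_self, e1]
        refine (norm_add_le _ _).trans (add_le_add hk.le ?_)
        rw [norm_smul]
        calc _ ≤ ‖c‖ * 1 := by gcongr; exact (he false k).norm_le
          _ = _ := mul_one _
      have h6 := ha n k
      nlinarith
    have h7 := congrArg norm h3
    rw [norm_mul, Complex.norm_real, Complex.norm_real, Real.norm_of_nonneg (by positivity),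
      Real.norm_of_nonneg (by positivity)] at h7
    rw [h7]
    gcongr
  have hη0 : η ≠ 0 := by
    intro h0
    have := ge_of_tendsto' (hη.norm.pow 2) hlow
    rw [h0, norm_zero] at this
    have h8 : 0 < α ^ 2 * ‖ξ₁‖ ^ 2 := by positivity
    norm_num at this
    linarith
  have hn₂ : ‖ξ₂‖ ≠ 0 := norm_ne_zero_iff.2 h₂
  set t : ℝ := ‖η‖ / ‖ξ₂‖ with ht
  have ht0 : 0 < t := by positivity
  have hξ' : ((t : ℂ) • ξ₂) ≠ 0 := smul_ne_zero (by exact_mod_cast ht0.ne') h₂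
  refine unitarilyEquivalent_of_state_eq π₁ π₂ η ((t : ℂ) • ξ₂)
    (fun ζ δ hδ => irred_cyclic π₁ hπ₁ η hη0 ζ δ hδ)
    (fun ζ δ hδ => irred_cyclic π₂ hπ₂ _ hξ' ζ δ hδ) fun x => ?_
  obtain ⟨c, hc⟩ := hexc true x
  rw [fix_state π₁ o₁ (he true) hηe hc, fix_state π₂ o₂ (he true)
    (fun n => by rw [map_smul, hf₂]) hc, norm_smul, Complex.norm_real, Real.norm_of_nonneg ht0.le,
    ht, div_mul_cancel₀ _ hn₂]

end Crest.Agent.R120
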