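import Crest.Agent.R120.Succ
import Crest.Agent.R120.Points
import Crest.Agent.R120.Book

/-! Row 120: the tower has a rich trace and a unique irreducible representation. -/

set_option autoImplicit false
set_option linter.unusedSectionVars false
set_option linter.unusedSimpArgs false
set_option linter.unusedVariables false

open scoped InnerProductSpace ComplexOrder
open Filter Topology Set

namespace Crest.Agent.R120

variable {ι : Type}

/-- The map onto the group of finitely supported signs. -/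
noncomputable def signHom (ι : Type) : FG ι →* Multiplicative (ℕ →₀ ZMod 2) :=
  FreeGroup.lift fun x => Sum.elim (fun n => Multiplicative.ofAdd (Finsupp.single n 1))
    (fun _ => 1) x

lemma signHom_inl (n : ℕ) :
    signHom ι (FreeGroup.of (Sum.inl n)) = Multiplicative.ofAdd (Finsupp.single n 1) := by
  simp [signHom]

variable {H : Type*} [NormedAddCommGroup H] [InnerProductSpace ℂ H] [CompleteSpace H]
  {U : FG ι →* (H →L[ℂ] H)} {Ω : H}

open Classical in
lemma exists_partition (hU : ∀ g, star (U g) = U g⁻¹) (hΩ : ‖Ω‖ = 1)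
    (hT : TrOn Ω (AlgOf U univ))
    (h0 : ∀ g ∈ Subgroup.closure (gens (∅ : Set ι)),
      tr Ω (U g) = if signHom ι g = 1 then (1 : ℂ) else 0) (m : ℕ) :
    ∃ r : (Fin m → Bool) → (H →L[ℂ] H), (∀ s, IsStarProjection (r s) ∧
      tr Ω (r s) = (1 / 2) ^ m ∧ r s ∈ AlgOf U univ) ∧ ∑ s, r s = 1 := by
  set G₀ := Subgroup.closure (gens (∅ : Set ι)) with hG₀
  have h1 : tr Ω 1 = 1 := by
    rw [tr_proj _ (IsStarProjection.one _)]; simp [hΩ]
  have hone : ∀ g ∈ G₀, signHom ι g = 1 → U g = 1 := by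
    intro g hg h
    have h2 := h0 g hg
    rw [if_pos h] at h2
    have h3 := tr_star_mul_self Ω (U g - 1)
    rw [star_sub, star_one, sub_mul, mul_sub, mul_sub, hU, ← map_mul, inv_mul_cancel, map_one,
      mul_one, one_mul, mul_one, map_sub, map_sub, map_sub, ← hU, tr_star, h1, h2] at h3
    have h4 : ‖(U g - 1) Ω‖ ^ 2 = 0 := by
      have : ((‖(U g - 1) Ω‖ ^ 2 : ℝ) : ℂ) = 0 := by rw [← h3]; simp
      exact_mod_cast this
    exact sub_eq_zero.1 (hT.faithful _ (sub_mem (mem_AlgOf_univ hU g) (one_mem _))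
      (by simpa using h4))
  have heq : ∀ g ∈ G₀, ∀ h ∈ G₀, signHom ι g = signHom ι h → U g = U h := by
    intro g hg h hh e
    have := hone (h⁻¹ * g) (mul_mem (inv_mem hh) hg) (by rw [map_mul, map_inv, e, inv_mul_cancel])
    calc U g = U (h * (h⁻¹ * g)) := by rw [mul_inv_cancel_left]
      _ = U h := by rw [map_mul, this, mul_one]
  have hs : ∀ n, FreeGroup.of (Sum.inl n) ∈ G₀ := fun n =>
    Subgroup.subset_closure (Or.inl ⟨n, rfl⟩)
  let V : ℕ → Submodule ℂ (H →L[ℂ] H) := fun m => Submodule.span ℂ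
    {x | ∃ g ∈ G₀, (∀ i, m ≤ i → Multiplicative.toAdd (signHom ι g) i = 0) ∧ x = U g}
  have hVA : ∀ m, ∀ x ∈ V m, x ∈ AlgOf U univ := by
    intro m x hx
    refine (Submodule.span_le (p := Subalgebra.toSubmodule (AlgOf U univ).toSubalgebra)).2 ?_ hx
    rintro _ ⟨g, -, -, rfl⟩
    exact mem_AlgOf_univ hU g
  suffices h : ∃ r : (Fin m → Bool) → (H →L[ℂ] H), (∀ s, IsStarProjection (r s) ∧
      tr Ω (r s) = (1 / 2) ^ m ∧ r s ∈ V m) ∧ ∑ s, r s = 1 by
    obtain ⟨r, hr, hsum⟩ := h
    exact ⟨r, fun s => ⟨(hr s).1, (hr s).2.1, hVA m _ (hr s).2.2⟩, hsum⟩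
  induction m with
  | zero =>
    refine ⟨fun _ => 1, fun _ => ⟨IsStarProjection.one _, by simpa using h1, ?_⟩, by simp⟩
    exact Submodule.subset_span ⟨1, one_mem _, by simp, by simp⟩
  | succ m ih =>
    obtain ⟨r, hr, hsum⟩ := ih
    set s := U (FreeGroup.of (Sum.inl m)) with hsdef
    have hss : s * s = 1 := by
      rw [hsdef, ← map_mul]
      refine hone _ (mul_mem (hs m) (hs m)) ?_
      rw [map_mul, signHom_inl, ← ofAdd_add, ← Finsupp.single_add]
      have : (1 : ZMod 2) + 1 = 0 := rfl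
      rw [this]; simp
    have hstar : star s = s := by
      have h2 : star s * s = 1 := (Unitary.mem_iff.1 (map_mem_unitary U hU _)).1
      calc star s = star s * (s * s) := by rw [hss, mul_one]
        _ = s := by rw [← mul_assoc, h2, one_mul]
    have hV : ∀ x ∈ V m, x * s = s * x ∧ tr Ω (x * s) = 0 ∧ x ∈ V (m + 1) ∧ x * s ∈ V (m + 1) := by
      intro x hx
      induction hx using Submodule.span_induction with
      | mem x hx =>
        obtain ⟨g, hg, hgi, rfl⟩ := hx
        refine ⟨?_, ?_, Submodule.subset_span ⟨g, hg, fun i hi => hgi i (by omega), rfl⟩,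
          Submodule.subset_span ⟨_, mul_mem hg (hs m), fun i hi => ?_, (map_mul U _ _).symm⟩⟩
        · rw [hsdef, ← map_mul, ← map_mul]
          exact heq _ (mul_mem hg (hs m)) _ (mul_mem (hs m) hg) (by rw [map_mul, map_mul, mul_comm])
        · rw [hsdef, ← map_mul, h0 _ (mul_mem hg (hs m)), if_neg]
          intro h
          have := congrArg (fun y : Multiplicative (ℕ →₀ ZMod 2) => Multiplicative.toAdd y m) h
          simp [signHom_inl, hgi m le_rfl] at this
        · rw [map_mul, signHom_inl, toAdd_mul, toAdd_ofAdd, Finsupp.add_apply, hgi i (by omega),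
            Finsupp.single_eq_of_ne (by omega), add_zero]
      | zero => simp
      | add x y _ _ hx hy =>
        refine ⟨by rw [add_mul, mul_add, hx.1, hy.1], by rw [add_mul, map_add, hx.2.1, hy.2.1,
          add_zero], add_mem hx.2.2.1 hy.2.2.1, ?_⟩
        rw [add_mul]; exact add_mem hx.2.2.2 hy.2.2.2
      | smul c x _ hx =>
        refine ⟨by rw [smul_mul_assoc, mul_smul_comm, hx.1], by rw [smul_mul_assoc, map_smul,
          hx.2.1, smul_zero], Submodule.smul_mem _ _ hx.2.2.1, ?_⟩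
        rw [smul_mul_assoc]; exact Submodule.smul_mem _ _ hx.2.2.2
    let sg : Bool → ℂ := fun b => cond b 1 (-1)
    have hsg : ∀ b, sg b * sg b = 1 := by intro b; cases b <;> simp [sg]
    have hsg' : ∀ b, star (sg b) = sg b := by intro b; cases b <;> simp [sg]
    refine ⟨fun t => (1 / 2 : ℂ) • (r (Fin.tail t) + sg (t 0) • (r (Fin.tail t) * s)),
      fun t => ?_, ?_⟩
    · obtain ⟨hp, htr, hmem⟩ := hr (Fin.tail t)
      obtain ⟨hc, ht0, hm1, hm2⟩ := hV _ hmem
      beta_reduce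
      generalize r (Fin.tail t) = x at *
      have hxx : x * x = x := hp.isIdempotentElem.eq
      refine ⟨⟨?_, ?_⟩, ?_, Submodule.smul_mem _ _ (add_mem hm1 (Submodule.smul_mem _ _ hm2))⟩
      · unfold IsIdempotentElem
        have e1 : x * (x * s) = x * s := by rw [← mul_assoc, hxx]
        have e2 : x * s * x = x * s := by rw [mul_assoc, ← hc, e1]
        have e3 : x * s * (x * s) = x := by rw [← mul_assoc, e2, mul_assoc, hss, mul_one]
        simp only [smul_mul_assoc, mul_smul_comm, add_mul, mul_add, hxx, e1, e2, e3, smul_add,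
          smul_smul]
        rw [show (1 / 2 * sg (t 0) * (1 / 2 * sg (t 0)) : ℂ) = 1 / 4 * (sg (t 0) * sg (t 0)) by
          ring, hsg]
        module
      · unfold IsSelfAdjoint
        rw [star_smul, star_add, star_smul, star_mul, hstar, hp.isSelfAdjoint.star_eq, hsg', ← hc]
        simp
      · rw [map_smul, map_add, map_smul, htr, ht0]
        simp only [smul_eq_mul]
        ring
    · rw [← (Fin.consEquiv (fun _ : Fin (m + 1) => Bool)).sum_comp, Fintype.sum_prod_type,
        Fintype.sum_bool]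
      rw [← Finset.sum_add_distrib, ← hsum]
      refine Finset.sum_congr rfl fun t _ => ?_
      change (1 / 2 : ℂ) • (r t + (1 : ℂ) • (r t * s)) + (1 / 2 : ℂ) • (r t + (-1 : ℂ) • (r t * s)) = _
      module

lemma isSeparable_AlgOf (hU : ∀ g, star (U g) = U g⁻¹) {S : Set ι} (hS : S.Countable) :
    TopologicalSpace.IsSeparable (AlgOf U S : Set (H →L[ℂ] H)) := by
  have h1 : (gens S).Countable := (countable_range _).union (hS.image _)
  have h2 : (Subgroup.closure (gens S) : Set (FG ι)).Countable := by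
    have := h1.to_subtype
    rw [FreeGroup.closure_eq_range, MonoidHom.coe_range]
    exact countable_range _
  exact ((h2.image U).isSeparable.span.closure).mono
    fun x hx => mem_closure_span_of_mem_AlgOf U hU hx

theorem main_theorem :
    ∃ (A : Type) (_ : CStarAlgebra A),
      ¬ FiniteDimensional ℂ A ∧
      (∀ I : TwoSidedIdeal A, IsClosed (I : Set A) → I = ⊥ ∨ I = ⊤) ∧
      (∃ τ : A →ₗ[ℂ] ℂ, Crest.OpAlg.IsFaithfulTracialState τ) ∧
      ∀ (H₁ : Type) [NormedAddCommGroup H₁] [InnerProductSpace ℂ H₁] [CompleteSpace H₁]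
        (H₂ : Type) [NormedAddCommGroup H₂] [InnerProductSpace ℂ H₂] [CompleteSpace H₂]
        (π₁ : A →⋆ₙₐ[ℂ] (H₁ →L[ℂ] H₁)) (π₂ : A →⋆ₙₐ[ℂ] (H₂ →L[ℂ] H₂)),
        Crest.OpAlg.IsIrreducibleRep π₁ → Crest.OpAlg.IsIrreducibleRep π₂ →
          Crest.OpAlg.AreUnitarilyEquivalent π₁ π₂ := by
  classical
  obtain ⟨ι, i1, i2, hcof, σ, hσ⟩ := exists_bookkeeping
  obtain ⟨H, j1, j2, j3, U, Ω, P, hU, hΩ, h0, hS, hcode⟩ :=
    exists_sys σ _ (isGroupTrace_ker (signHom ι))
  have hT : TrOn Ω (AlgOf U univ) := hS.tr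
  have hcl : IsClosed (AlgOf U univ : Set (H →L[ℂ] H)) := isClosed_Alg _
  let A : Type := AlgOf U univ
  let inst : CStarAlgebra A := StarSubalgebra.cstarAlgebra (AlgOf U univ) (h_closed := hcl)
  let τ : A →L[ℂ] ℂ := LinearMap.mkContinuous
    { toFun := fun a => tr Ω a.1
      map_add' := fun a b => map_add (tr Ω) a.1 b.1
      map_smul' := fun c a => map_smul (tr Ω) c a.1 } ‖tr Ω‖ (fun a => (tr Ω).le_opNorm a.1)
  have hτa : ∀ a : A, τ a = tr Ω a.1 := fun a => rfl
  have hproj : ∀ a : A, IsStarProjection a ↔ IsStarProjection a.1 := fun a =>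
    ⟨fun h => ⟨congrArg Subtype.val h.isIdempotentElem.eq,
      congrArg Subtype.val h.isSelfAdjoint.star_eq⟩,
     fun h => ⟨Subtype.ext h.isIdempotentElem.eq, Subtype.ext h.isSelfAdjoint.star_eq⟩⟩
  have hsq : ∀ a : A, τ (star a * a) = ((‖a.1 Ω‖ ^ 2 : ℝ) : ℂ) := fun a =>
    tr_star_mul_self Ω a.1
  -- finitely many elements live below some stage
  have hbound : ∀ T : Set ι, T.Countable → ∀ c, ∃ γ, T ⊆ Iio γ ∧ σ γ = c := by
    intro T hT c
    obtain ⟨β, hβ⟩ := hcof T hT
    obtain ⟨γ, hγ, hc⟩ := hσ c β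
    exact ⟨γ, fun x hx => (hβ x hx).trans hγ, hc⟩
  have hτ : RichTrace τ := by
    refine ⟨?_, fun a => ?_, fun a b => hT.comm _ a.2 _ b.2, fun a ha => ?_, fun m => ?_,
      fun F => ?_⟩
    · change tr Ω 1 = 1
      rw [tr_proj _ (IsStarProjection.one _)]; simp [hΩ]
    · rw [hsq]; exact Complex.zero_le_real.2 (sq_nonneg _)
    · rw [hsq] at ha
      have : ‖a.1 Ω‖ ^ 2 = 0 := by exact_mod_cast ha
      exact Subtype.ext (hT.faithful _ a.2 (by simpa using this))
    · obtain ⟨r, hr, hsum⟩ := exists_partition hU hΩ hT (fun g hg => by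
        rw [h0 g hg]) m
      refine ⟨fun s => ⟨r s, (hr s).2.2⟩, fun s => ⟨(hproj _).2 (hr s).1, (hr s).2.1⟩,
        Subtype.ext ?_⟩
      exact (AddSubmonoidClass.coe_finsetSum (fun s => (⟨r s, (hr s).2.2⟩ : AlgOf U univ))
        Finset.univ).trans hsum
    · choose T hT1 hT2 hT3 using fun x : A => exists_countable_support x.2
      obtain ⟨c₀, hc₀⟩ := exists_coded (U := U) (R := ∅) hU (datum_trivP Ω _).mem
      obtain ⟨γ, hγ, hc⟩ := hbound (⋃ x ∈ F, T x) (F.countable_toSet.biUnion fun x _ => hT2 x) c₀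
      have hP : P γ = trivP H := hcode γ _ (datum_trivP Ω _) (hc ▸ hc₀.mono (empty_subset _))
      have hF : ∀ x ∈ F, x.1 ∈ AlgOf U (Iio γ) := fun x hx =>
        Alg_mono ((subset_biUnion_of_mem (u := T) hx).trans hγ) (hT3 x)
      have hv := (hS.conj γ).unit
      rw [Unitary.mem_iff] at hv
      refine ⟨⟨letOf U γ, gen_mem_Alg (mem_univ γ)⟩,
        Unitary.mem_iff.2 ⟨Subtype.ext hv.1, Subtype.ext hv.2⟩, fun x hx w hw hxs hw0 => ?_⟩
      have hB : TrOn Ω (ext (AlgOf U (Iio γ)) (letOf U γ)) := by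
        rw [← Alg_insert]; exact hS.trOn _
      have key := fun ε => free_estimate hΩ hB (isClosed_Alg _) (hP ▸ hS.conj γ) (hP ▸ hS.free γ)
        (hF x hx) (hF w hw) (congrArg Subtype.val hxs.star_eq) hw0 ε
      rw [hsq, Complex.ofReal_re, Real.sqrt_sq (norm_nonneg _)]
      exact ⟨key true, key false⟩
  refine ⟨A, inst, hτ.not_finiteDimensional, fun I _ => hτ.simple I,
    ⟨τ, hτ.one, fun a => ?_, hτ.faithful, hτ.comm⟩, ?_⟩
  · change (τ (star a * a)).im = 0 ∧ 0 ≤ (τ (star a * a)).re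
    rw [hsq, Complex.ofReal_re, Complex.ofReal_im]
    exact ⟨rfl, sq_nonneg _⟩
  intro H₁ _ _ _ H₂ _ _ _ π₁ π₂ hπ₁ hπ₂
  let κ := {S : Set ι // S.Countable ∧ Closed (baseOf U) (letOf U) P S}
  obtain ⟨i, e, ξ₁, ξ₂, hi, hξ₁, hξ₂, hf₁, hf₂, he, he0, hanti, hmem, htr, hlim, hexc⟩ :=
    exists_points hτ (κ := κ) (fun S => {x : A | x.1 ∈ AlgOf U S.1}) (fun S S' => S.1 ⊆ S'.1)
      (fun S => Topology.IsEmbedding.subtypeVal.isInducing.isSeparable_preimage
        (isSeparable_AlgOf hU S.2.1))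
      (fun S x y => by
        obtain ⟨T, -, hT2, hT3⟩ := exists_countable_support x.2
        obtain ⟨T', -, hT2', hT3'⟩ := exists_countable_support y.2
        obtain ⟨S', h1, h2, h3⟩ := hS.exists_closed ((S.2.1.union hT2).union hT2')
        exact ⟨⟨S', h2, h3⟩, (subset_union_left.trans subset_union_left).trans h1,
          Alg_mono ((subset_union_right.trans subset_union_left).trans h1) hT3,
          Alg_mono (subset_union_right.trans h1) hT3'⟩)
      ⟨∅, countable_empty, fun β hβ => absurd hβ (notMem_empty β)⟩ π₁ π₂ hπ₁ hπ₂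
  let E : Bool → ℕ → (H →L[ℂ] H) := fun ε n => (e ε n).1
  have hE : ∀ ε, IsPt Ω (E ε) := by
    intro ε
    refine ⟨fun n => (hproj _).1 (he ε n), congrArg Subtype.val (he0 ε),
      fun n => congrArg Subtype.val (hanti ε n), ?_⟩
    rw [← tendsto_add_atTop_iff_nat 1, tendsto_zero_iff_norm_tendsto_zero]
    have h1 : Tendsto (fun n => ‖E ε (n + 1) Ω‖ ^ 2) atTop (𝓝 0) := by
      refine squeeze_zero (fun n => by positivity) (fun n => ?_)
        (tendsto_pow_atTop_nhds_zero_of_lt_one (r := 1 / 2) (by norm_num) (by norm_num))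
      have := hlim ε n
      rwa [hτa, tr_proj Ω ((hproj _).1 (he ε (n + 1))), Complex.norm_real,
        Real.norm_of_nonneg (by positivity)] at this
    simpa using h1.sqrt
  set S : Set ι := ⋃ n, (i n).1 with hSdef
  have hmono : Monotone fun n => (i n).1 := monotone_nat_of_le_succ hi
  have hSc : S.Countable := countable_iUnion fun n => (i n).2.1
  have hScl : Closed (baseOf U) (letOf U) P S := by
    intro β hβ ε n
    obtain ⟨k, hk⟩ := mem_iUnion.1 hβ
    exact Alg_mono (inter_subset_inter_left _ (subset_iUnion (fun n => (i n).1) k))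
      ((i k).2.2 β hk ε n)
  have hES : ∀ ε n, E ε n ∈ AlgOf U S := fun ε n =>
    Alg_mono (subset_iUnion (fun n => (i n).1) n) (hmem ε n)
  have hall : ∀ ε, ∀ a ∈ AlgOf U univ, Exc (E ε) a := by
    intro ε
    refine hS.exc_all hScl (hE ε) (hES ε) fun a ha => ?_
    rw [← mem_excSub]
    refine closure_minimal ?_ (isClosed_excSub (hE ε))
      (mem_closure_of_directed (fun n => (i n).1) hmono.directed_le ha)
    rintro x ⟨n, hx⟩
    exact mem_excSub.2 (exc_of_forall (hE ε)
      (hexc ε n ⟨x, Alg_mono (subset_univ _) hx⟩ hx))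
  obtain ⟨c, hc⟩ := exists_coded hU hES
  obtain ⟨γ, hγ, hσγ⟩ := hbound S hSc c
  obtain ⟨a, ha, hna⟩ : ∃ a ∈ AlgOf U univ, ¬ Van (E true) a (E false) := by
    by_contra hcon
    push Not at hcon
    have hD : Datum Ω (AlgOf U (Iio γ)) E :=
      ⟨hE, fun ε n => Alg_mono hγ (hES ε n), fun ε a ha => hall ε a (Alg_mono (subset_univ _) ha),
        fun a ha => hcon a (Alg_mono (subset_univ _) ha), htr⟩
    have hP : P γ = E := hcode γ E hD (hσγ ▸ hc.mono hγ)
    have hC : Conj E (letOf U γ) := hP ▸ hS.conj γ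
    have h1 : Van (E true) (letOf U γ * star (letOf U γ)) (E true) := by
      have h2 := Tendsto.mul_const (star (letOf U γ)) (hcon _ (gen_mem_Alg (mem_univ γ)))
      rw [zero_mul] at h2
      refine h2.congr fun n => ?_
      have h3 := hC.us_mul_P false n
      simp only [us_false, Bool.not_false] at h3
      rw [mul_assoc, ← h3]; simp only [mul_assoc]
    rw [(Unitary.mem_iff.1 hC.unit).2] at h1
    obtain ⟨m, m', hm⟩ := (van_iff (hE _) (hE _) _).1 h1 1 one_pos
    rw [mul_one, (hE true).mul_eq] at hm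
    have h4 : ‖e true (max m m')‖ < 1 := hm
    have h5 := hf₂ (max m m')
    have h6 : ‖ξ₂‖ ≤ ‖e true (max m m')‖ * ‖ξ₂‖ := by
      conv_lhs => rw [← h5]
      refine (ContinuousLinearMap.le_opNorm _ _).trans ?_
      gcongr
      exact NonUnitalStarAlgHom.norm_apply_le π₂ _
    have h7 : 0 < ‖ξ₂‖ := norm_pos_iff.2 hξ₂
    nlinarith
  obtain ⟨α, hα, hαa⟩ := (not_van_iff (hE _) (hE _) a).1 hna
  refine equivalent_of_points π₁ π₂ hπ₁ hπ₂ e hξ₁ hξ₂ hf₁ hf₂ he hanti (fun ε x => ?_)
    (a := ⟨a, ha⟩) hα hαa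
  obtain ⟨c, hc⟩ := hall ε x.1 x.2
  refine ⟨c, ?_⟩
  rw [tendsto_zero_iff_norm_tendsto_zero]
  have h1 : Tendsto (fun n => ‖E ε n * (x.1 - c • 1) * E ε n‖) atTop (𝓝 0) :=
    tendsto_zero_iff_norm_tendsto_zero.1 hc
  exact h1

end Crest.Agent.R120
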