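import Mathlib

/-! Row 120: traces on groups and their GNS representation. -/

set_option autoImplicit false

open scoped InnerProductSpace ComplexOrder

namespace Crest.Agent.R120

/-- A normalised positive definite class function on a group. -/
structure IsGroupTrace {G : Type*} [Group G] (τ : G → ℂ) : Prop where
  one : τ 1 = 1
  comm : ∀ g h : G, τ (g * h) = τ (h * g)
  bound : ∀ g : G, ‖τ g‖ ≤ 1
  pos : ∀ x : G →₀ ℂ, 0 ≤ ∑ g ∈ x.support, ∑ h ∈ x.support, star (x g) * x h * τ (g⁻¹ * h)

/-- The traces form a compact set for pointwise convergence. -/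
theorem isCompact_groupTrace (G : Type*) [Group G] : IsCompact {τ : G → ℂ | IsGroupTrace τ} := by
  have hK : IsCompact (Set.pi Set.univ (fun _ : G => Metric.closedBall (0 : ℂ) 1)) :=
    isCompact_univ_pi fun _ => isCompact_closedBall _ _
  refine hK.of_isClosed_subset ?_ ?_
  · have e : {τ : G → ℂ | IsGroupTrace τ} = {τ | τ 1 = 1} ∩ (⋂ g, ⋂ h, {τ | τ (g * h) = τ (h * g)})
        ∩ (⋂ g, {τ | ‖τ g‖ ≤ 1}) ∩ (⋂ x : G →₀ ℂ, {τ | 0 ≤ ∑ g ∈ x.support, ∑ h ∈ x.support,
          star (x g) * x h * τ (g⁻¹ * h)}) := by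
      ext τ
      simp only [Set.mem_setOf_eq, Set.mem_inter_iff, Set.mem_iInter]
      exact ⟨fun h => ⟨⟨⟨h.one, h.comm⟩, h.bound⟩, h.pos⟩, fun h => ⟨h.1.1.1, h.1.1.2, h.1.2, h.2⟩⟩
    rw [e]
    refine ((IsClosed.inter ?_ ?_).inter ?_).inter ?_
    · exact isClosed_eq (continuous_apply _) continuous_const
    · exact isClosed_iInter fun g => isClosed_iInter fun h =>
        isClosed_eq (continuous_apply _) (continuous_apply _)
    · exact isClosed_iInter fun g => isClosed_le (continuous_apply g).norm continuous_const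
    · exact isClosed_iInter fun x => isClosed_le continuous_const (by fun_prop)
  · intro τ hτ g _
    simpa using hτ.bound g

/-- The vector state of a unitary representation is a trace as soon as it is a class function. -/
theorem isGroupTrace_of_rep {G : Type*} [Group G]
    {H : Type*} [NormedAddCommGroup H] [InnerProductSpace ℂ H] [CompleteSpace H]
    (U : G →* (H →L[ℂ] H)) (hU : ∀ g : G, star (U g) = U g⁻¹) (Ω : H) (hΩ : ‖Ω‖ = 1)
    (hc : ∀ g h : G, ⟪Ω, U (g * h) Ω⟫_ℂ = ⟪Ω, U (h * g) Ω⟫_ℂ) :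
    IsGroupTrace (fun g => ⟪Ω, U g Ω⟫_ℂ) := by
  have hin : ∀ g h : G, ⟪U g Ω, U h Ω⟫_ℂ = ⟪Ω, U (g⁻¹ * h) Ω⟫_ℂ := by
    intro g h
    rw [map_mul, ← hU, ContinuousLinearMap.star_eq_adjoint]
    show _ = ⟪Ω, ContinuousLinearMap.adjoint (U g) (U h Ω)⟫_ℂ
    rw [ContinuousLinearMap.adjoint_inner_right]
  have hone : ⟪Ω, U 1 Ω⟫_ℂ = 1 := by
    rw [map_one]
    show ⟪Ω, Ω⟫_ℂ = 1
    rw [inner_self_eq_norm_sq_to_K, hΩ]
    simp
  refine ⟨hone, hc, fun g => ?_, fun x => ?_⟩
  · have h1 : ‖U g Ω‖ = 1 := by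
      have h2 := hin g g
      rw [inv_mul_cancel, hone, inner_self_eq_norm_sq_to_K] at h2
      have h3 : (‖U g Ω‖ ^ 2 : ℝ) = 1 := by
        have h4 : (((‖U g Ω‖ ^ 2 : ℝ)) : ℂ) = 1 := by rw [Complex.ofReal_pow]; exact h2
        exact_mod_cast h4
      exact (pow_eq_one_iff_of_nonneg (norm_nonneg _) two_ne_zero).mp h3
    calc _ ≤ ‖Ω‖ * ‖U g Ω‖ := norm_inner_le_norm _ _
      _ = 1 := by rw [hΩ, h1, one_mul]
  · have e : ∑ g ∈ x.support, ∑ h ∈ x.support, star (x g) * x h * ⟪Ω, U (g⁻¹ * h) Ω⟫_ℂ
        = ⟪∑ g ∈ x.support, x g • U g Ω, ∑ g ∈ x.support, x g • U g Ω⟫_ℂ := by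
      rw [sum_inner]
      refine Finset.sum_congr rfl fun g _ => ?_
      rw [inner_sum]
      refine Finset.sum_congr rfl fun h _ => ?_
      rw [inner_smul_left, inner_smul_right, hin, mul_assoc]
      rfl
    rw [e, inner_self_eq_norm_sq_to_K]
    have : (0 : ℝ) ≤ ‖∑ g ∈ x.support, x g • U g Ω‖ ^ 2 := by positivity
    have h4 := Complex.zero_le_real.mpr this
    rw [Complex.ofReal_pow] at h4
    exact h4

/-- The indicator function of the kernel of a homomorphism is a trace. -/
theorem isGroupTrace_ker {G Γ : Type*} [Group G] [Group Γ] [DecidableEq Γ] (ρ : G →* Γ) :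
    IsGroupTrace (fun g => if ρ g = 1 then (1 : ℂ) else 0) := by
  refine ⟨by simp, fun g h => ?_, fun g => ?_, fun x => ?_⟩
  · simp only [map_mul, mul_eq_one_comm (a := ρ g)]
  · split_ifs <;> simp
  · have e : ∑ g ∈ x.support, ∑ h ∈ x.support,
        star (x g) * x h * (if ρ (g⁻¹ * h) = 1 then (1 : ℂ) else 0)
        = ∑ γ ∈ x.support.image ρ, star (∑ g ∈ x.support, if ρ g = γ then x g else 0)
          * (∑ g ∈ x.support, if ρ g = γ then x g else 0) := by
      simp only [star_sum, Finset.sum_mul_sum]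
      rw [Finset.sum_comm (s := x.support.image ρ)]
      refine Finset.sum_congr rfl fun g hg => ?_
      rw [Finset.sum_comm (s := x.support.image ρ)]
      refine Finset.sum_congr rfl fun h _ => ?_
      rw [Finset.sum_eq_single (ρ g)]
      · simp only [map_mul, map_inv, inv_mul_eq_one, if_true]
        by_cases hgh : ρ g = ρ h
        · simp [hgh]
        · simp [hgh, Ne.symm hgh]
      · intro γ _ hγ
        simp [Ne.symm hγ]
      · intro hn
        exact absurd (Finset.mem_image_of_mem ρ hg) hn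
    rw [e]
    exact Finset.sum_nonneg fun γ _ => star_mul_self_nonneg _

/-- The sesquilinear form of a function on a group. -/
noncomputable def gnsForm {G : Type*} [Group G] (τ : G → ℂ) (x y : G →₀ ℂ) : ℂ :=
  x.sum fun g a => y.sum fun h b => star a * b * τ (g⁻¹ * h)

theorem gnsForm_add_left {G : Type*} [Group G] (τ : G → ℂ) (x x' y : G →₀ ℂ) :
    gnsForm τ (x + x') y = gnsForm τ x y + gnsForm τ x' y := by
  unfold gnsForm
  rw [Finsupp.sum_add_index']
  · intro g; simp
  · intro g a b
    rw [← Finsupp.sum_add]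
    congr 1
    funext h c
    rw [star_add]; ring

theorem gnsForm_add_right {G : Type*} [Group G] (τ : G → ℂ) (x y y' : G →₀ ℂ) :
    gnsForm τ x (y + y') = gnsForm τ x y + gnsForm τ x y' := by
  unfold gnsForm
  rw [← Finsupp.sum_add]
  congr 1
  funext g a
  rw [Finsupp.sum_add_index']
  · intro g; simp
  · intro h b c; ring

theorem gnsForm_zero_left {G : Type*} [Group G] (τ : G → ℂ) (y : G →₀ ℂ) :
    gnsForm τ 0 y = 0 := by simp [gnsForm]

theorem gnsForm_zero_right {G : Type*} [Group G] (τ : G → ℂ) (x : G →₀ ℂ) :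
    gnsForm τ x 0 = 0 := by simp [gnsForm]

theorem gnsForm_single {G : Type*} [Group G] (τ : G → ℂ) (g h : G) (a b : ℂ) :
    gnsForm τ (Finsupp.single g a) (Finsupp.single h b) = star a * b * τ (g⁻¹ * h) := by
  unfold gnsForm
  rw [Finsupp.sum_single_index, Finsupp.sum_single_index] <;> simp

theorem gnsForm_induction {G : Type*} (P : (G →₀ ℂ) → (G →₀ ℂ) → Prop)
    (h0l : ∀ y, P 0 y) (h0r : ∀ x, P x 0)
    (hl : ∀ x x' y, P x y → P x' y → P (x + x') y) (hr : ∀ x y y', P x y → P x y' → P x (y + y'))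
    (hs : ∀ g h a b, P (Finsupp.single g a) (Finsupp.single h b)) (x y : G →₀ ℂ) : P x y := by
  induction x using Finsupp.induction_linear with
  | zero => exact h0l y
  | add x x' h1 h2 => exact hl _ _ _ h1 h2
  | single g a =>
    induction y using Finsupp.induction_linear with
    | zero => exact h0r _
    | add y y' h1 h2 => exact hr _ _ _ h1 h2
    | single h b => exact hs _ _ _ _

theorem gnsForm_nonneg {G : Type*} [Group G] {τ : G → ℂ} (hτ : IsGroupTrace τ) (x : G →₀ ℂ) :
    0 ≤ gnsForm τ x x := hτ.pos x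

theorem gns_inv {G : Type*} [Group G] {τ : G → ℂ} (hτ : IsGroupTrace τ) (g : G) :
    τ g⁻¹ = star (τ g) := by
  have key : ∀ c : ℂ, (c * τ g + star c * τ g⁻¹).im = 0 := by
    intro c
    have h := gnsForm_nonneg hτ (Finsupp.single 1 1 + Finsupp.single g c)
    rw [gnsForm_add_left, gnsForm_add_right, gnsForm_add_right, gnsForm_single, gnsForm_single,
      gnsForm_single, gnsForm_single] at h
    have h2 := (Complex.nonneg_iff.mp h).2
    simp only [inv_one, mul_one, hτ.one, star_one, one_mul, inv_mul_cancel] at h2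
    simp only [Complex.add_im, Complex.mul_im, Complex.one_im, Complex.star_def, Complex.conj_re,
      Complex.conj_im] at h2 ⊢
    linarith
  have h1 := key 1
  have h2 := key Complex.I
  simp only [Complex.add_im, Complex.mul_im, Complex.star_def, Complex.conj_re, Complex.conj_im,
    Complex.one_re, Complex.one_im, Complex.I_re, Complex.I_im] at h1 h2
  apply Complex.ext
  · simp only [Complex.star_def, Complex.conj_re]; linarith
  · simp only [Complex.star_def, Complex.conj_im]; linarith

theorem gnsForm_conj {G : Type*} [Group G] {τ : G → ℂ} (hτ : IsGroupTrace τ) (x y : G →₀ ℂ) :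
    star (gnsForm τ y x) = gnsForm τ x y := by
  refine gnsForm_induction (fun x y => star (gnsForm τ y x) = gnsForm τ x y) ?_ ?_ ?_ ?_ ?_ x y
  · intro y; simp [gnsForm_zero_left, gnsForm_zero_right]
  · intro x; simp [gnsForm_zero_left, gnsForm_zero_right]
  · intro x x' y h1 h2; rw [gnsForm_add_left, gnsForm_add_right, star_add, h1, h2]
  · intro x y y' h1 h2; rw [gnsForm_add_left, gnsForm_add_right, star_add, h1, h2]
  · intro g h a b
    rw [gnsForm_single, gnsForm_single, star_mul, star_mul, star_star, ← gns_inv hτ]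
    simp only [mul_inv_rev, inv_inv]
    ring

theorem gnsForm_smul_left {G : Type*} [Group G] (τ : G → ℂ) (c : ℂ) (x y : G →₀ ℂ) :
    gnsForm τ (c • x) y = star c * gnsForm τ x y := by
  refine gnsForm_induction (fun x y => gnsForm τ (c • x) y = star c * gnsForm τ x y)
    ?_ ?_ ?_ ?_ ?_ x y
  · intro y; simp [gnsForm_zero_left]
  · intro x; simp [gnsForm_zero_right]
  · intro x x' y h1 h2; rw [smul_add, gnsForm_add_left, gnsForm_add_left, h1, h2, mul_add]
  · intro x y y' h1 h2; rw [gnsForm_add_right, gnsForm_add_right, h1, h2, mul_add]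
  · intro g h a b
    rw [Finsupp.smul_single, gnsForm_single, gnsForm_single, smul_eq_mul, star_mul]
    ring

/-- Left translation on finitely supported functions. -/
noncomputable def gnsShift {G : Type*} [Group G] (k : G) : (G →₀ ℂ) ≃ₗ[ℂ] (G →₀ ℂ) :=
  Finsupp.domLCongr (Equiv.mulLeft k)

theorem gnsShift_single {G : Type*} [Group G] (k g : G) (a : ℂ) :
    gnsShift k (Finsupp.single g a) = Finsupp.single (k * g) a := by
  simp [gnsShift]

theorem gnsForm_shift {G : Type*} [Group G] (τ : G → ℂ) (k : G) (x y : G →₀ ℂ) :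
    gnsForm τ (gnsShift k x) (gnsShift k y) = gnsForm τ x y := by
  refine gnsForm_induction (fun x y => gnsForm τ (gnsShift k x) (gnsShift k y) = gnsForm τ x y)
    ?_ ?_ ?_ ?_ ?_ x y
  · intro y; simp [gnsForm_zero_left]
  · intro x; simp [gnsForm_zero_right]
  · intro x x' y h1 h2; rw [map_add, gnsForm_add_left, gnsForm_add_left, h1, h2]
  · intro x y y' h1 h2; rw [map_add, gnsForm_add_right, gnsForm_add_right, h1, h2]
  · intro g h a b
    rw [gnsShift_single, gnsShift_single, gnsForm_single, gnsForm_single]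
    congr 2
    group

theorem gnsShift_mul {G : Type*} [Group G] (k l : G) (x : G →₀ ℂ) :
    gnsShift (k * l) x = gnsShift k (gnsShift l x) := by
  induction x using Finsupp.induction_linear with
  | zero => simp
  | add x x' h1 h2 => rw [map_add, map_add, map_add, h1, h2]
  | single g a => rw [gnsShift_single, gnsShift_single, gnsShift_single, mul_assoc]

theorem gnsShift_one {G : Type*} [Group G] (x : G →₀ ℂ) : gnsShift 1 x = x := by
  induction x using Finsupp.induction_linear with
  | zero => simp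
  | add x x' h1 h2 => rw [map_add, h1, h2]
  | single g a => rw [gnsShift_single, one_mul]

set_option linter.unusedVariables false in
/-- The pre-Hilbert space of the GNS construction. -/
def GnsPre {G : Type} [Group G] {τ : G → ℂ} (hτ : IsGroupTrace τ) : Type := G →₀ ℂ

noncomputable instance {G : Type} [Group G] {τ : G → ℂ} (hτ : IsGroupTrace τ) :
    AddCommGroup (GnsPre hτ) := inferInstanceAs (AddCommGroup (G →₀ ℂ))

noncomputable instance {G : Type} [Group G] {τ : G → ℂ} (hτ : IsGroupTrace τ) :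
    Module ℂ (GnsPre hτ) := inferInstanceAs (Module ℂ (G →₀ ℂ))

/-- The identification of the finitely supported functions with the pre-Hilbert space. -/
noncomputable def toGnsPre {G : Type} [Group G] {τ : G → ℂ} (hτ : IsGroupTrace τ) :
    (G →₀ ℂ) ≃ₗ[ℂ] GnsPre hτ := LinearEquiv.refl ℂ _

/-- The semi-inner product. -/
noncomputable abbrev gnsCore {G : Type} [Group G] {τ : G → ℂ} (hτ : IsGroupTrace τ) :
    PreInnerProductSpace.Core ℂ (GnsPre hτ) where
  inner a b := gnsForm τ ((toGnsPre hτ).symm a) ((toGnsPre hτ).symm b)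
  conj_inner_symm a b := gnsForm_conj hτ _ _
  re_inner_nonneg a := (Complex.nonneg_iff.mp (gnsForm_nonneg hτ _)).1
  add_left a b c := by rw [map_add, gnsForm_add_left]
  smul_left a b c := by rw [map_smul, gnsForm_smul_left]; rfl

noncomputable instance {G : Type} [Group G] {τ : G → ℂ} (hτ : IsGroupTrace τ) :
    SeminormedAddCommGroup (GnsPre hτ) :=
  InnerProductSpace.Core.toSeminormedAddCommGroup (c := gnsCore hτ)

noncomputable instance {G : Type} [Group G] {τ : G → ℂ} (hτ : IsGroupTrace τ) :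
    InnerProductSpace ℂ (GnsPre hτ) := InnerProductSpace.ofCore (gnsCore hτ)

theorem gns_exists_embedding {G : Type} [Group G] (τ : G → ℂ) (hτ : IsGroupTrace τ) :
    ∃ (H : Type) (_ : NormedAddCommGroup H) (_ : InnerProductSpace ℂ H) (_ : CompleteSpace H)
      (e : (G →₀ ℂ) →ₗ[ℂ] H), DenseRange e ∧ ∀ x y, ⟪e x, e y⟫_ℂ = gnsForm τ x y := by
  refine ⟨UniformSpace.Completion (GnsPre hτ), inferInstance, inferInstance, inferInstance,
    (UniformSpace.Completion.toComplL (𝕜 := ℂ) (E := GnsPre hτ)).toLinearMap ∘ₗ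
      (toGnsPre hτ).toLinearMap, ?_, ?_⟩
  · exact (UniformSpace.Completion.denseRange_coe (α := GnsPre hτ)).comp
      (toGnsPre hτ).surjective.denseRange (UniformSpace.Completion.continuous_coe _)
  · intro x y
    exact UniformSpace.Completion.inner_coe (𝕜 := ℂ) (toGnsPre hτ x) (toGnsPre hτ y)

/-- GNS construction for a trace on a group. -/
theorem exists_group_gns {G : Type} [Group G] (τ : G → ℂ) (hτ : IsGroupTrace τ) :
    ∃ (H : Type) (_ : NormedAddCommGroup H) (_ : InnerProductSpace ℂ H) (_ : CompleteSpace H)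
      (U : G →* (H →L[ℂ] H)) (Ω : H),
      (∀ g : G, star (U g) = U g⁻¹) ∧ ‖Ω‖ = 1 ∧ (∀ g : G, ⟪Ω, U g Ω⟫_ℂ = τ g) ∧
      Dense (Submodule.span ℂ (Set.range fun g : G => U g Ω) : Set H) := by
  obtain ⟨H, i1, i2, i3, e, hd, he⟩ := gns_exists_embedding τ hτ
  have hn : ∀ (k : G) (x : G →₀ ℂ), ‖e (gnsShift k x)‖ = ‖e x‖ := by
    intro k x
    rw [@norm_eq_sqrt_re_inner ℂ, @norm_eq_sqrt_re_inner ℂ, he, he, gnsForm_shift]
  let W : G → (H ≃ₗᵢ[ℂ] H) := fun k => (gnsShift k).extendOfIsometry e e hd hd (hn k)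
  have hW : ∀ (k : G) (x : G →₀ ℂ), W k (e x) = e (gnsShift k x) := fun k x =>
    LinearEquiv.extendOfIsometry_eq (gnsShift k) e e hd hd (hn k) x
  have hW1 : ∀ v, W 1 v = v := by
    intro v
    refine hd.induction_on (p := fun v => W 1 v = v) v ?_ ?_
    · exact isClosed_eq (W 1).continuous continuous_id
    · intro x; rw [hW, gnsShift_one]
  have hWm : ∀ k l v, W (k * l) v = W k (W l v) := by
    intro k l v
    refine hd.induction_on (p := fun v => W (k * l) v = W k (W l v)) v ?_ ?_
    · exact isClosed_eq (W (k * l)).continuous ((W k).continuous.comp (W l).continuous)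
    · intro x; rw [hW, hW, hW, gnsShift_mul]
  let U : G →* (H →L[ℂ] H) :=
    { toFun := fun k => (W k).toLinearIsometry.toContinuousLinearMap
      map_one' := by ext v; exact hW1 v
      map_mul' := by intro k l; ext v; exact hWm k l v }
  have hU : ∀ k v, U k v = W k v := fun _ _ => rfl
  have hUs : ∀ g : G, U g (e (Finsupp.single 1 1)) = e (Finsupp.single g 1) := by
    intro g
    rw [hU, hW, gnsShift_single, mul_one]
  refine ⟨H, i1, i2, i3, U, e (Finsupp.single 1 1), fun g => ?_, ?_, fun g => ?_, ?_⟩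
  · rw [ContinuousLinearMap.star_eq_adjoint]
    symm
    rw [ContinuousLinearMap.eq_adjoint_iff]
    intro x y
    rw [hU, hU, ← (W g).inner_map_map, ← hWm, mul_inv_cancel, hW1]
  · rw [@norm_eq_sqrt_re_inner ℂ, he, gnsForm_single]
    simp [hτ.one]
  · rw [hUs, he, gnsForm_single]
    simp
  · refine Dense.mono ?_ hd
    rintro _ ⟨x, rfl⟩
    show e x ∈ Submodule.span ℂ (Set.range fun g : G => U g (e (Finsupp.single 1 1)))
    induction x using Finsupp.induction_linear with
    | zero => simp
    | add x x' h1 h2 => rw [map_add]; exact Submodule.add_mem _ h1 h2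
    | single g a =>
      have : Finsupp.single g a = a • Finsupp.single g (1 : ℂ) := by simp
      rw [this, map_smul]
      exact Submodule.smul_mem _ _ (Submodule.subset_span ⟨g, hUs g⟩)

end Crest.Agent.R120
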