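import Crest.Agent.R120.PingPong

/-! Row 120: excision and disjointness pass to a free HNN extension. -/

set_option autoImplicit false
set_option linter.unusedSectionVars false
set_option linter.unusedSimpArgs false

open scoped InnerProductSpace
open Filter Topology

namespace Crest.Agent.R120

variable {H : Type*} [NormedAddCommGroup H] [InnerProductSpace ℂ H] [CompleteSpace H]

variable {Ω : H} {N : StarSubalgebra ℂ (H →L[ℂ] H)} {P : Bool → ℕ → (H →L[ℂ] H)}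
  {v R : H →L[ℂ] H} {Q : Bool → (H →L[ℂ] H)} {e e' : ℕ → (H →L[ℂ] H)}

lemma tendsto_zero_of_split {E : Type*} [NormedAddCommGroup E] {f : ℕ → E}
    (h : ∀ ε > 0, ∃ g : ℕ → E, Tendsto g atTop (𝓝 0) ∧ ∀ᶠ n in atTop, ‖f n - g n‖ ≤ ε) :
    Tendsto f atTop (𝓝 0) := by
  rw [NormedAddGroup.tendsto_nhds_zero]
  intro ε hε
  obtain ⟨g, hg, hfg⟩ := h (ε / 2) (half_pos hε)
  rw [NormedAddGroup.tendsto_nhds_zero] at hg
  filter_upwards [hg (ε / 2) (half_pos hε), hfg] with n h1 h2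
  have := norm_add_le (f n - g n) (g n)
  rw [sub_add_cancel] at this
  linarith

lemma tendsto_zero_bdd_mul {E : Type*} [NormedRing E] {f g : ℕ → E} (C : ℝ)
    (hf : ∀ n, ‖f n‖ ≤ C) (hg : Tendsto g atTop (𝓝 0)) :
    Tendsto (fun n => f n * g n) atTop (𝓝 0) := by
  refine squeeze_zero_norm (a := fun n => C * ‖g n‖) (fun n => ?_) ?_
  · exact (norm_mul_le _ _).trans (by gcongr; exact hf n)
  · simpa using hg.norm.const_mul C

lemma tendsto_zero_mul_bdd {E : Type*} [NormedRing E] {f g : ℕ → E} (C : ℝ)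
    (hf : Tendsto f atTop (𝓝 0)) (hg : ∀ n, ‖g n‖ ≤ C) :
    Tendsto (fun n => f n * g n) atTop (𝓝 0) := by
  refine squeeze_zero_norm (a := fun n => ‖f n‖ * C) (fun n => ?_) ?_
  · exact (norm_mul_le _ _).trans (by gcongr; exact hg n)
  · simpa using hf.norm.mul_const C

lemma exists_mul_le {C ε : ℝ} (hC : 0 ≤ C) (hε : 0 < ε) : ∃ δ > 0, δ * C ≤ ε :=
  ⟨ε / (C + 1), by positivity, by
    rw [div_mul_eq_mul_div, div_le_iff₀ (by positivity)]; nlinarith⟩

lemma norm_one_sub_le (hp : IsPt Ω e) (m : ℕ) : ‖1 - e m‖ ≤ 1 := (hp.proj m).one_sub.norm_le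

lemma van_mul_one_sub (he : IsPt Ω e) (he' : IsPt Ω e') (a : H →L[ℂ] H) (m : ℕ) :
    Van e (a * (1 - e' m)) e' := by
  rw [van_iff he he']
  intro ε hε
  refine ⟨0, m, ?_⟩
  rw [mul_assoc, mul_assoc, (he'.proj m).one_sub_mul_self]
  simpa using hε

lemma van_one_sub_mul (he : IsPt Ω e) (he' : IsPt Ω e') (a : H →L[ℂ] H) (m : ℕ) :
    Van e ((1 - e m) * a) e' := by
  rw [van_iff he he']
  intro ε hε
  refine ⟨m, 0, ?_⟩
  rw [← mul_assoc, (he.proj m).mul_one_sub_self]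
  simpa using hε

namespace PP

lemma norm_mul_Q_sq_le (hPP : PP Ω N P v R Q) {ε : Bool} {x d : H →L[ℂ] H} (hx : x ∈ N)
    (hd : d ∈ N) (hc : Cen Ω (P ε) (star x * x - d)) : ‖x * Q ε‖ * ‖x * Q ε‖ ≤ ‖d‖ := by
  have hQ := hPP.Q_proj ε
  have h1 := hPP.QaQ ε ε _ (sub_mem (mul_mem (star_mem hx) hx) hd) (fun _ => hc)
  rw [mul_sub, sub_mul, sub_eq_zero] at h1
  rw [← CStarRing.norm_star_mul_self, star_mul, hQ.isSelfAdjoint.star_eq, ← mul_assoc,
    mul_assoc (Q ε), h1]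
  calc _ ≤ ‖Q ε‖ * ‖d‖ * ‖Q ε‖ := (norm_mul_le _ _).trans (by gcongr; exact norm_mul_le _ _)
    _ ≤ 1 * ‖d‖ * 1 := by gcongr <;> exact hQ.norm_le
    _ = _ := by ring

lemma lemmaA (hN : TrOn Ω N) (hD : Datum Ω N P) (hPP : PP Ω N P v R Q) (he : IsPt Ω e)
    (heN : ∀ n, e n ∈ N) {a : H →L[ℂ] H} (ha : a ∈ N) {ε : Bool} (h : Van e a (P ε)) :
    Tendsto (fun n => e n * a * Q ε) atTop (𝓝 0) := by
  rw [NormedAddGroup.tendsto_nhds_zero]
  intro δ hδ
  set p := P ε with hpdef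
  have hp : IsPt Ω p := hD.pt ε
  have hpN : ∀ n, p n ∈ N := hD.mem ε
  obtain ⟨m, hm⟩ := Van.exists_forall he hp h (half_pos hδ)
  have hxx : ∀ n, star (e n * a) * (e n * a) = star a * e n * a := by
    intro n
    rw [star_mul, he.star_eq, mul_assoc, ← mul_assoc (e n), he.mul_self, mul_assoc]
  have h1 : ∀ j, ∀ᶠ n in atTop, ‖tr Ω ((p j - p (j + 1)) * (star (e n * a) * (e n * a)))‖ ≤
      (δ / 2) ^ 2 * ‖(p j - p (j + 1)) Ω‖ ^ 2 := by
    intro j
    have hqN : p j - p (j + 1) ∈ N := sub_mem (hpN _) (hpN _)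
    by_cases h0 : (p j - p (j + 1)) Ω = 0
    · refine Eventually.of_forall fun n => ?_
      rw [hN.faithful _ hqN h0]; simp
    · have h2 : 0 < (δ / 2) ^ 2 * ‖(p j - p (j + 1)) Ω‖ ^ 2 := by positivity
      have h3 := tendsto_tr_mul he (a * (p j - p (j + 1)) * star a)
      rw [NormedAddGroup.tendsto_nhds_zero] at h3
      filter_upwards [h3 _ h2] with n hn
      have e1 : tr Ω ((p j - p (j + 1)) * (star (e n * a) * (e n * a))) =
          tr Ω (e n * (a * (p j - p (j + 1)) * star a)) := by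
        rw [hxx, mul_assoc (star a), ← mul_assoc,
          hN.comm _ (mul_mem hqN (star_mem ha)) _ (mul_mem (heN n) ha)]
        simp only [mul_assoc]
      rw [e1]; exact hn.le
  filter_upwards [(Finset.range m).eventually_all.2 (fun j _ => h1 j), eventually_ge_atTop m]
    with n hn1 hn2
  have hxN : e n * a ∈ N := mul_mem (heN n) ha
  have hxxN := mul_mem (star_mem hxN) hxN
  obtain ⟨d, hd, hc, hb⟩ := exists_decomp hN hp hpN hxxN (hD.exc ε _ hxxN)
  have hdb : ‖d‖ ≤ (δ / 2) ^ 2 := by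
    apply hb _ (by positivity)
    intro j
    by_cases hj : j < m
    · exact hn1 j (Finset.mem_range.2 hj)
    · have hqN : p j - p (j + 1) ∈ N := sub_mem (hpN _) (hpN _)
      refine (norm_tr_proj_mul_le hN (hp.sub_proj (Nat.le_succ j)) hqN hxxN).trans ?_
      gcongr
      refine (norm_step_compress_le hp _ j).trans ?_
      have e2 : p j * (star (e n * a) * (e n * a)) * p j =
          star (e n * a * p j) * (e n * a * p j) := by
        rw [star_mul _ (p j), hp.star_eq]; simp only [mul_assoc]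
      rw [e2, CStarRing.norm_star_mul_self]
      have := hm n hn2 j (not_lt.1 hj)
      have h0 := norm_nonneg (e n * a * p j)
      nlinarith
  have h4 := hPP.norm_mul_Q_sq_le hxN (hD.Dsp_mem hN hd) hc
  have h0 := norm_nonneg (e n * a * Q ε)
  nlinarith

lemma lemmaA' (hN : TrOn Ω N) (hD : Datum Ω N P) (hPP : PP Ω N P v R Q) (he : IsPt Ω e)
    (heN : ∀ n, e n ∈ N) {a : H →L[ℂ] H} (ha : a ∈ N) {ε : Bool} (h : Van (P ε) a e) :
    Tendsto (fun n => Q ε * a * e n) atTop (𝓝 0) := by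
  have := (hPP.lemmaA hN hD he heN (star_mem ha) (h.star (hD.pt ε) he)).star
  simpa only [star_mul, star_star, he.star_eq, (hPP.Q_proj ε).isSelfAdjoint.star_eq, star_zero,
    ← mul_assoc] using this

lemma norm_R_sub_Q_le (hPP : PP Ω N P v R Q) (ε : Bool) : ‖R - Q ε‖ ≤ 2 := by
  have h1 := hPP.R_proj.norm_le
  have h2 := (hPP.Q_proj ε).norm_le
  linarith [norm_sub_le R (Q ε)]

lemma Q_mul_eq (hPP : PP Ω N P v R Q) {ε ε' : Bool} {a : H →L[ℂ] H} (ha : a ∈ N)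
    (hc : ε' = ε → Cen Ω (P ε) a) : Q ε * a = Q ε * a * (R - Q ε') := by
  rw [mul_sub, hPP.QaQ ε ε' a ha hc, sub_zero, mul_assoc, ← hPP.R_comm a (le_ext N v ha),
    ← mul_assoc, hPP.Q_R]

lemma RQ_one_sub_us (hC : Conj P v) (hPP : PP Ω N P v R Q) (ε : Bool) (m : ℕ) :
    (R - Q ε) * (1 - P ε m) * us v ε = us v ε * Q (!ε) * (1 - P (!ε) m) := by
  rw [mul_assoc, sub_mul 1, one_mul, ← hC.us_mul_P, ← hPP.RQu]
  noncomm_ring

lemma claimR (hN : TrOn Ω N) (hD : Datum Ω N P) (hC : Conj P v) (hPP : PP Ω N P v R Q)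
    (he' : IsPt Ω e') (he'N : ∀ n, e' n ∈ N) {a : H →L[ℂ] H} (ha : a ∈ N) {ε : Bool}
    {W : H →L[ℂ] H} (hW : RW Ω N P v ε W) :
    ∀ m, Tendsto (fun n => (R - Q ε) * (1 - P ε m) * W * a * e' n) atTop (𝓝 0) := by
  induction hW with
  | base ε =>
    intro m
    have h1 := hPP.lemmaA' hN hD he' he'N (mul_mem (sub_mem (one_mem _) (hD.mem (!ε) m)) ha)
      (van_one_sub_mul (hD.pt (!ε)) he' a m)
    have h2 := h1.const_mul (us v ε)
    rw [mul_zero] at h2
    refine h2.congr fun n => ?_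
    rw [hPP.RQ_one_sub_us hC]; simp only [mul_assoc]
  | step ε ε' a₁ W' ha₁ hc hW' ih =>
    intro m
    set a₂ := (1 - P (!ε) m) * a₁ with ha₂
    have ha₂N : a₂ ∈ N := mul_mem (sub_mem (one_mem _) (hD.mem _ _)) ha₁
    have hc₂ : ε' = !ε → Cen Ω (P ε') a₂ := by
      intro h; subst h
      exact (hc rfl).mul_left (hD.pt _) (sub_mem (one_mem_Dsp (hD.pt _)) (mem_Dsp _ _))
    have hvan := hD.van_letter hN ha₂N hc₂
    have hA := hPP.lemmaA' hN hD (hD.pt ε') (hD.mem ε') ha₂N hvan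
    have hQ := hPP.Q_mul_eq (ε := !ε) (ε' := ε') ha₂N (fun h => by subst h; exact hc₂ rfl)
    apply tendsto_zero_of_split
    intro δ hδ
    obtain ⟨η, hη, hηδ⟩ := exists_mul_le (norm_nonneg (W' * a)) hδ
    rw [NormedAddGroup.tendsto_nhds_zero] at hA
    obtain ⟨m', hm'⟩ := (hA η hη).exists
    refine ⟨fun n => (us v ε * Q (!ε) * a₂) * ((R - Q ε') * (1 - P ε' m') * W' * a * e' n), ?_,
      Eventually.of_forall fun n => ?_⟩
    · simpa using (ih m').const_mul (us v ε * Q (!ε) * a₂)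
    · have e1 : (R - Q ε) * (1 - P ε m) * (us v ε * a₁ * W') * a * e' n =
          us v ε * (Q (!ε) * a₂) * W' * a * e' n := by
        rw [← mul_assoc, ← mul_assoc, hPP.RQ_one_sub_us hC, ha₂]; simp only [mul_assoc]
      have e2 : (us v ε * Q (!ε) * a₂) * ((R - Q ε') * (1 - P ε' m') * W' * a * e' n) =
          us v ε * (Q (!ε) * a₂ * (R - Q ε')) * (1 - P ε' m') * W' * a * e' n := by
        simp only [mul_assoc]
      beta_reduce
      rw [e1, e2, ← hQ]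
      have e3 : us v ε * (Q (!ε) * a₂) * W' * a * e' n -
          us v ε * (Q (!ε) * a₂) * (1 - P ε' m') * W' * a * e' n =
          us v ε * ((Q (!ε) * a₂ * P ε' m') * (W' * a)) * e' n := by noncomm_ring
      rw [e3]
      calc _ ≤ ‖us v ε‖ * (‖Q (!ε) * a₂ * P ε' m'‖ * ‖W' * a‖) * ‖e' n‖ :=
            (norm_mul_le _ _).trans (by
              gcongr; exact (norm_mul_le _ _).trans (by gcongr; exact norm_mul_le _ _))
        _ ≤ 1 * (η * ‖W' * a‖) * 1 := by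
            gcongr
            exacts [hC.norm_us_le ε, he'.norm_le n]
        _ ≤ δ := by linarith

lemma claim (hN : TrOn Ω N) (hD : Datum Ω N P) (hC : Conj P v) (hPP : PP Ω N P v R Q)
    (he : IsPt Ω e) (heN : ∀ n, e n ∈ N) (he' : IsPt Ω e') (he'N : ∀ n, e' n ∈ N)
    {a₀ a : H →L[ℂ] H} (ha₀ : a₀ ∈ N) (ha : a ∈ N) {ε : Bool} {W : H →L[ℂ] H}
    (hW : RW Ω N P v ε W) (h : Van e a₀ (P ε)) : Van e (a₀ * W * a) e' := by
  have hWB : W ∈ ext N v := hW.mem (le_ext N v) (self_mem_ext N v)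
  have hyB : ∀ n, W * a * e' n ∈ ext N v := fun n =>
    mul_mem (mul_mem hWB (le_ext N v ha)) (le_ext N v (he'N n))
  have hy : ∀ n, ‖W * a * e' n‖ ≤ ‖W * a‖ := fun n =>
    (norm_mul_le _ _).trans (by
      calc _ ≤ ‖W * a‖ * 1 := by gcongr; exact he'.norm_le n
        _ = _ := mul_one _)
  suffices hs : Tendsto (fun n => e n * a₀ * R * (W * a * e' n)) atTop (𝓝 0) by
    refine squeeze_zero_norm (a := fun n => ‖e n * a₀ * R * (W * a * e' n)‖) (fun n => ?_)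
      (by simpa using hs.norm)
    have hb : e n * (a₀ * W * a) * e' n ∈ ext N v := by
      have := mul_mem (le_ext N v (mul_mem (heN n) ha₀)) (hyB n)
      simpa only [mul_assoc] using this
    refine (hPP.norm_le _ hb).trans (le_of_eq ?_)
    rw [mul_assoc (e n * a₀) R, hPP.R_comm _ (hyB n)]; simp only [mul_assoc]
  apply tendsto_zero_of_split
  intro δ hδ
  obtain ⟨η, hη, hηδ⟩ := exists_mul_le (norm_nonneg (W * a)) hδ
  obtain ⟨m, hm⟩ := Van.exists_forall he (hD.pt ε) h hη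
  refine ⟨fun n => (e n * a₀ * Q ε) * ((1 - P ε m) * (W * a * e' n)) +
    (e n * a₀) * ((R - Q ε) * (1 - P ε m) * W * a * e' n), ?_, ?_⟩
  · have h1 := tendsto_zero_mul_bdd (g := fun n => (1 - P ε m) * (W * a * e' n)) ‖W * a‖
      (hPP.lemmaA hN hD he heN ha₀ h) (fun n => (norm_mul_le _ _).trans (by
        calc _ ≤ 1 * ‖W * a‖ := by gcongr; exacts [norm_one_sub_le (hD.pt ε) m, hy n]
          _ = _ := one_mul _))
    have h2 := tendsto_zero_bdd_mul (f := fun n => e n * a₀) ‖a₀‖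
      (fun n => (norm_mul_le _ _).trans (by
        calc _ ≤ 1 * ‖a₀‖ := by gcongr; exact he.norm_le n
          _ = _ := one_mul _)) (hPP.claimR hN hD hC he' he'N ha hW m)
    simpa using h1.add h2
  · filter_upwards [eventually_ge_atTop m] with n hn
    have e0 : R * P ε m = P ε m * R := hPP.R_comm _ (le_ext N v (hD.mem ε m))
    have e1 : e n * a₀ * R * (W * a * e' n) - ((e n * a₀ * Q ε) * ((1 - P ε m) * (W * a * e' n)) +
        (e n * a₀) * ((R - Q ε) * (1 - P ε m) * W * a * e' n)) =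
        e n * a₀ * (R * P ε m) * (W * a * e' n) := by noncomm_ring
    rw [e1, e0, ← mul_assoc (e n * a₀) (P ε m) R]
    calc _ ≤ ‖e n * a₀ * P ε m‖ * ‖R‖ * ‖W * a * e' n‖ :=
          (norm_mul_le _ _).trans (by gcongr; exact norm_mul_le _ _)
      _ ≤ η * 1 * ‖W * a‖ := by
          gcongr
          exacts [(hm n hn m le_rfl).le, hPP.R_proj.norm_le, hy n]
      _ ≤ δ := by linarith

lemma van_word (hN : TrOn Ω N) (hD : Datum Ω N P) (hC : Conj P v) (hPP : PP Ω N P v R Q)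
    (he : IsPt Ω e) (heN : ∀ n, e n ∈ N) (he' : IsPt Ω e') (he'N : ∀ n, e' n ∈ N)
    (hyp : ∀ ε, (∀ a ∈ N, Van e a (P ε)) ∨ (∀ a ∈ N, Van (P (!ε)) a e'))
    {a₀ a : H →L[ℂ] H} (ha₀ : a₀ ∈ N) (ha : a ∈ N) {ε : Bool} {W : H →L[ℂ] H}
    (hW : RW Ω N P v ε W) : Van e (a₀ * W * a) e' := by
  rcases hyp ε with h | h
  · exact hPP.claim hN hD hC he heN he' he'N ha₀ ha hW (h a₀ ha₀)
  obtain ⟨y, hy, hWy⟩ : ∃ y, Van (P (!ε)) y e' ∧ W * a = us v ε * y := by
    cases hW with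
    | base _ => exact ⟨a, h a ha, rfl⟩
    | step _ ε' a₁ W' ha₁ hc hW' =>
      exact ⟨a₁ * W' * a, hPP.claim hN hD hC (hD.pt _) (hD.mem _) he' he'N ha₁ ha hW'
        (hD.van_letter hN ha₁ hc), by simp only [mul_assoc]⟩
  apply tendsto_zero_of_split
  intro δ hδ
  obtain ⟨η, hη, hηδ⟩ := exists_mul_le (norm_nonneg a₀) hδ
  obtain ⟨m, hm⟩ := Van.exists_forall (hD.pt _) he' hy hη
  refine ⟨_, hPP.claim hN hD hC he heN he' he'N
    (mul_mem ha₀ (sub_mem (one_mem _) (hD.mem ε m))) ha hW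
    (van_mul_one_sub he (hD.pt ε) a₀ m), ?_⟩
  filter_upwards [eventually_ge_atTop m] with n hn
  have e1 : e n * (a₀ * W * a) * e' n - e n * (a₀ * (1 - P ε m) * W * a) * e' n =
      e n * a₀ * (P ε m * (W * a)) * e' n := by noncomm_ring
  have e2 : e n * a₀ * (P ε m * (W * a)) * e' n =
      e n * a₀ * us v ε * (P (!ε) m * y * e' n) := by
    rw [hWy, ← mul_assoc (P ε m), ← hC.us_mul_P]; simp only [mul_assoc]
  rw [e1, e2]
  calc _ ≤ ‖e n‖ * ‖a₀‖ * ‖us v ε‖ * ‖P (!ε) m * y * e' n‖ :=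
        (norm_mul_le _ _).trans (by
          gcongr; exact (norm_mul_le _ _).trans (by gcongr; exact norm_mul_le _ _))
    _ ≤ 1 * ‖a₀‖ * 1 * η := by
        gcongr
        exacts [he.norm_le n, hC.norm_us_le ε, (hm m le_rfl n hn).le]
    _ ≤ δ := by linarith

end PP

/-- Disjointness passes to the extension. -/
theorem van_ext (hB : TrOn Ω (ext N v)) (hNc : IsClosed (N : Set (H →L[ℂ] H)))
    (hD : Datum Ω N P) (hC : Conj P v) (hF : Free Ω N P v)
    (he : IsPt Ω e) (heN : ∀ n, e n ∈ N) (he' : IsPt Ω e') (he'N : ∀ n, e' n ∈ N)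
    (hyp : ∀ ε, (∀ a ∈ N, Van e a (P ε)) ∨ (∀ a ∈ N, Van (P (!ε)) a e'))
    (h : ∀ a ∈ N, Van e a e') : ∀ x ∈ ext N v, Van e x e' := by
  have hN : TrOn Ω N := hB.mono (le_ext N v) hNc
  obtain ⟨R, Q, hPP⟩ := exists_pp hB hNc hD hC hF
  exact ext_induction hN hD hC (vanSub e e') (isClosed_vanSub he he') h
    (fun ε W hW a ha a' ha' => hPP.van_word hN hD hC he heN he' he'N hyp ha ha' hW)

/-- Excision passes to the extension. -/
theorem exc_ext_of_hyp (hB : TrOn Ω (ext N v)) (hNc : IsClosed (N : Set (H →L[ℂ] H)))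
    (hD : Datum Ω N P) (hC : Conj P v) (hF : Free Ω N P v)
    (he : IsPt Ω e) (heN : ∀ n, e n ∈ N)
    (hyp : ∀ ε, (∀ a ∈ N, Van e a (P ε)) ∨ (∀ a ∈ N, Van (P (!ε)) a e))
    (h : ∀ a ∈ N, Exc e a) : ∀ x ∈ ext N v, Exc e x := by
  have hN : TrOn Ω N := hB.mono (le_ext N v) hNc
  obtain ⟨R, Q, hPP⟩ := exists_pp hB hNc hD hC hF
  intro x hx
  rw [← mem_excSub]
  exact ext_induction hN hD hC (excSub e) (isClosed_excSub he)
    (fun a ha => mem_excSub.2 (h a ha))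
    (fun ε W hW a ha a' ha' => mem_excSub.2
      (hPP.van_word hN hD hC he heN he heN hyp ha ha' hW).exc) x hx

/-- The trivial datum. -/
def trivP (H : Type*) [NormedAddCommGroup H] [InnerProductSpace ℂ H] :
    Bool → ℕ → (H →L[ℂ] H) := fun _ n => if n = 0 then 1 else 0

lemma cen_trivP {a : H →L[ℂ] H} (ε : Bool) (h : tr Ω a = 0) : Cen Ω (trivP H ε) a := by
  intro n
  by_cases hn : n = 0 <;> simp [trivP, hn, h]

lemma isPt_trivP (Ω : H) (ε : Bool) : IsPt Ω (trivP H ε) := by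
  refine ⟨fun n => ?_, by simp [trivP], fun n => by simp [trivP], ?_⟩
  · by_cases hn : n = 0
    · simp [trivP, hn]
    · simp [trivP, hn]
  · refine tendsto_const_nhds.congr' ?_
    filter_upwards [eventually_gt_atTop 0] with n hn
    simp [trivP, hn.ne']

lemma datum_trivP (Ω : H) (N : StarSubalgebra ℂ (H →L[ℂ] H)) : Datum Ω N (trivP H) := by
  have hv : ∀ ε ε' a, Van (trivP H ε) a (trivP H ε') := by
    intro ε ε' a
    rw [van_iff (isPt_trivP Ω ε) (isPt_trivP Ω ε')]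
    exact fun δ hδ => ⟨1, 1, by simpa [trivP] using hδ⟩
  refine ⟨isPt_trivP Ω, fun ε n => ?_, fun ε a _ => (hv ε ε a).exc, fun a _ => hv _ _ a,
    fun _ => rfl⟩
  by_cases hn : n = 0
  · simp [trivP, hn]
  · simp [trivP, hn]

/-- The norm estimate for a free Haar unitary. -/
theorem free_estimate (hΩ : ‖Ω‖ = 1) (hB : TrOn Ω (ext N v))
    (hNc : IsClosed (N : Set (H →L[ℂ] H))) (hC : Conj (trivP H) v) (hF : Free Ω N (trivP H) v)
    {x w : H →L[ℂ] H} (hx : x ∈ N) (hw : w ∈ N) (hxs : IsSelfAdjoint x) (hw0 : tr Ω w = 0)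
    (ε : Bool) : ‖x * (us v ε * w * us v (!ε)) * x‖ ≤ 2 * ‖w‖ * ‖x‖ * ‖x Ω‖ := by
  obtain ⟨R, Q, hPP⟩ := exists_pp hB hNc (datum_trivP Ω N) hC hF
  have hvB : ∀ ε, us v ε ∈ ext N v := us_mem (self_mem_ext N v)
  have hxQ : ‖x * Q ε‖ ≤ ‖x Ω‖ := by
    have h1 : tr Ω 1 = 1 := by
      rw [tr_apply, one_apply_eq_self, inner_self_eq_norm_sq_to_K, hΩ]; simp
    have h2 := hPP.norm_mul_Q_sq_le (ε := ε) hx
      (d := ((‖x Ω‖ ^ 2 : ℝ) : ℂ) • 1) (SMulMemClass.smul_mem _ (one_mem _))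
      (cen_trivP ε (by rw [map_sub, map_smul, h1, tr_star_mul_self]; simp))
    have h3 : ‖(1 : H →L[ℂ] H)‖ ≤ 1 := ContinuousLinearMap.norm_id_le
    rw [norm_smul, Complex.norm_real, Real.norm_of_nonneg (by positivity)] at h2
    have h4 : ‖x * Q ε‖ ^ 2 ≤ ‖x Ω‖ ^ 2 := by nlinarith [sq_nonneg ‖x Ω‖]
    exact (sq_le_sq₀ (norm_nonneg _) (norm_nonneg _)).1 h4
  have hQx : ‖Q ε * x‖ ≤ ‖x Ω‖ := by
    rw [← norm_star, star_mul, hxs.star_eq, (hPP.Q_proj ε).isSelfAdjoint.star_eq]; exact hxQ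
  have hWB : us v ε * w * us v (!ε) * x ∈ ext N v :=
    mul_mem (mul_mem (mul_mem (hvB _) (le_ext N v hw)) (hvB _)) (le_ext N v hx)
  have h1 : (R - Q ε) * (us v ε * w * us v (!ε)) = us v ε * Q (!ε) * w * us v (!ε) * Q ε := by
    have h2 := hPP.Q_mul_eq (ε := !ε) (ε' := !ε) hw (fun _ => cen_trivP _ hw0)
    have h3 := hPP.RQu (!ε)
    rw [Bool.not_not] at h3
    calc (R - Q ε) * (us v ε * w * us v (!ε)) = ((R - Q ε) * us v ε) * w * us v (!ε) := by
          simp only [mul_assoc]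
      _ = us v ε * (Q (!ε) * w) * us v (!ε) := by rw [hPP.RQu]; simp only [mul_assoc]
      _ = us v ε * (Q (!ε) * w * (R - Q (!ε))) * us v (!ε) := by rw [← h2]
      _ = us v ε * (Q (!ε) * w) * ((R - Q (!ε)) * us v (!ε)) := by simp only [mul_assoc]
      _ = _ := by rw [h3]; simp only [mul_assoc]
  have hb : x * (us v ε * w * us v (!ε)) * x ∈ ext N v := by
    rw [mul_assoc]; exact mul_mem (le_ext N v hx) hWB
  refine (hPP.norm_le _ hb).trans ?_
  have e1 : x * (us v ε * w * us v (!ε)) * x * R =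
      (x * Q ε) * (us v ε * w * us v (!ε)) * x +
        x * (us v ε * Q (!ε) * w * us v (!ε)) * (Q ε * x) := by
    rw [mul_assoc x, mul_assoc x, ← hPP.R_comm _ hWB]
    calc x * (R * (us v ε * w * us v (!ε) * x)) = (x * Q ε) * (us v ε * w * us v (!ε)) * x +
          x * ((R - Q ε) * (us v ε * w * us v (!ε))) * x := by noncomm_ring
      _ = _ := by rw [h1]; simp only [mul_assoc]
  rw [e1]
  have hu := hC.norm_us_le ε
  have hu' := hC.norm_us_le (!ε)
  have hq := (hPP.Q_proj (!ε)).norm_le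
  have n1 : ‖us v ε * w * us v (!ε)‖ ≤ ‖w‖ := by
    calc _ ≤ ‖us v ε‖ * ‖w‖ * ‖us v (!ε)‖ :=
          (norm_mul_le _ _).trans (by gcongr; exact norm_mul_le _ _)
      _ ≤ 1 * ‖w‖ * 1 := by gcongr
      _ = _ := by ring
  have n2 : ‖us v ε * Q (!ε) * w * us v (!ε)‖ ≤ ‖w‖ := by
    calc _ ≤ ‖us v ε‖ * ‖Q (!ε)‖ * ‖w‖ * ‖us v (!ε)‖ :=
          (norm_mul_le _ _).trans (by
            gcongr; exact (norm_mul_le _ _).trans (by gcongr; exact norm_mul_le _ _))
      _ ≤ 1 * 1 * ‖w‖ * 1 := by gcongr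
      _ = _ := by ring
  calc _ ≤ ‖x * Q ε‖ * ‖us v ε * w * us v (!ε)‖ * ‖x‖ +
        ‖x‖ * ‖us v ε * Q (!ε) * w * us v (!ε)‖ * ‖Q ε * x‖ :=
        (norm_add_le _ _).trans (add_le_add
          ((norm_mul_le _ _).trans (by gcongr; exact norm_mul_le _ _))
          ((norm_mul_le _ _).trans (by gcongr; exact norm_mul_le _ _)))
    _ ≤ ‖x Ω‖ * ‖w‖ * ‖x‖ + ‖x‖ * ‖w‖ * ‖x Ω‖ := by gcongr
    _ = _ := by ring

end Crest.Agent.R120
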