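import Crest.Agent.R120.Assoc

/-! Row 120: transfinite towers of free HNN extensions. -/

set_option autoImplicit false
set_option linter.unusedSectionVars false
set_option linter.unusedSimpArgs false

open scoped InnerProductSpace
open Filter Topology Set

namespace Crest.Agent.R120

lemma set_induction {ι : Type*} [LinearOrder ι] [WellFoundedLT ι] (Pr : Set ι → Prop)
    (R₀ R₁ : Set ι) (h0 : Pr R₀)
    (hlim : ∀ (T : Set ι) (S : T → Set ι), T.Nonempty → Directed (· ⊆ ·) S → (∀ i, Pr (S i)) →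
      Pr (⋃ i, S i))
    (hstep : ∀ γ ∈ R₁, γ ∉ R₀ → Pr (R₀ ∪ R₁ ∩ Iio γ) → Pr (insert γ (R₀ ∪ R₁ ∩ Iio γ))) :
    Pr (R₀ ∪ R₁) := by
  have aux : ∀ T : Set ι, IsLowerSet T → (∀ γ ∈ T, Pr (R₀ ∪ R₁ ∩ Iic γ)) → Pr (R₀ ∪ R₁ ∩ T) := by
    intro T hT h
    rcases T.eq_empty_or_nonempty with rfl | hne
    · simpa using h0
    · have := hlim T (fun γ => R₀ ∪ R₁ ∩ Iic γ) hne (Monotone.directed_le
        (f := fun γ : T => R₀ ∪ R₁ ∩ Iic (γ : ι)) fun a b hab =>
          union_subset_union_right _ (inter_subset_inter_right _ (Iic_subset_Iic.2 hab)))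
        (fun γ => h γ γ.2)
      convert this using 1
      ext x
      simp only [mem_union, mem_inter_iff, mem_iUnion, mem_Iic, Subtype.exists, exists_prop]
      constructor
      · rintro (hx | ⟨hx, hxT⟩)
        · obtain ⟨γ, hγ⟩ := hne
          exact ⟨γ, hγ, Or.inl hx⟩
        · exact ⟨x, hxT, Or.inr ⟨hx, le_rfl⟩⟩
      · rintro ⟨γ, hγ, hx | ⟨hx, hxγ⟩⟩
        · exact Or.inl hx
        · exact Or.inr ⟨hx, hT hxγ hγ⟩
  have key : ∀ γ, Pr (R₀ ∪ R₁ ∩ Iic γ) := by
    intro γ
    induction γ using WellFoundedLT.induction with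
    | ind γ ih =>
      have h1 := aux (Iio γ) (isLowerSet_Iio γ) ih
      by_cases hγ : γ ∈ R₁ ∧ γ ∉ R₀
      · convert hstep γ hγ.1 hγ.2 h1 using 1
        ext x
        simp only [mem_union, mem_inter_iff, mem_Iic, mem_insert_iff, mem_Iio]
        constructor
        · rintro (hx | ⟨hx, hxγ⟩)
          · exact Or.inr (Or.inl hx)
          · rcases hxγ.eq_or_lt with h | h
            · exact Or.inl h
            · exact Or.inr (Or.inr ⟨hx, h⟩)
        · rintro (rfl | hx | ⟨hx, hxγ⟩)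
          · exact Or.inr ⟨hγ.1, le_rfl⟩
          · exact Or.inl hx
          · exact Or.inr ⟨hx, hxγ.le⟩
      · convert h1 using 1
        ext x
        simp only [mem_union, mem_inter_iff, mem_Iic, mem_Iio]
        constructor
        · rintro (hx | ⟨hx, hxγ⟩)
          · exact Or.inl hx
          · rcases hxγ.eq_or_lt with rfl | h
            · by_contra h'
              exact hγ ⟨hx, fun h => h' (Or.inl h)⟩
            · exact Or.inr ⟨hx, h⟩
        · rintro (hx | ⟨hx, hxγ⟩)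
          · exact Or.inl hx
          · exact Or.inr ⟨hx, hxγ.le⟩
  simpa using aux univ isLowerSet_univ (fun γ _ => key γ)

variable {H : Type*} [NormedAddCommGroup H] [InnerProductSpace ℂ H] [CompleteSpace H]
  {ι : Type*}

/-- The closed algebra generated by the base and the stable letters indexed by `R`. -/
noncomputable def Alg (base : Set (H →L[ℂ] H)) (v : ι → (H →L[ℂ] H)) (R : Set ι) :
    StarSubalgebra ℂ (H →L[ℂ] H) :=
  (StarAlgebra.adjoin ℂ (base ∪ v '' R)).topologicalClosure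

section Alg

variable {base : Set (H →L[ℂ] H)} {v : ι → (H →L[ℂ] H)}

lemma isClosed_Alg (R : Set ι) : IsClosed (Alg base v R : Set (H →L[ℂ] H)) :=
  StarSubalgebra.isClosed_topologicalClosure _

lemma subset_Alg (R : Set ι) : base ∪ v '' R ⊆ Alg base v R := fun _ hx =>
  StarSubalgebra.le_topologicalClosure _ (StarAlgebra.subset_adjoin ℂ _ hx)

lemma gen_mem_Alg {R : Set ι} {β : ι} (h : β ∈ R) : v β ∈ Alg base v R :=
  subset_Alg R (Or.inr ⟨β, h, rfl⟩)

lemma Alg_le {R : Set ι} {B : StarSubalgebra ℂ (H →L[ℂ] H)}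
    (hB : IsClosed (B : Set (H →L[ℂ] H))) (h : base ∪ v '' R ⊆ B) : Alg base v R ≤ B :=
  StarSubalgebra.topologicalClosure_minimal (StarAlgebra.adjoin_le h) hB

lemma Alg_mono {R R' : Set ι} (h : R ⊆ R') : Alg base v R ≤ Alg base v R' :=
  Alg_le (isClosed_Alg _)
    ((union_subset_union_right _ (image_mono h)).trans (subset_Alg R'))

lemma Alg_insert (R : Set ι) (γ : ι) : Alg base v (insert γ R) = ext (Alg base v R) (v γ) := by
  apply le_antisymm
  · apply Alg_le (isClosed_ext _ _)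
    rintro x (hx | ⟨β, hβ | hβ, rfl⟩)
    · exact le_ext _ _ (subset_Alg R (Or.inl hx))
    · rw [hβ]; exact self_mem_ext _ _
    · exact le_ext _ _ (gen_mem_Alg hβ)
  · exact ext_le (isClosed_Alg _) (Alg_mono (subset_insert _ _)) (gen_mem_Alg (mem_insert _ _))

lemma mem_closure_of_directed {κ : Type*} [Nonempty κ] (S : κ → Set ι)
    (hS : Directed (· ⊆ ·) S) {x : H →L[ℂ] H} (hx : x ∈ Alg base v (⋃ i, S i)) :
    x ∈ closure {a | ∃ i, a ∈ Alg base v (S i)} := by
  have hx' : x ∈ closure ((StarAlgebra.adjoin ℂ (base ∪ v '' ⋃ i, S i) :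
      StarSubalgebra ℂ (H →L[ℂ] H)) : Set (H →L[ℂ] H)) := hx
  refine closure_mono (fun y hy => ?_) hx'
  induction hy using StarAlgebra.adjoin_induction with
  | mem y hy =>
    rcases hy with hy | ⟨β, hβ, rfl⟩
    · exact ⟨Classical.arbitrary κ, subset_Alg _ (Or.inl hy)⟩
    · obtain ⟨i, hi⟩ := mem_iUnion.1 hβ
      exact ⟨i, gen_mem_Alg hi⟩
  | algebraMap r => exact ⟨Classical.arbitrary κ, algebraMap_mem _ r⟩
  | add a b _ _ ha hb =>
    obtain ⟨i, hi⟩ := ha
    obtain ⟨j, hj⟩ := hb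
    obtain ⟨k, hik, hjk⟩ := hS i j
    exact ⟨k, add_mem (Alg_mono hik hi) (Alg_mono hjk hj)⟩
  | mul a b _ _ ha hb =>
    obtain ⟨i, hi⟩ := ha
    obtain ⟨j, hj⟩ := hb
    obtain ⟨k, hik, hjk⟩ := hS i j
    exact ⟨k, mul_mem (Alg_mono hik hi) (Alg_mono hjk hj)⟩
  | star a _ ha =>
    obtain ⟨i, hi⟩ := ha
    exact ⟨i, star_mem hi⟩

lemma exists_countable_support {R : Set ι} {x : H →L[ℂ] H} (hx : x ∈ Alg base v R) :
    ∃ T ⊆ R, T.Countable ∧ x ∈ Alg base v T := by
  let κ := {T : Set ι // T ⊆ R ∧ T.Finite}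
  have : Nonempty κ := ⟨⟨∅, empty_subset _, finite_empty⟩⟩
  have hR : R = ⋃ T : κ, (T : Set ι) := by
    ext β
    simp only [mem_iUnion]
    exact ⟨fun h => ⟨⟨{β}, singleton_subset_iff.2 h, finite_singleton β⟩, rfl⟩,
      fun ⟨T, hT⟩ => T.2.1 hT⟩
  rw [hR] at hx
  have h1 := mem_closure_of_directed (fun T : κ => (T : Set ι)) (fun T T' =>
    ⟨⟨T ∪ T', union_subset T.2.1 T'.2.1, T.2.2.union T'.2.2⟩, subset_union_left,
      subset_union_right⟩) hx
  obtain ⟨a, ha, hlim⟩ := mem_closure_iff_seq_limit.1 h1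
  choose T hT using ha
  refine ⟨⋃ n, (T n : Set ι), iUnion_subset fun n => (T n).2.1,
    countable_iUnion fun n => (T n).2.2.countable, ?_⟩
  exact (isClosed_Alg _).mem_of_tendsto hlim
    (Eventually.of_forall fun n => Alg_mono (subset_iUnion (fun n => (T n : Set ι)) n) (hT n))

end Alg

lemma Conj.van_iff {P : Bool → ℕ → (H →L[ℂ] H)} {v : H →L[ℂ] H} (hC : Conj P v)
    {e : ℕ → (H →L[ℂ] H)} {b : H →L[ℂ] H} (h : Van e (b * star v) (P true)) :
    Van e b (P false) := by
  have h1 := Tendsto.mul_const v h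
  rw [zero_mul] at h1
  refine h1.congr fun n => ?_
  have h2 := hC.us_mul_not false
  simp only [us_false, Bool.not_false, us_true] at h2
  rw [mul_assoc, ← hC.conj n]
  calc _ = e n * b * (star v * v) * P false n := by simp only [mul_assoc]
    _ = _ := by rw [h2, mul_one]

lemma Conj.exc_conj {P : Bool → ℕ → (H →L[ℂ] H)} {v : H →L[ℂ] H} (hC : Conj P v)
    {y : H →L[ℂ] H} (h : Exc (P false) y) : Exc (P true) (v * y * star v) := by
  obtain ⟨c, hc⟩ := h
  refine ⟨c, ?_⟩
  have h1 := (Tendsto.const_mul v hc).mul_const (star v)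
  rw [mul_zero, zero_mul] at h1
  refine h1.congr fun n => ?_
  have h2 := hC.us_mul_not true
  have h3 := hC.us_mul_P false n
  simp only [us_false, Bool.not_false, us_true, Bool.not_true] at h2 h3
  have h4 : v * y * star v - c • 1 = v * (y - c • 1) * star v := by
    rw [mul_sub, sub_mul, mul_smul_comm, mul_one, smul_mul_assoc, h2]
  rw [h4]
  calc _ = (v * P false n) * (y - c • 1) * (P false n * star v) := by simp only [mul_assoc]
    _ = _ := by rw [hC.conj n, ← h3]; simp only [mul_assoc]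

variable [LinearOrder ι]

/-- A tower of free HNN extensions. -/
structure Sys (Ω : H) (base : Set (H →L[ℂ] H)) (v : ι → (H →L[ℂ] H))
    (P : ι → Bool → ℕ → (H →L[ℂ] H)) : Prop where
  tr : TrOn Ω (Alg base v univ)
  datum : ∀ β, Datum Ω (Alg base v (Iio β)) (P β)
  conj : ∀ β, Conj (P β) (v β)
  free : ∀ β, Free Ω (Alg base v (Iio β)) (P β) (v β)

/-- Index sets that contain the supports of their data. -/
def Closed (base : Set (H →L[ℂ] H)) (v : ι → (H →L[ℂ] H)) (P : ι → Bool → ℕ → (H →L[ℂ] H))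
    (R : Set ι) : Prop := ∀ β ∈ R, ∀ ε n, P β ε n ∈ Alg base v (R ∩ Iio β)

namespace Sys

variable {Ω : H} {base : Set (H →L[ℂ] H)} {v : ι → (H →L[ℂ] H)}
  {P : ι → Bool → ℕ → (H →L[ℂ] H)}

lemma trOn (h : Sys Ω base v P) (R : Set ι) : TrOn Ω (Alg base v R) :=
  h.tr.mono (Alg_mono (subset_univ R)) (isClosed_Alg R)

lemma exists_closed (h : Sys Ω base v P) {T : Set ι} (hT : T.Countable) :
    ∃ S, T ⊆ S ∧ S.Countable ∧ Closed base v P S := by
  have h1 : ∀ β, ∃ s ⊆ Iio β, s.Countable ∧ ∀ ε n, P β ε n ∈ Alg base v s := by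
    intro β
    choose s hs1 hs2 hs3 using fun (x : Bool × ℕ) =>
      exists_countable_support ((h.datum β).mem x.1 x.2)
    exact ⟨⋃ x, s x, iUnion_subset hs1, countable_iUnion hs2,
      fun ε n => Alg_mono (subset_iUnion s (ε, n)) (hs3 (ε, n))⟩
  choose s hs1 hs2 hs3 using h1
  let F : ℕ → Set ι := fun k => Nat.rec T (fun _ X => X ∪ ⋃ β ∈ X, s β) k
  have hF : ∀ k, (F k).Countable := by
    intro k
    induction k with
    | zero => exact hT
    | succ k ih => exact ih.union (ih.biUnion fun β _ => hs2 β)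
  refine ⟨⋃ k, F k, subset_iUnion F 0, countable_iUnion hF, fun β hβ ε n => ?_⟩
  obtain ⟨k, hk⟩ := mem_iUnion.1 hβ
  refine Alg_mono (subset_inter ?_ (hs1 β)) (hs3 β ε n)
  exact fun x hx => mem_iUnion.2 ⟨k + 1, Or.inr (mem_biUnion hk hx)⟩

variable [WellFoundedLT ι]

theorem up (h : Sys Ω base v P) {R : Set ι} (hR : Closed base v P R) {β : ι} (hβ : β ∉ R)
    (hm : ∀ ε n, P β ε n ∈ Alg base v (R ∩ Iio β)) :
    Datum Ω (Alg base v R) (P β) ∧ Free Ω (Alg base v R) (P β) (v β) := by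
  have := set_induction
    (fun R' => Datum Ω (Alg base v R') (P β) ∧ Free Ω (Alg base v R') (P β) (v β))
    (R ∩ Iio β) R ?_ ?_ ?_
  · rwa [union_eq_right.2 inter_subset_left] at this
  · exact ⟨(h.datum β).mono (Alg_mono inter_subset_right) hm,
      (h.free β).mono (Alg_mono inter_subset_right)⟩
  · intro T S hT hS hPr
    have := hT.to_subtype
    have hpt := (h.datum β).pt
    refine ⟨⟨hpt, fun ε n => ?_, fun ε a ha => ?_, fun a ha => ?_, (h.datum β).tr_eq⟩, ?_⟩
    · obtain ⟨i⟩ := this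
      exact Alg_mono (subset_iUnion S i) ((hPr i).1.mem ε n)
    · rw [← mem_excSub]
      refine closure_minimal ?_ (isClosed_excSub (hpt ε)) (mem_closure_of_directed S hS ha)
      rintro x ⟨i, hx⟩
      exact mem_excSub.2 ((hPr i).1.exc ε x hx)
    · refine closure_minimal (t := vanSub (P β true) (P β false)) ?_
        (isClosed_vanSub (hpt _) (hpt _)) (mem_closure_of_directed S hS ha)
      rintro x ⟨i, hx⟩
      exact (hPr i).1.perp x hx
    · refine free_of_directed (h.trOn _) (fun i => Alg base v (S i)) (fun i j => ?_)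
        (fun i => Alg_mono (subset_iUnion S i)) (fun i => isClosed_Alg _)
        (fun x hx => mem_closure_of_directed S hS hx) (fun i => (hPr i).1) (fun i => (hPr i).2)
      obtain ⟨k, hik, hjk⟩ := hS i j
      exact ⟨k, Alg_mono hik, Alg_mono hjk⟩
  · intro γ hγ hγ' hPr
    have hβγ : β < γ := by
      rcases lt_trichotomy β γ with h1 | h1 | h1
      · exact h1
      · exact absurd (h1 ▸ hγ) hβ
      · exact absurd ⟨hγ, h1⟩ hγ'
    have e1 : R ∩ Iio β ∪ R ∩ Iio γ = R ∩ Iio γ :=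
      union_eq_right.2 (inter_subset_inter_right _ (Iio_subset_Iio hβγ.le))
    rw [e1] at hPr ⊢
    obtain ⟨hD, hF⟩ := hPr
    set N := Alg base v (R ∩ Iio γ) with hN
    have hNγ : N ≤ Alg base v (Iio γ) := Alg_mono inter_subset_right
    have hDγ : Datum Ω N (P γ) := (h.datum γ).mono hNγ (hR γ hγ)
    have hFγ : Free Ω N (P γ) (v γ) := (h.free γ).mono hNγ
    have hB : TrOn Ω (ext N (v γ)) := by rw [hN, ← Alg_insert]; exact h.trOn _
    have hNc : IsClosed (N : Set (H →L[ℂ] H)) := isClosed_Alg _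
    have hvβ : v β ∈ Alg base v (Iio γ) := gen_mem_Alg hβγ
    rw [Alg_insert]
    refine ⟨⟨hD.pt, fun ε n => le_ext _ _ (hD.mem ε n), fun ε =>
      exc_ext hB hNc hDγ (h.conj γ) hFγ (hD.pt ε) (hD.mem ε) (hD.exc ε), ?_, hD.tr_eq⟩, ?_⟩
    · refine van_ext hB hNc hDγ (h.conj γ) hFγ (hD.pt _) (hD.mem _) (hD.pt _) (hD.mem _)
        (fun ε => ?_) hD.perp
      by_contra hcon
      push Not at hcon
      obtain ⟨⟨a, ha, h1⟩, ⟨b, hb, h2⟩⟩ := hcon
      obtain ⟨m, hm⟩ := not_van_trans (hDγ.pt ε) (hD.pt true) (hDγ.pt (!ε))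
        (b := b * star (v β)) (fun l => by
          have := (h.conj β).exc_conj
            (hD.exc false _ (mul_mem (mul_mem (star_mem hb) (hDγ.mem (!ε) l)) hb))
          simpa only [star_mul, star_star, mul_assoc] using this) h1
        (fun h3 => h2 ((h.conj β).van_iff h3))
      have := (h.datum γ).perp' (!ε) (mul_mem (mul_mem (mul_mem (hNγ hb) (star_mem hvβ))
        (hNγ (hD.mem true m))) (hNγ ha))
      rw [Bool.not_not] at this
      exact hm this
    · exact free_assoc hB hNc hD hF hDγ (h.conj γ)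
        ((h.free γ).mono (ext_le (isClosed_Alg _) hNγ hvβ))

theorem exc_all (h : Sys Ω base v P) {S : Set ι} (hS : Closed base v P S)
    {e : ℕ → (H →L[ℂ] H)} (he : IsPt Ω e) (heS : ∀ n, e n ∈ Alg base v S)
    (hexc : ∀ a ∈ Alg base v S, Exc e a) : ∀ a ∈ Alg base v univ, Exc e a := by
  have := set_induction (fun R' => ∀ a ∈ Alg base v R', Exc e a) S univ hexc ?_ ?_
  · rwa [union_univ] at this
  · intro T S' hT hS' hPr a ha
    have := hT.to_subtype
    rw [← mem_excSub]
    refine closure_minimal ?_ (isClosed_excSub he) (mem_closure_of_directed S' hS' ha)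
    rintro x ⟨i, hx⟩
    exact mem_excSub.2 (hPr i x hx)
  · intro γ _ hγ hPr
    rw [univ_inter] at hPr ⊢
    have hR : Closed base v P (S ∪ Iio γ) := by
      rintro δ (hδ | hδ) ε n
      · exact Alg_mono (inter_subset_inter_left _ subset_union_left) (hS δ hδ ε n)
      · exact Alg_mono (subset_inter (fun x hx => Or.inr (lt_trans hx hδ)) subset_rfl)
          ((h.datum δ).mem ε n)
    obtain ⟨hD, hF⟩ := h.up hR (β := γ) (by simp [hγ]) (fun ε n =>
      Alg_mono (subset_inter subset_union_right subset_rfl) ((h.datum γ).mem ε n))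
    rw [Alg_insert]
    exact exc_ext (by rw [← Alg_insert]; exact h.trOn _) (isClosed_Alg _) hD (h.conj γ) hF he
      (fun n => Alg_mono subset_union_left (heS n)) hPr

end Sys

end Crest.Agent.R120
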