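import Crest.Agent.R120.Words

/-! Row 120: ping-pong projections of a free HNN extension. -/

set_option autoImplicit false
set_option linter.unusedSectionVars false
set_option linter.unusedSimpArgs false

open scoped InnerProductSpace
open Filter Topology

namespace Crest.Agent.R120

variable {H : Type*} [NormedAddCommGroup H] [InnerProductSpace ℂ H] [CompleteSpace H]

/-- Ping-pong projections. -/
structure PP (Ω : H) (N : StarSubalgebra ℂ (H →L[ℂ] H)) (P : Bool → ℕ → (H →L[ℂ] H))
    (v R : H →L[ℂ] H) (Q : Bool → (H →L[ℂ] H)) : Prop where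
  R_proj : IsStarProjection R
  Q_proj : ∀ ε, IsStarProjection (Q ε)
  R_comm : ∀ b ∈ ext N v, R * b = b * R
  Q_R : ∀ ε, Q ε * R = Q ε
  QaQ : ∀ ε ε', ∀ a ∈ N, (ε' = ε → Cen Ω (P ε) a) → Q ε * a * Q ε' = 0
  RQu : ∀ ε, (R - Q ε) * us v ε = us v ε * Q (!ε)
  norm_le : ∀ b ∈ ext N v, ‖b‖ ≤ ‖b * R‖

variable {Ω : H} {N : StarSubalgebra ℂ (H →L[ℂ] H)} {P : Bool → ℕ → (H →L[ℂ] H)}
  {v : H →L[ℂ] H}

lemma inner_closure_span {s s' : Set H} (T : H →L[ℂ] H)
    (h : ∀ x ∈ s, ∀ y ∈ s', ⟪x, T y⟫_ℂ = 0) :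
    ∀ x ∈ (Submodule.span ℂ s).topologicalClosure,
      ∀ y ∈ (Submodule.span ℂ s').topologicalClosure, ⟪x, T y⟫_ℂ = 0 := by
  have h1 : ∀ x ∈ s, ∀ y ∈ (Submodule.span ℂ s').topologicalClosure, ⟪x, T y⟫_ℂ = 0 := by
    intro x hx y hy
    let f : H →L[ℂ] ℂ := (innerSL ℂ x).comp T
    exact Submodule.topologicalClosure_minimal (t := f.ker) _
      (Submodule.span_le.2 fun y hy => h x hx y hy) f.isClosed_ker hy
  intro x hx y hy
  let f : H →L[ℂ] ℂ := innerSL ℂ (T y)
  have : x ∈ f.ker := Submodule.topologicalClosure_minimal (t := f.ker) _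
      (Submodule.span_le.2 fun x hx => inner_eq_zero_symm.1 (h1 x hx y hy)) f.isClosed_ker hx
  exact inner_eq_zero_symm.1 this

lemma starProjection_mul_mul_eq_zero {K K' : Submodule ℂ H} [K.HasOrthogonalProjection]
    [K'.HasOrthogonalProjection] (T : H →L[ℂ] H) (h : ∀ x ∈ K, ∀ y ∈ K', ⟪x, T y⟫_ℂ = 0) :
    K.starProjection * T * K'.starProjection = 0 := by
  ext ξ
  simp only [mul_apply_eq_comp, zero_apply]
  rw [Submodule.starProjection_apply_eq_zero_iff, Submodule.mem_orthogonal]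
  exact fun x hx => h x hx _ (K'.starProjection_apply_mem ξ)

lemma starProjection_comm {K : Submodule ℂ H} [K.HasOrthogonalProjection] (T : H →L[ℂ] H)
    (h : ∀ x ∈ K, T x ∈ K) (h' : ∀ x ∈ K, (star T) x ∈ K) :
    K.starProjection * T = T * K.starProjection := by
  have key : ∀ S : H →L[ℂ] H, (∀ x ∈ K, S x ∈ K) →
      K.starProjection * S * K.starProjection = S * K.starProjection := by
    intro S hS
    ext ξ
    simp only [mul_apply_eq_comp]
    exact Submodule.starProjection_eq_self_iff.2 (hS _ (K.starProjection_apply_mem ξ))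
  have h1 := key T h
  have h2 := congrArg star (key _ h')
  have hs : star K.starProjection = K.starProjection := (isSelfAdjoint_starProjection K).star_eq
  rw [star_mul, star_mul, star_mul, star_star, hs, ← mul_assoc] at h2
  rw [← h2, h1]

lemma tr_star_word_mul (hN : TrOn Ω N) (hD : Datum Ω N P) (hF : Free Ω N P v)
    {b b' : H →L[ℂ] H} (hb : b ∈ N) (hb' : b' ∈ N) {ε' : Bool} {W' : H →L[ℂ] H}
    (hW' : RW Ω N P v ε' W') : ∀ ε W, RW Ω N P v ε W → ∀ a ∈ N, (ε = ε' → Cen Ω (P ε) a) →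
      tr Ω (star (W' * b') * (a * W * b)) = 0 := by
  induction hW' with
  | base ε' =>
    intro ε W hW a ha hc
    have := hF _ _ (RW.step (!ε') ε a W ha (by simpa using hc) hW) _ (star_mem hb') b hb
    rw [← this, star_mul, star_us]; simp only [mul_assoc]
  | step ε' ε'' a₁ W'' ha₁ hc₁ _ ih =>
    intro ε W hW a ha hc
    have := ih _ _ (RW.step (!ε') ε a W ha (by simpa using hc) hW) _ (star_mem ha₁) (fun h => by
      subst h; exact (hc₁ rfl).star hN (hD.pt _) (hD.mem _) ha₁)
    rw [← this]; simp only [star_mul, star_us, mul_assoc]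

theorem exists_pp (hB : TrOn Ω (ext N v)) (hNc : IsClosed (N : Set (H →L[ℂ] H)))
    (hD : Datum Ω N P) (hC : Conj P v) (hF : Free Ω N P v) : ∃ R Q, PP Ω N P v R Q := by
  have hN : TrOn Ω N := hB.mono (le_ext N v) hNc
  have hvB : ∀ ε, us v ε ∈ ext N v := us_mem (self_mem_ext N v)
  let sB : Set H := {x | ∃ b ∈ ext N v, x = b Ω}
  let sK : Bool → Set H := fun ε => {x | ∃ W, RW Ω N P v ε W ∧ ∃ a ∈ N, x = (W * a) Ω}
  let HB : Submodule ℂ H := (Submodule.span ℂ sB).topologicalClosure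
  let K : Bool → Submodule ℂ H := fun ε => (Submodule.span ℂ (sK ε)).topologicalClosure
  have hsB : ∀ b ∈ ext N v, b Ω ∈ HB := fun b hb =>
    Submodule.le_topologicalClosure _ (Submodule.subset_span ⟨b, hb, rfl⟩)
  have hsK : ∀ ε W, RW Ω N P v ε W → ∀ a ∈ N, (W * a) Ω ∈ K ε := fun ε W hW a ha =>
    Submodule.le_topologicalClosure _ (Submodule.subset_span ⟨W, hW, a, ha, rfl⟩)
  have hKB : ∀ ε, K ε ≤ HB := fun ε =>
    Submodule.topologicalClosure_mono (Submodule.span_mono (by
      rintro _ ⟨W, hW, a, ha, rfl⟩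
      exact ⟨_, mul_mem (hW.mem (le_ext N v) (self_mem_ext N v)) (le_ext N v ha), rfl⟩))
  have hinv : ∀ b ∈ ext N v, ∀ x ∈ HB, b x ∈ HB := by
    intro b hb x hx
    refine Submodule.topologicalClosure_minimal (t := HB.comap (b : H →ₗ[ℂ] H)) _
      (Submodule.span_le.2 ?_) ((Submodule.isClosed_topologicalClosure _).preimage b.continuous) hx
    rintro _ ⟨c, hc, rfl⟩
    exact hsB _ (mul_mem hb hc)
  let R := HB.starProjection
  let Q : Bool → (H →L[ℂ] H) := fun ε => (K ε).starProjection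
  have hRcomm : ∀ b ∈ ext N v, R * b = b * R := fun b hb =>
    starProjection_comm b (hinv b hb) (hinv _ (star_mem hb))
  have hRQ : ∀ ε, R * Q ε = Q ε := by
    intro ε; ext ξ
    exact Submodule.starProjection_eq_self_iff.2 (hKB ε ((K ε).starProjection_apply_mem ξ))
  have hRp : IsStarProjection R := isStarProjection_starProjection
  have hQp : ∀ ε, IsStarProjection (Q ε) := fun ε => isStarProjection_starProjection
  have hQR : ∀ ε, Q ε * R = Q ε := by
    intro ε
    have := congrArg star (hRQ ε)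
    rwa [star_mul, hRp.isSelfAdjoint.star_eq, (hQp ε).isSelfAdjoint.star_eq] at this
  have hRB : ∀ b ∈ ext N v, R (b Ω) = b Ω := fun b hb =>
    Submodule.starProjection_eq_self_iff.2 (hsB b hb)
  have hQK : ∀ ε W, RW Ω N P v ε W → ∀ a ∈ N, (R - Q ε) ((W * a) Ω) = 0 := by
    intro ε W hW a ha
    rw [sub_apply, hRB _ (mul_mem (hW.mem (le_ext N v) (self_mem_ext N v)) (le_ext N v ha)),
      sub_eq_zero]
    exact (Submodule.starProjection_eq_self_iff.2 (hsK ε W hW a ha)).symm
  have hQ0 : ∀ ε (x : H), (∀ W, RW Ω N P v ε W → ∀ a ∈ N, ⟪(W * a) Ω, x⟫_ℂ = 0) → Q ε x = 0 := by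
    intro ε x hx
    rw [Submodule.starProjection_apply_eq_zero_iff, Submodule.mem_orthogonal]
    intro k hk
    have := inner_closure_span (s := sK ε) (s' := {x}) 1 (by
      rintro _ ⟨W, hW, a, ha, rfl⟩ _ rfl
      exact hx W hW a ha) k hk x
      (Submodule.le_topologicalClosure _ (Submodule.subset_span rfl))
    simpa using this
  have hi : ∀ ε, Q ε * us v ε * Q (!ε) = 0 := by
    intro ε
    apply starProjection_mul_mul_eq_zero
    apply inner_closure_span
    rintro _ ⟨W, hW, b, hb, rfl⟩ _ ⟨W', hW', b', hb', rfl⟩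
    rw [← mul_apply_eq_comp, ← tr_star_mul]
    cases hW with
    | base _ =>
      have := hF _ _ hW' _ (star_mem hb) _ hb'
      rw [← this, star_mul, star_us, mul_assoc, ← mul_assoc (us v (!ε)), hC.not_mul_us]
      simp only [mul_assoc, one_mul]
    | step _ ε₁ a₁ W₁ ha₁ hc₁ hW₁ =>
      have := tr_star_word_mul hN hD hF hb' hb hW₁ _ _ hW' _ (star_mem ha₁) (fun h => by
        subst h; exact (hc₁ rfl).star hN (hD.pt _) (hD.mem _) ha₁)
      rw [← this]
      simp only [star_mul, star_us, mul_assoc]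
      rw [← mul_assoc (us v (!ε)), hC.not_mul_us, one_mul]
  have hii : ∀ ε, (R - Q ε) * us v ε * (R - Q (!ε)) = 0 := by
    intro ε
    set T := (R - Q ε) * us v ε * (R - Q (!ε)) with hT
    let f : (H →L[ℂ] H) →L[ℂ] H := T.comp (ContinuousLinearMap.apply ℂ H Ω)
    have hf : ∀ b, f b = (R - Q ε) (us v ε ((R - Q (!ε)) (b Ω))) := fun b => rfl
    have hred : ∀ δ W, RW Ω N P v δ W → ∀ a ∈ N, (δ = !ε → Cen Ω (P δ) a) → ∀ a' ∈ N,
        f (a * W * a') = 0 := by
      intro δ W hW a ha hc a' ha'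
      have h1 : Q (!ε) ((a * W * a') Ω) = 0 := by
        apply hQ0
        intro W' hW' b hb
        rw [← tr_star_mul]
        exact tr_star_word_mul hN hD hF ha' hb hW' _ _ hW a ha hc
      rw [hf, sub_apply _ (Q (!ε)), h1, sub_zero, hRB _ (mul_mem (mul_mem (le_ext N v ha)
        (hW.mem (le_ext N v) (self_mem_ext N v))) (le_ext N v ha')), ← mul_apply_eq_comp (us v ε),
        ← mul_assoc, ← mul_assoc]
      exact hQK ε _ (RW.step ε δ a W ha hc hW) a' ha'
    have h1 : ∀ b ∈ ext N v, f b = 0 := by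
      refine ext_induction hN hD hC f.ker f.isClosed_ker (fun a ha => ?_)
        (fun δ W hW a ha a' ha' => ?_)
      · change f a = 0
        have h1 : Q (!ε) (a Ω) = 0 := by
          apply hQ0
          intro W' hW' b hb
          have := hF _ _ hW' _ (star_mem ha) _ hb
          rw [mul_assoc, tr_star_mul] at this
          exact inner_eq_zero_symm.1 this
        rw [hf, sub_apply _ (Q (!ε)), h1, sub_zero, hRB _ (le_ext N v ha),
          ← mul_apply_eq_comp (us v ε)]
        exact hQK ε _ (RW.base ε) a ha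
      · change f _ = 0
        by_cases he : δ = !ε
        · subst he
          obtain ⟨d, hd, hc⟩ := hD.decomp hN (!ε) ha
          obtain ⟨W', hW', a'', ha'', e⟩ := hW.Dsp_mul hN hD hC hd
          have e1 : a * W * a' = (a - d) * W * a' + W' * (a'' * a') := by
            rw [← mul_assoc, ← e]; noncomm_ring
          rw [e1, map_add, hred _ W hW _ (sub_mem ha (hD.Dsp_mem hN hd)) (fun _ => hc) a' ha',
            hf, hQK _ W' hW' _ (mul_mem ha'' ha')]
          simp
        · exact hred δ W hW a ha (fun h => absurd h he) a' ha'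
    have h2 : ∀ x ∈ HB, T x = 0 := by
      intro x hx
      refine Submodule.topologicalClosure_minimal (t := T.ker) _
        (Submodule.span_le.2 ?_) T.isClosed_ker hx
      rintro _ ⟨c, hc, rfl⟩
      exact h1 c hc
    have h3 : T = T * R := by
      rw [hT, mul_assoc _ (R - Q (!ε)) R, sub_mul R (Q (!ε)) R, hRp.isIdempotentElem.eq, hQR]
    rw [h3]
    ext ξ
    exact h2 _ (HB.starProjection_apply_mem ξ)
  refine ⟨R, Q, hRp, hQp, hRcomm, hQR, ?_, ?_, ?_⟩
  · intro ε ε' a ha hc
    apply starProjection_mul_mul_eq_zero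
    apply inner_closure_span
    rintro _ ⟨W, hW, b, hb, rfl⟩ _ ⟨W', hW', b', hb', rfl⟩
    rw [← mul_apply_eq_comp, ← tr_star_mul, ← mul_assoc]
    exact tr_star_word_mul hN hD hF hb' hb hW _ _ hW' a ha (fun h => by subst h; exact hc rfl)
  · intro ε
    have h1 : (R - Q ε) * us v ε = (R - Q ε) * us v ε * R := by
      rw [mul_assoc, ← hRcomm _ (hvB ε), ← mul_assoc, sub_mul R (Q ε) R,
        hRp.isIdempotentElem.eq, hQR]
    have h2 := hii ε
    rw [mul_sub, ← h1, sub_eq_zero] at h2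
    rw [h2, sub_mul, sub_mul, hi, sub_zero, hRcomm _ (hvB ε), mul_assoc, hRQ]
  · intro b hb
    refine hB.norm_le_of_forall hb (norm_nonneg _) fun y hy => ?_
    conv_lhs => rw [← hRB y hy, ← mul_apply_eq_comp]
    exact ContinuousLinearMap.le_opNorm _ _

end Crest.Agent.R120
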