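import Mathlib
import Crest.Prelude.Def_CStarRep
import Crest.Agent.R120.Excision

/-! Row 120: small projections that almost fix a vector and almost excise its state. -/

set_option autoImplicit false

open scoped InnerProductSpace ComplexOrder

namespace Crest.Agent.R120

/-- The properties of the tracial algebra that are used to build projections. -/
structure RichTrace {A : Type*} [CStarAlgebra A] (τ : A →L[ℂ] ℂ) : Prop where
  one : τ 1 = 1
  pos : ∀ a : A, 0 ≤ τ (star a * a)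
  comm : ∀ a b : A, τ (a * b) = τ (b * a)
  faithful : ∀ a : A, τ (star a * a) = 0 → a = 0
  /-- partitions of unity into projections of trace `2⁻ᵐ` -/
  part : ∀ m : ℕ, ∃ r : (Fin m → Bool) → A,
    (∀ s, IsStarProjection (r s) ∧ τ (r s) = (1 / 2) ^ m) ∧ ∑ s, r s = 1
  /-- unitaries that are free from a given finite set, in the form of a norm estimate -/
  free : ∀ F : Finset A, ∃ z ∈ unitary A, ∀ x ∈ F, ∀ w ∈ F, IsSelfAdjoint x → τ w = 0 →
    ‖x * (z * w * star z) * x‖ ≤ 2 * ‖w‖ * ‖x‖ * √((τ (star x * x)).re) ∧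
    ‖x * (star z * w * z) * x‖ ≤ 2 * ‖w‖ * ‖x‖ * √((τ (star x * x)).re)

section Aux

variable {A : Type*} [CStarAlgebra A] {τ : A →L[ℂ] ℂ}

/-- The square of the trace norm. -/
noncomputable def stepN (τ : A →L[ℂ] ℂ) (x : A) : ℝ := (τ (star x * x)).re

theorem RichTrace.stepN_nonneg (hτ : RichTrace τ) (x : A) : 0 ≤ stepN τ x :=
  (Complex.le_def.1 (hτ.pos x)).1

theorem RichTrace.stepN_eq (hτ : RichTrace τ) (x : A) : τ (star x * x) = (stepN τ x : ℂ) := by
  apply Complex.ext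
  · simp [stepN]
  · simpa using (Complex.le_def.1 (hτ.pos x)).2.symm

theorem RichTrace.stepN_pos (hτ : RichTrace τ) {x : A} (hx : x ≠ 0) : 0 < stepN τ x := by
  rcases (hτ.stepN_nonneg x).lt_or_eq with h | h
  · exact h
  · exact absurd (hτ.faithful x (by rw [hτ.stepN_eq, ← h]; simp)) hx

theorem RichTrace.stepN_star (hτ : RichTrace τ) (x : A) : stepN τ (star x) = stepN τ x := by
  simp only [stepN, star_star]; rw [hτ.comm]

theorem RichTrace.step_re_mono (hτ : RichTrace τ) [PartialOrder A] [StarOrderedRing A]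
    {a b : A} (h : a ≤ b) : (τ a).re ≤ (τ b).re := by
  have h0 : 0 ≤ b - a := sub_nonneg.2 h
  have h1 : star (CFC.sqrt (b - a)) * CFC.sqrt (b - a) = b - a := by
    rw [(CFC.sqrt_nonneg (b - a)).isSelfAdjoint.star_eq, CFC.sqrt_mul_sqrt_self _ h0]
  have h2 := hτ.stepN_nonneg (CFC.sqrt (b - a))
  rw [stepN, h1, map_sub, Complex.sub_re] at h2
  linarith

theorem RichTrace.stepN_mul_left (hτ : RichTrace τ) (y x : A) :
    stepN τ (y * x) ≤ ‖y‖ ^ 2 * stepN τ x := by
  let _ := CStarAlgebra.spectralOrder A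
  have := CStarAlgebra.spectralOrderedRing A
  have h1 : star x * (star y * y) * x ≤ ‖star y * y‖ • (star x * x) :=
    CStarAlgebra.star_left_conjugate_le_norm_smul
  have h2 := hτ.step_re_mono h1
  rw [CStarRing.norm_star_mul_self, ← sq] at h2
  have h3 : τ ((‖y‖ ^ 2) • (star x * x)) = ((‖y‖ ^ 2 : ℝ) : ℂ) * τ (star x * x) := by
    rw [← Complex.coe_smul, map_smul, smul_eq_mul]
  rw [h3, Complex.re_ofReal_mul] at h2
  simpa only [stepN, star_mul, mul_assoc] using h2

theorem RichTrace.stepN_mul_right (hτ : RichTrace τ) (x y : A) :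
    stepN τ (x * y) ≤ ‖y‖ ^ 2 * stepN τ x := by
  rw [← hτ.stepN_star, star_mul, ← hτ.stepN_star x, ← norm_star y]
  exact hτ.stepN_mul_left _ _

theorem RichTrace.stepN_proj {r : A} (hr : IsStarProjection r) {m : ℕ}
    (h : τ r = (1 / 2) ^ m) : stepN τ r = (1 / 2) ^ m := by
  rw [stepN, hr.isSelfAdjoint.star_eq, hr.isIdempotentElem.eq, h]
  have : ((1 / 2 : ℂ)) ^ m = (((1 / 2 : ℝ) ^ m : ℝ) : ℂ) := by push_cast; ring
  rw [this, Complex.ofReal_re]

theorem step_exists_pow_lt {κ : ℝ} (hκ : 0 < κ) : ∃ m₀ : ℕ, ∀ m ≥ m₀, √((1 / 2 : ℝ) ^ m) < κ := by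
  obtain ⟨m₀, hm₀⟩ := exists_pow_lt_of_lt_one (sq_pos_of_pos hκ) (show (1 / 2 : ℝ) < 1 by norm_num)
  refine ⟨m₀, fun m hm => ?_⟩
  rw [Real.sqrt_lt' hκ]
  exact (pow_le_pow_of_le_one (by norm_num) (by norm_num) hm).trans_lt hm₀

theorem step_isUnit_of_norm_lt {γ : ℝ} (hγ : 0 < γ) {u : A} (hu : ‖u‖ < γ) :
    IsUnit ((γ : ℂ) • (1 : A) + u) := by
  have h1 : ‖-((γ : ℂ)⁻¹ • u)‖ < 1 := by
    rw [norm_neg, norm_smul, norm_inv, Complex.norm_real, Real.norm_of_nonneg hγ.le,
      inv_mul_lt_iff₀ hγ]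
    simpa using hu
  have h2 : IsUnit ((1 : A) - -((γ : ℂ)⁻¹ • u)) := isUnit_one_sub_of_norm_lt_one h1
  have hγ' : (γ : ℂ) ≠ 0 := by exact_mod_cast hγ.ne'
  have h3 : (γ : ℂ) • (1 : A) + u = ((γ : ℂ) • (1 : A)) * ((1 : A) - -((γ : ℂ)⁻¹ • u)) := by
    rw [smul_mul_assoc, one_mul, sub_neg_eq_add, smul_add, smul_smul, mul_inv_cancel₀ hγ', one_smul]
  rw [h3]
  refine IsUnit.mul ?_ h2
  rw [← Algebra.algebraMap_eq_smul_one]
  exact (IsUnit.mk0 _ hγ').map _

end Aux

/-- An algebra with a rich trace is simple. -/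
theorem RichTrace.simple {A : Type*} [CStarAlgebra A] {τ : A →L[ℂ] ℂ} (hτ : RichTrace τ)
    (I : TwoSidedIdeal A) : I = ⊥ ∨ I = ⊤ := by
  classical
  by_cases hI : I = ⊥
  · exact Or.inl hI
  right
  obtain ⟨a, haI, ha⟩ : ∃ a ∈ I, a ≠ 0 := by
    by_contra h
    push Not at h
    exact hI (eq_bot_iff.2 fun x hx => by simpa using h x hx)
  set c := star a * a with hc
  have hcI : c ∈ I := I.mul_mem_left _ _ haI
  set γ := stepN τ a with hγ
  have hγ0 : 0 < γ := hτ.stepN_pos ha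
  set w := c - (γ : ℂ) • (1 : A) with hw
  have hτw : τ w = 0 := by
    rw [hw, map_sub, map_smul, hτ.one, hc, hτ.stepN_eq]; simp [hγ]
  obtain ⟨m, hm⟩ := step_exists_pow_lt (κ := γ / (2 * ‖w‖ + 1)) (by positivity)
  obtain ⟨r, hr, hsum⟩ := hτ.part m
  have key : ∀ s, r s ∈ I := by
    intro s
    obtain ⟨z, hz, hfree⟩ := hτ.free {r s, w}
    have h1 := (hfree (r s) (by simp) w (by simp) (hr s).1.isSelfAdjoint hτw).2
    have h2 : √((τ (star (r s) * r s)).re) < γ / (2 * ‖w‖ + 1) := by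
      have := RichTrace.stepN_proj (hr s).1 (hr s).2
      rw [stepN] at this
      rw [this]; exact hm m le_rfl
    have h3 : ‖r s * (star z * w * z) * r s‖ < γ := by
      refine h1.trans_lt ?_
      have hn := (hr s).1.norm_le
      rw [lt_div_iff₀ (by positivity)] at h2
      have h4 := Real.sqrt_nonneg ((τ (star (r s) * r s)).re)
      have h5 := norm_nonneg w
      have h6 := norm_nonneg (r s)
      nlinarith [mul_nonneg h5 h4, mul_nonneg (mul_nonneg h5 h4) (sub_nonneg.2 hn)]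
    obtain ⟨U, hU⟩ := step_isUnit_of_norm_lt hγ0 h3
    have hzz : star z * z = 1 := Unitary.star_mul_self_of_mem hz
    have hrr : r s * r s = r s := (hr s).1.isIdempotentElem.eq
    have h4 : r s * (U : A) = r s * star z * c * (z * r s) := by
      rw [hU, hw]
      simp only [mul_add, mul_sub, sub_mul, mul_smul_comm, smul_mul_assoc, mul_one, hzz,
        ← mul_assoc, hrr]
      abel
    have h5 : r s * (U : A) ∈ I := by
      rw [h4]; exact I.mul_mem_right _ _ (I.mul_mem_left _ _ hcI)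
    have h6 := I.mul_mem_right _ (↑U⁻¹ : A) h5
    simpa using h6
  rw [← TwoSidedIdeal.one_mem_iff, ← hsum]
  exact sum_mem fun s _ => key s

/-- An algebra with a rich trace is infinite dimensional. -/
theorem RichTrace.not_finiteDimensional {A : Type*} [CStarAlgebra A] {τ : A →L[ℂ] ℂ}
    (hτ : RichTrace τ) : ¬ FiniteDimensional ℂ A := by
  intro hfin
  have : ProperSpace A := FiniteDimensional.proper ℂ A
  have hcont : Continuous (stepN τ) := by
    unfold stepN; fun_prop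
  have hproj : ∀ m : ℕ, ∃ r : A, r ∈ Metric.sphere (0 : A) 1 ∧ stepN τ r = (1 / 2) ^ m := by
    intro m
    obtain ⟨r, hr, -⟩ := hτ.part m
    obtain ⟨h1, h2⟩ := hr fun _ => true
    refine ⟨_, ?_, RichTrace.stepN_proj h1 h2⟩
    have h3 : r (fun _ => true) ≠ 0 := by
      intro h; rw [h, map_zero] at h2
      exact (pow_ne_zero m (by norm_num)) h2.symm
    have h4 : ‖star (r fun _ => true) * r (fun _ => true)‖ = _ := CStarRing.norm_star_mul_self
    rw [h1.isSelfAdjoint.star_eq, h1.isIdempotentElem.eq] at h4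
    have h5 : ‖r fun _ => true‖ ≠ 0 := norm_ne_zero_iff.2 h3
    simp only [mem_sphere_iff_norm, sub_zero]
    exact (mul_left_cancel₀ h5 (by rw [← h4, mul_one])).symm
  obtain ⟨r₀, hr₀, -⟩ := hproj 0
  obtain ⟨x, hx, hmin⟩ := (isCompact_sphere (0 : A) 1).exists_isMinOn ⟨r₀, hr₀⟩ hcont.continuousOn
  have hx0 : x ≠ 0 := by
    intro h; simp [h] at hx
  obtain ⟨m, hm⟩ := exists_pow_lt_of_lt_one (hτ.stepN_pos hx0) (show (1 / 2 : ℝ) < 1 by norm_num)
  obtain ⟨r, hr, hr2⟩ := hproj m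
  have := hmin hr
  simp only [Set.mem_ofPred_eq] at this
  linarith

section Aux2

variable {A : Type*} [CStarAlgebra A] {τ : A →L[ℂ] ℂ}

theorem step_cut (h : A) (hh : IsSelfAdjoint h) (hn : ‖h‖ ≤ 1) :
    ∃ k d n : A, IsSelfAdjoint k ∧ IsSelfAdjoint d ∧ ‖k‖ ≤ 2 ∧ ‖d‖ ≤ 1 ∧ ‖n‖ ≤ 2 ∧
      h * k * d = d ∧ 1 - d = n * (1 - h) := by
  rcases subsingleton_or_nontrivial A with hA | hA
  · exact ⟨0, 0, 0, IsSelfAdjoint.zero _, IsSelfAdjoint.zero _, by simp, by simp, by simp,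
      Subsingleton.elim _ _, Subsingleton.elim _ _⟩
  have c1 : Continuous fun t : ℝ => (max t (1 / 2))⁻¹ :=
    Continuous.inv₀ (by fun_prop) fun t => (lt_max_of_lt_right (by norm_num)).ne'
  have c2 : Continuous fun t : ℝ => max (2 * t - 1) 0 := by fun_prop
  have c3 : Continuous fun t : ℝ => (max (1 - t) (1 / 2))⁻¹ :=
    Continuous.inv₀ (by fun_prop) fun t => (lt_max_of_lt_right (by norm_num)).ne'
  have hinv : ∀ t : ℝ, ‖(max t (1 / 2))⁻¹‖ ≤ 2 := by
    intro t
    have h1 : (1 / 2 : ℝ) ≤ max t (1 / 2) := le_max_right _ _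
    rw [norm_inv, Real.norm_of_nonneg (by linarith), inv_le_comm₀ (by linarith) (by norm_num)]
    linarith
  refine ⟨cfc (fun t : ℝ => (max t (1 / 2))⁻¹) h, cfc (fun t : ℝ => max (2 * t - 1) 0) h,
    cfc (fun t : ℝ => (max (1 - t) (1 / 2))⁻¹) h, cfc_predicate _ _, cfc_predicate _ _,
    norm_cfc_le (by norm_num) fun t _ => hinv t, norm_cfc_le (by norm_num) fun t ht => ?_,
    norm_cfc_le (by norm_num) fun t _ => hinv _, ?_, ?_⟩
  · have h1 : ‖t‖ ≤ 1 := (spectrum.norm_le_norm_of_mem ht).trans hn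
    rw [Real.norm_eq_abs, abs_le] at h1
    rw [Real.norm_of_nonneg (le_max_right _ _)]
    exact max_le (by linarith) (by norm_num)
  · conv_lhs => enter [1, 1]; rw [← cfc_id' ℝ h]
    rw [← cfc_mul _ _ h (continuousOn_id' _) c1.continuousOn,
      ← cfc_mul _ _ h (continuous_id'.fun_mul c1).continuousOn c2.continuousOn]
    refine cfc_congr fun t _ => ?_
    rcases le_total t (1 / 2) with ht | ht
    · simp only [max_eq_right (show 2 * t - 1 ≤ 0 by linarith), mul_zero]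
    · rw [max_eq_left ht, mul_inv_cancel₀ (by linarith), one_mul]
  · have e1 : (1 : A) - h = cfc (fun t : ℝ => 1 - t) h := by
      rw [cfc_sub _ _ h, cfc_const_one ℝ h, cfc_id' ℝ h]
    have e2 : (1 : A) - cfc (fun t : ℝ => max (2 * t - 1) 0) h
        = cfc (fun t : ℝ => 1 - max (2 * t - 1) 0) h := by
      rw [cfc_sub _ _ h, cfc_const_one ℝ h]
    rw [e1, e2, ← cfc_mul _ _ h c3.continuousOn (by fun_prop)]
    refine cfc_congr fun t _ => ?_
    rcases le_total t (1 / 2) with ht | ht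
    · simp only [max_eq_right (show 2 * t - 1 ≤ 0 by linarith)]
      rw [max_eq_left (by linarith), inv_mul_cancel₀ (by linarith), sub_zero]
    · simp only [max_eq_left (show 0 ≤ 2 * t - 1 by linarith)]
      rw [max_eq_right (by linarith)]; ring

theorem RichTrace.step_proj (hτ : RichTrace τ) (R d u : A) (hR : IsStarProjection R)
    {γ lam : ℝ} (hγ : 0 < γ) (hlam : 0 ≤ lam)
    (hn : ‖R * (star d * d - (γ : ℂ) • (1 : A)) * R‖ < γ) :
    ∃ p W : A, IsStarProjection p ∧ τ p = τ R ∧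
      p * ((star d * d + (lam : ℂ) • (star u * u)) * R)
        = (star d * d + (lam : ℂ) • (star u * u)) * R ∧
      p = (star d * d + (lam : ℂ) • (star u * u)) * W := by
  let _ := CStarAlgebra.spectralOrder A
  have := CStarAlgebra.spectralOrderedRing A
  set g := star d * d + (lam : ℂ) • (star u * u) with hg
  have hRR : R * R = R := hR.isIdempotentElem.eq
  have hRs : star R = R := hR.isSelfAdjoint.star_eq
  have hgs : star g = g := by
    rw [hg]; simp [star_smul]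
  have hQ : IsStarProjection (1 - R) := hR.one_sub
  have hQQ : (1 - R) * (1 - R) = 1 - R := hQ.isIdempotentElem.eq
  have hRQ : R * (1 - R) = 0 := hR.mul_one_sub_self
  have hQR : (1 - R) * R = 0 := hR.one_sub_mul_self
  have hQ0 : (0 : A) ≤ (γ : ℂ) • (1 - R) := by
    rw [Complex.coe_smul]; exact smul_nonneg hγ.le hQ.nonneg
  -- the element `S₀`
  have hS₀ : IsStrictlyPositive (R * (star d * d) * R + (γ : ℂ) • (1 - R)) := by
    refine ⟨add_nonneg ?_ hQ0, ?_⟩
    · have := star_mul_self_nonneg (d * R)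
      simpa only [star_mul, hRs, mul_assoc] using this
    · have h1 := step_isUnit_of_norm_lt hγ hn
      convert h1 using 1
      simp only [mul_sub, sub_mul, mul_smul_comm, smul_mul_assoc, mul_one, hRR, smul_sub]
      abel
  set S := R * g * R + (γ : ℂ) • (1 - R) with hS
  have hSu : IsUnit S := by
    refine CStarAlgebra.isUnit_of_le _ ?_ hS₀
    have h1 : (0 : A) ≤ (lam : ℂ) • (R * (star u * u) * R) := by
      rw [Complex.coe_smul]
      refine smul_nonneg hlam ?_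
      have := star_mul_self_nonneg (u * R)
      simpa only [star_mul, hRs, mul_assoc] using this
    have h2 : S = R * (star d * d) * R + (γ : ℂ) • (1 - R) + (lam : ℂ) • (R * (star u * u) * R) := by
      rw [hS, hg]
      simp only [mul_add, add_mul, mul_smul_comm, smul_mul_assoc]
      abel
    rw [h2]
    exact le_add_of_nonneg_right h1
  have hSs : star S = S := by
    rw [hS]; simp [star_smul, hRs, hgs, mul_assoc]
  set T := R * g * g * R + ((γ : ℂ) * γ) • (1 - R) with hT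
  have hTu : IsUnit T := by
    refine CStarAlgebra.isUnit_of_le (star S * S) ?_ ⟨star_mul_self_nonneg S, hSu.star.mul hSu⟩
    have h1 : (0 : A) ≤ star ((1 - R) * g * R) * ((1 - R) * g * R) := star_mul_self_nonneg _
    have h2 : T = star S * S + star ((1 - R) * g * R) * ((1 - R) * g * R) := by
      have e1 : ∀ x : A, R * (R * x) = R * x := fun x => by rw [← mul_assoc, hRR]
      rw [hSs, hT, hS]
      simp only [star_mul, star_sub, hRs, hgs, mul_add, add_mul, mul_smul_comm,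
        smul_mul_assoc, mul_sub, sub_mul, mul_one, one_mul, mul_assoc, e1, hRR, smul_sub, smul_add,
        smul_smul]
      abel
    rw [h2]
    exact le_add_of_nonneg_right h1
  have hTs : star T = T := by
    rw [hT]; simp [star_smul, hRs, hgs, mul_assoc]
  obtain ⟨Tu, hTu⟩ := hTu
  set Ti : A := ↑Tu⁻¹ with hTi
  have hTiT : Ti * T = 1 := by rw [← hTu]; exact Tu.inv_mul
  have hTTi : T * Ti = 1 := by rw [← hTu]; exact Tu.mul_inv
  have hTis : star Ti = Ti := by
    have h1 : star Ti * T = 1 := by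
      have := congrArg star hTTi
      rwa [star_mul, hTs, star_one] at this
    calc star Ti = star Ti * (T * Ti) := by rw [hTTi, mul_one]
      _ = Ti := by rw [← mul_assoc, h1, one_mul]
  have hTR : T * R = R * g * g * R := by
    rw [hT, add_mul, smul_mul_assoc, hQR, smul_zero, add_zero, mul_assoc _ R R, hRR]
  have hkey : Ti * (R * g * g * R) = R := by rw [← hTR, ← mul_assoc, hTiT, one_mul]
  have hpV : g * R * Ti * (R * g) * (g * R) = g * R := by
    calc g * R * Ti * (R * g) * (g * R) = g * R * (Ti * (R * g * g * R)) := by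
          simp only [mul_assoc]
      _ = g * R := by rw [hkey, mul_assoc, hRR]
  refine ⟨g * R * Ti * (R * g), R * Ti * (R * g), ⟨?_, ?_⟩, ?_, hpV, by simp only [mul_assoc]⟩
  · show g * R * Ti * (R * g) * (g * R * Ti * (R * g)) = g * R * Ti * (R * g)
    calc g * R * Ti * (R * g) * (g * R * Ti * (R * g))
        = (g * R * Ti * (R * g) * (g * R)) * (Ti * (R * g)) := by simp only [mul_assoc]
      _ = g * R * Ti * (R * g) := by rw [hpV]; simp only [mul_assoc]
  · show star (g * R * Ti * (R * g)) = g * R * Ti * (R * g)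
    simp only [star_mul, hRs, hgs, hTis, mul_assoc]
  · rw [mul_assoc (g * R), hτ.comm]
    congr 1
    calc Ti * (R * g) * (g * R) = Ti * (R * g * g * R) := by simp only [mul_assoc]
      _ = R := hkey

variable {K : Type*} [NormedAddCommGroup K] [InnerProductSpace ℂ K] [CompleteSpace K]

theorem step_err_mul (π : A →⋆ₙₐ[ℂ] (K →L[ℂ] K)) (ξ : K) (x y : A) :
    ‖π (x * y) ξ - ξ‖ ≤ ‖x‖ * ‖π y ξ - ξ‖ + ‖π x ξ - ξ‖ := by
  have h1 : π (x * y) ξ - ξ = π x (π y ξ - ξ) + (π x ξ - ξ) := by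
    rw [map_mul, mul_apply_eq_comp, map_sub]; abel
  rw [h1]
  refine (norm_add_le _ _).trans ?_
  gcongr
  refine ((π x).le_opNorm _).trans ?_
  gcongr
  exact NonUnitalStarAlgHom.norm_apply_le π x

theorem step_err_sub (π : A →⋆ₙₐ[ℂ] (K →L[ℂ] K)) (ξ : K) (hξ : ‖ξ‖ = 1) (x y : A) :
    ‖π x ξ - ξ‖ ≤ ‖x - y‖ + ‖π y ξ - ξ‖ := by
  have h1 : π x ξ - ξ = π (x - y) ξ + (π y ξ - ξ) := by
    rw [map_sub, sub_apply]; abel
  rw [h1]
  refine (norm_add_le _ _).trans ?_
  gcongr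
  refine ((π (x - y)).le_opNorm _).trans ?_
  rw [hξ, mul_one]
  exact NonUnitalStarAlgHom.norm_apply_le π _

theorem step_norm_le_one {h : A} (hh : IsSelfAdjoint h) (hs : spectrum ℝ h ⊆ Set.Icc 0 1) :
    ‖h‖ ≤ 1 := by
  rw [← cfc_id' ℝ h]
  refine norm_cfc_le (by norm_num) fun t ht => ?_
  obtain ⟨h1, h2⟩ := hs ht
  rwa [Real.norm_of_nonneg h1]

theorem RichTrace.step_small (hτ : RichTrace τ)
    (π : A →⋆ₙₐ[ℂ] (K →L[ℂ] K)) (hπ : Crest.OpAlg.IsIrreducibleRep π)
    (ξ : K) (hξ : ‖ξ‖ = 1) {μ : ℝ} (hμ : 0 < μ) (hμ1 : μ ≤ 1) (m : ℕ) :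
    ∃ w : A, ‖w‖ ^ 2 ≤ 2 ∧ stepN τ w ≤ 2 * (1 / 2) ^ m ∧ ‖π (star w * w) ξ - ξ‖ ≤ 3 * μ := by
  classical
  have hξ0 : ξ ≠ 0 := by intro h; simp [h] at hξ
  obtain ⟨r, hr, hsum⟩ := hτ.part m
  obtain ⟨s, hs⟩ : ∃ s, π (r s) ξ ≠ 0 := by
    by_contra h
    push Not at h
    have h1 : π (∑ s, r s) ξ = 0 := by
      rw [map_sum, sum_apply]; simp [h]
    rw [hsum, irred_map_one π hπ] at h1
    exact hξ0 h1
  obtain ⟨hp, hτr⟩ := hr s
  have hrr : r s * r s = r s := hp.isIdempotentElem.eq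
  have hrs : star (r s) = r s := hp.isSelfAdjoint.star_eq
  set β : ℝ := ‖π (r s) ξ‖ with hβ
  have hβ0 : 0 < β := norm_pos_iff.2 hs
  have hβ' : (β : ℂ) ≠ 0 := by exact_mod_cast hβ0.ne'
  set y : A := (β : ℂ)⁻¹ • r s with hy
  have hry : r s * y = y := by rw [hy, mul_smul_comm, hrr]
  have hφ : ⟪ξ, π (star y * y - 1) ξ⟫_ℂ = 0 := by
    rw [map_sub, irred_map_one π hπ, map_mul, map_star, sub_apply,
      inner_sub_right, mul_apply_eq_comp, ContinuousLinearMap.star_eq_adjoint,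
      ContinuousLinearMap.adjoint_inner_right, one_apply_eq_self,
      inner_self_eq_norm_sq_to_K, inner_self_eq_norm_sq_to_K, hξ, hy, map_smul,
      smul_apply, norm_smul, norm_inv, Complex.norm_real,
      Real.norm_of_nonneg hβ0.le, ← hβ, inv_mul_cancel₀ hβ0.ne', sub_self]
  obtain ⟨h, hh, hsp, hhξ, hex⟩ := irred_excision π hπ ξ hξ0 {star y * y - 1}
    (by simpa using hφ) μ hμ
  have hex' := hex _ (Finset.mem_singleton_self _)
  have hn := step_norm_le_one hh hsp
  have hww : star (y * h) * (y * h) - h * h = h * (star y * y - 1) * h := by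
    rw [star_mul, hh.star_eq]
    simp only [mul_sub, sub_mul, mul_one, mul_assoc]
  have hw2 : ‖y * h‖ ^ 2 ≤ 2 := by
    rw [sq, ← CStarRing.norm_star_mul_self]
    have h1 : star (y * h) * (y * h) = h * (star y * y - 1) * h + h * h := by
      rw [← hww]; abel
    rw [h1]
    have h2 : ‖h * h‖ ≤ 1 := (norm_mul_le _ _).trans (by nlinarith [norm_nonneg h])
    refine (norm_add_le _ _).trans ?_
    linarith
  refine ⟨y * h, hw2, ?_, ?_⟩
  · have h1 : y * h = r s * (y * h) := by rw [← mul_assoc, hry]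
    have h2 := hτ.stepN_mul_right (r s) (y * h)
    rw [← h1, RichTrace.stepN_proj hp hτr] at h2
    refine h2.trans ?_
    gcongr
  · refine (step_err_sub π ξ hξ _ (h * h)).trans ?_
    rw [hww]
    have h1 := step_err_mul π ξ h h
    have h2 : ‖h‖ * ‖π h ξ - ξ‖ ≤ μ := by
      nlinarith [norm_nonneg h, norm_nonneg (π h ξ - ξ)]
    linarith

theorem RichTrace.step_unit (hτ : RichTrace τ)
    (π : A →⋆ₙₐ[ℂ] (K →L[ℂ] K)) (hπ : Crest.OpAlg.IsIrreducibleRep π)
    (ξ : K) (hξ : ‖ξ‖ = 1) (e : A) (he : IsStarProjection e) (heξ : π e ξ = ξ)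
    (F : Finset A) (δ : ℝ) (hδ : 0 < δ) (hδ1 : δ ≤ 1 / 4) :
    ∃ m₀ : ℕ, ∀ m ≥ m₀, ∃ p : A, IsStarProjection p ∧ e * p = p ∧ τ p = (1 / 2) ^ m ∧
      ‖π p ξ - ξ‖ ≤ 29 * δ ∧ ∀ x ∈ F, ∃ c : ℂ, ‖p * (x - c • 1) * p‖ ≤ 4 * δ := by
  classical
  have hξ0 : ξ ≠ 0 := by intro h; simp [h] at hξ
  have hπ1 := irred_map_one π hπ
  have hes : star e = e := he.isSelfAdjoint.star_eq
  have hee : e * e = e := he.isIdempotentElem.eq
  have hen : ‖e‖ ≤ 1 := he.norm_le
  set φ : A → ℂ := fun x => ⟪ξ, π x ξ⟫_ℂ with hφ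
  have hy : ∀ x : A, ⟪ξ, π (e * (x - φ x • 1) * e) ξ⟫_ℂ = 0 := by
    intro x
    have h1 : π e = ContinuousLinearMap.adjoint (π e) := by
      rw [← ContinuousLinearMap.star_eq_adjoint, ← map_star, hes]
    rw [map_mul, map_mul, mul_apply_eq_comp, mul_apply_eq_comp, heξ, h1,
      ContinuousLinearMap.adjoint_inner_right, heξ, map_sub, map_smul, hπ1, sub_apply,
      inner_sub_right, smul_apply, one_apply_eq_self, inner_smul_right,
      inner_self_eq_norm_sq_to_K, hξ]
    simp [hφ]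
  obtain ⟨h, hh, hsp, hhξ, hex⟩ := irred_excision π hπ ξ hξ0
    (F.image fun x => e * (x - φ x • 1) * e) (by
      intro y hy'
      obtain ⟨x, -, rfl⟩ := Finset.mem_image.1 hy'
      exact hy x) δ hδ
  have hn := step_norm_le_one hh hsp
  set h' := e * h * e with hh'
  have hh's : IsSelfAdjoint h' := by
    show star (e * h * e) = e * h * e
    simp only [star_mul, hes, hh.star_eq, mul_assoc]
  have hehn : ‖e * h‖ ≤ 1 :=
    (norm_mul_le_of_le hen hn).trans (by norm_num)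
  have hh'n : ‖h'‖ ≤ 1 :=
    (norm_mul_le_of_le hehn hen).trans (by norm_num)
  have hEh' : ‖π h' ξ - ξ‖ ≤ δ := by
    have h1 := step_err_mul π ξ (e * h) e
    have h2 := step_err_mul π ξ e h
    rw [heξ, sub_self, norm_zero] at h1 h2
    nlinarith [norm_nonneg e, norm_nonneg (π h ξ - ξ)]
  obtain ⟨k, d, n, hk, hd, hkn, hdn, hnn, hbd, hdn'⟩ := step_cut h' hh's hh'n
  have hEd : ‖π d ξ - ξ‖ ≤ 2 * δ := by
    have h1 : π d ξ - ξ = π n (π h' ξ - ξ) := by
      have h2 := congrArg (fun x => π x ξ) hdn'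
      simp only [map_sub, map_mul, hπ1, sub_apply, mul_apply_eq_comp, one_apply_eq_self] at h2
      rw [map_sub, ← neg_sub ξ, h2, neg_sub]
    rw [h1]
    refine ((π n).le_opNorm _).trans ?_
    have h3 := NonUnitalStarAlgHom.norm_apply_le π n
    gcongr
    exact h3.trans hnn
  have hd0 : d ≠ 0 := by
    intro h0
    rw [h0, map_zero] at hEd
    simp only [zero_apply, zero_sub, norm_neg, hξ] at hEd
    linarith
  set γ := stepN τ d with hγ
  have hγ0 : 0 < γ := hτ.stepN_pos hd0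
  set w₀ := star d * d - (γ : ℂ) • (1 : A) with hw₀
  have hτw₀ : τ w₀ = 0 := by
    rw [hw₀, map_sub, map_smul, hτ.one, hτ.stepN_eq]; simp [hγ]
  obtain ⟨m₀, hm₀⟩ := step_exists_pow_lt (κ := γ / (2 * ‖w₀‖ + 1)) (by positivity)
  refine ⟨m₀, fun m hm => ?_⟩
  set t : ℝ := (1 / 2) ^ m with ht
  have ht0 : 0 < t := by positivity
  have ht1 : t ≤ 1 := pow_le_one₀ (by norm_num) (by norm_num)
  have htc : ((1 / 2 : ℂ)) ^ m = (t : ℂ) := by rw [ht]; push_cast; ring
  obtain ⟨r, hr, hτr⟩ : ∃ r : A, IsStarProjection r ∧ τ r = (1 / 2) ^ m := by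
    obtain ⟨r, hr, -⟩ := hτ.part m
    exact ⟨_, hr fun _ => true⟩
  obtain ⟨m', hm'⟩ := step_exists_pow_lt (κ := δ * t / 16) (by positivity)
  have hm'' := hm' m' le_rfl
  obtain ⟨w, hw2, hwN, hwE⟩ := hτ.step_small π hπ ξ hξ hδ (by linarith) m'
  set u := w * d with hu
  set a := star u * u with ha
  have hun : ‖u‖ ^ 2 ≤ 2 := by
    have h1 : ‖u‖ ≤ ‖w‖ := (norm_mul_le _ _).trans (by nlinarith [norm_nonneg w])
    nlinarith [norm_nonneg u]
  have han : ‖a‖ ≤ 2 := by rw [ha, CStarRing.norm_star_mul_self, ← sq]; exact hun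
  have has : IsSelfAdjoint a := IsSelfAdjoint.star_mul_self u
  have haN : stepN τ a ≤ 4 * (1 / 2) ^ m' := by
    have h1 := hτ.stepN_mul_left (star u) u
    have h2 := hτ.stepN_mul_right w d
    rw [norm_star] at h1
    have h3 : ‖d‖ ^ 2 ≤ 1 := by nlinarith [norm_nonneg d]
    have h4 := hτ.stepN_nonneg w
    have h5 := hτ.stepN_nonneg u
    have h6 : stepN τ u ≤ stepN τ w := h2.trans (by nlinarith)
    nlinarith
  have hEa : ‖π a ξ - ξ‖ ≤ 9 * δ := by
    have h0 : a = d * (star w * w) * d := by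
      rw [ha, hu, star_mul, hd.star_eq]; simp only [mul_assoc]
    have h1 := step_err_mul π ξ (d * (star w * w)) d
    have h2 := step_err_mul π ξ d (star w * w)
    have h3 : ‖d * (star w * w)‖ ≤ 2 := by
      refine (norm_mul_le _ _).trans ?_
      rw [CStarRing.norm_star_mul_self, ← sq]
      nlinarith [norm_nonneg d, sq_nonneg ‖w‖]
    rw [← h0] at h1
    have h4 : ‖d * (star w * w)‖ * ‖π d ξ - ξ‖ ≤ 2 * (2 * δ) := by gcongr
    have h5 : ‖d‖ * ‖π (star w * w) ξ - ξ‖ ≤ 1 * (3 * δ) := by gcongr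
    linarith
  have hEaa : ‖π (a * a) ξ - ξ‖ ≤ 27 * δ := by
    have h1 := step_err_mul π ξ a a
    have h4 : ‖a‖ * ‖π a ξ - ξ‖ ≤ 2 * (9 * δ) := by gcongr
    linarith
  set w₁ := r - (t : ℂ) • (1 : A) with hw₁
  have hτw₁ : τ w₁ = 0 := by
    rw [hw₁, map_sub, map_smul, hτ.one, hτr, htc]; simp
  have hw₁n : ‖w₁‖ ≤ 2 := by
    refine (norm_sub_le _ _).trans ?_
    have h1 := hr.norm_le
    have h2 : ‖(t : ℂ) • (1 : A)‖ ≤ 1 := by
      rw [norm_smul, Complex.norm_real, Real.norm_of_nonneg ht0.le]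
      have := (IsStarProjection.one A).norm_le
      nlinarith [norm_nonneg (1 : A)]
    linarith
  obtain ⟨z, hz, hfree⟩ := hτ.free {a, w₀, r, w₁}
  have hzz : star z * z = 1 := Unitary.star_mul_self_of_mem hz
  have hzz' : z * star z = 1 := Unitary.mul_star_self_of_mem hz
  have hrr : r * r = r := hr.isIdempotentElem.eq
  have hrs : star r = r := hr.isSelfAdjoint.star_eq
  set R := z * r * star z with hR
  have hRp : IsStarProjection R := by
    refine ⟨?_, ?_⟩
    · show z * r * star z * (z * r * star z) = z * r * star z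
      calc z * r * star z * (z * r * star z) = z * (r * (star z * z) * r) * star z := by
            simp only [mul_assoc]
        _ = z * r * star z := by rw [hzz, mul_one, hrr]
    · show star (z * r * star z) = z * r * star z
      simp only [star_mul, star_star, hrs, mul_assoc]
  have hτR : τ R = (1 / 2) ^ m := by
    rw [hR, hτ.comm, ← mul_assoc, hzz, one_mul, hτr]
  have hRw : ‖R * w₀ * R‖ < γ := by
    have h1 := (hfree r (by simp) w₀ (by simp) hr.isSelfAdjoint hτw₀).2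
    have h2 : √((τ (star r * r)).re) < γ / (2 * ‖w₀‖ + 1) := by
      have := RichTrace.stepN_proj hr hτr
      rw [stepN] at this
      rw [this]; exact hm₀ m hm
    have h3 : R * w₀ * R = z * (r * (star z * w₀ * z) * r) * star z := by
      rw [hR]; simp only [mul_assoc]
    rw [h3, CStarRing.norm_mul_mem_unitary _ (Unitary.star_mem hz),
      CStarRing.norm_mem_unitary_mul _ hz]
    refine h1.trans_lt ?_
    have hn := hr.norm_le
    rw [lt_div_iff₀ (by positivity)] at h2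
    have h4 := Real.sqrt_nonneg ((τ (star r * r)).re)
    have h5 := norm_nonneg w₀
    have h6 := norm_nonneg r
    nlinarith [mul_nonneg h5 h4, mul_nonneg (mul_nonneg h5 h4) (sub_nonneg.2 hn)]
  have haR : ‖a * (R - (t : ℂ) • (1 : A)) * a‖ ≤ δ * t := by
    have h1 := (hfree a (by simp) w₁ (by simp) has hτw₁).1
    have h3 : z * w₁ * star z = R - (t : ℂ) • (1 : A) := by
      rw [hw₁, hR]
      simp only [mul_sub, sub_mul, mul_smul_comm, smul_mul_assoc, mul_one, hzz']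
    rw [h3] at h1
    refine h1.trans ?_
    have h4 : √((τ (star a * a)).re) ≤ 2 * √((1 / 2 : ℝ) ^ m') := by
      rw [show (2 : ℝ) * √((1 / 2 : ℝ) ^ m') = √(4 * (1 / 2 : ℝ) ^ m') by
        rw [Real.sqrt_mul (by norm_num), show (4 : ℝ) = 2 ^ 2 by norm_num,
          Real.sqrt_sq (by norm_num)]]
      exact Real.sqrt_le_sqrt haN
    calc 2 * ‖w₁‖ * ‖a‖ * √((τ (star a * a)).re) ≤ 2 * 2 * 2 * (2 * √((1 / 2 : ℝ) ^ m')) := by
          gcongr
      _ ≤ δ * t := by linarith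
  set lam : ℝ := 2 / (δ * t) with hlam
  have hlam0 : 0 < lam := by positivity
  obtain ⟨p, W, hp, hτp, hpV, hpW⟩ := hτ.step_proj R d u hRp hγ0 hlam0.le hRw
  rw [← ha] at hpV hpW
  have hpn : ‖p‖ ≤ 1 := hp.norm_le
  have hbp : h' * k * p = p := by
    have h1 : h' * k * (star d * d + (lam : ℂ) • a) = star d * d + (lam : ℂ) • a := by
      rw [ha, hu, star_mul, hd.star_eq, mul_add, mul_smul_comm]
      simp only [← mul_assoc, hbd]
    rw [hpW, ← mul_assoc, h1]
  have hpb : p * (k * h') = p := by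
    have := congrArg star hbp
    simpa only [star_mul, hp.isSelfAdjoint.star_eq, hk.star_eq, hh's.star_eq] using this
  refine ⟨p, hp, ?_, hτp.trans hτR, ?_, ?_⟩
  · rw [← hbp, hh']
    simp only [← mul_assoc, hee]
  · have hq := hp.one_sub.norm_le
    have hlam' : (lam : ℂ) ≠ 0 := by exact_mod_cast hlam0.ne'
    have h1 : (1 - p) * ((star d * d + (lam : ℂ) • a) * R) = 0 := by
      rw [sub_mul, one_mul, hpV, sub_self]
    have h2 : (1 - p) * (a * R * a) = -((lam : ℂ)⁻¹ • ((1 - p) * (star d * d * R * a))) := by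
      have h3 : (1 - p) * (star d * d * R * a) + (lam : ℂ) • ((1 - p) * (a * R * a)) = 0 := by
        have := congrArg (· * a) h1
        simpa only [add_mul, mul_add, smul_mul_assoc, mul_smul_comm, zero_mul, mul_assoc]
          using this
      rw [eq_neg_of_add_eq_zero_left h3, smul_neg, neg_neg, smul_smul, inv_mul_cancel₀ hlam',
        one_smul]
    have h3 : ‖(1 - p) * (a * R * a)‖ ≤ δ * t := by
      rw [h2, norm_neg, norm_smul, norm_inv, Complex.norm_real, Real.norm_of_nonneg hlam0.le,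
        hlam, inv_div]
      have h4 : ‖star d * d‖ ≤ 1 := by
        refine (norm_mul_le_of_le ((norm_star d).le.trans hdn) hdn).trans (by norm_num)
      have h5 : ‖star d * d * R‖ ≤ 1 :=
        (norm_mul_le_of_le h4 hRp.norm_le).trans (by norm_num)
      have h6 : ‖star d * d * R * a‖ ≤ 2 :=
        (norm_mul_le_of_le h5 han).trans (by norm_num)
      have h7 : ‖(1 - p) * (star d * d * R * a)‖ ≤ 2 :=
        (norm_mul_le_of_le hq h6).trans (by norm_num)
      calc δ * t / 2 * ‖(1 - p) * (star d * d * R * a)‖ ≤ δ * t / 2 * 2 := by gcongr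
        _ = δ * t := by ring
    have h4 : ‖(1 - p) * (a * (R - (t : ℂ) • (1 : A)) * a)‖ ≤ δ * t :=
      (norm_mul_le_of_le hq haR).trans (by rw [one_mul])
    have h5 : (t : ℂ) • ((1 - p) * (a * a))
        = (1 - p) * (a * R * a) - (1 - p) * (a * (R - (t : ℂ) • (1 : A)) * a) := by
      rw [← mul_sub, ← mul_smul_comm]
      congr 1
      simp only [mul_sub, sub_mul, mul_smul_comm, smul_mul_assoc, mul_one]
      abel
    have h6 : ‖(1 - p) * (a * a)‖ ≤ 2 * δ := by
      have h7 := congrArg norm h5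
      rw [norm_smul, Complex.norm_real, Real.norm_of_nonneg ht0.le] at h7
      have h8 := norm_sub_le ((1 - p) * (a * R * a)) ((1 - p) * (a * (R - (t : ℂ) • (1 : A)) * a))
      refine le_of_mul_le_mul_left ?_ ht0
      linarith
    have h7 : π p ξ - ξ = π (1 - p) (π (a * a) ξ - ξ) - π ((1 - p) * (a * a)) ξ := by
      rw [map_mul π (1 - p), mul_apply_eq_comp, map_sub (π (1 - p)), map_sub π, hπ1]
      simp only [sub_apply, one_apply_eq_self]
      abel
    rw [h7]
    refine (norm_sub_le _ _).trans ?_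
    have h8 : ‖π (1 - p) (π (a * a) ξ - ξ)‖ ≤ 1 * (27 * δ) := by
      refine ((π (1 - p)).le_opNorm _).trans ?_
      gcongr
      exact (NonUnitalStarAlgHom.norm_apply_le π _).trans hq
    have h9 : ‖π ((1 - p) * (a * a)) ξ‖ ≤ 2 * δ := by
      refine ((π _).le_opNorm _).trans ?_
      rw [hξ, mul_one]
      exact (NonUnitalStarAlgHom.norm_apply_le π _).trans h6
    linarith
  · intro x hx
    refine ⟨φ x, ?_⟩
    have h1 := hex _ (Finset.mem_image_of_mem _ hx)
    have h2 : p * (x - φ x • 1) * p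
        = (p * k * e) * (h * (e * (x - φ x • 1) * e) * h) * (e * k * p) := by
      calc p * (x - φ x • 1) * p = (p * (k * h')) * (x - φ x • 1) * (h' * k * p) := by
            rw [hpb, hbp]
        _ = _ := by rw [hh']; simp only [mul_assoc]
    have h3 : ‖p * k * e‖ ≤ 2 := by
      exact (norm_mul_le_of_le (norm_mul_le_of_le hpn hkn) hen).trans (by norm_num)
    have h4 : ‖e * k * p‖ ≤ 2 := by
      exact (norm_mul_le_of_le (norm_mul_le_of_le hen hkn) hpn).trans (by norm_num)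
    rw [h2]
    refine (norm_mul₃_le).trans ?_
    calc ‖p * k * e‖ * ‖h * (e * (x - φ x • 1) * e) * h‖ * ‖e * k * p‖ ≤ 2 * δ * 2 := by
          gcongr
      _ = 4 * δ := by ring

end Aux2

/-- The step lemma. -/
theorem RichTrace.step {A : Type*} [CStarAlgebra A] {τ : A →L[ℂ] ℂ} (hτ : RichTrace τ)
    {K : Type*} [NormedAddCommGroup K] [InnerProductSpace ℂ K] [CompleteSpace K]
    (π : A →⋆ₙₐ[ℂ] (K →L[ℂ] K)) (hπ : Crest.OpAlg.IsIrreducibleRep π)
    (ξ : K) (hξ : ξ ≠ 0) (e : A) (he : IsStarProjection e) (heξ : π e ξ = ξ)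
    (F : Finset A) (ε : ℝ) (hε : 0 < ε) :
    ∃ m₀ : ℕ, ∀ m ≥ m₀, ∃ p : A, IsStarProjection p ∧ e * p = p ∧ τ p = (1 / 2) ^ m ∧
      ‖π p ξ - ξ‖ < ε ∧ ∀ x ∈ F, ∃ c : ℂ, ‖p * (x - c • 1) * p‖ < ε := by
  have hn : 0 < ‖ξ‖ := norm_pos_iff.2 hξ
  have hn' : ((‖ξ‖ : ℝ) : ℂ) ≠ 0 := by exact_mod_cast hn.ne'
  set ξ₁ : K := ((‖ξ‖ : ℝ) : ℂ)⁻¹ • ξ with hξ₁
  have h1 : ‖ξ₁‖ = 1 := by
    rw [hξ₁, norm_smul, norm_inv, Complex.norm_real, norm_norm, inv_mul_cancel₀ hn.ne']
  have h2 : π e ξ₁ = ξ₁ := by rw [hξ₁, map_smul, heξ]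
  set δ : ℝ := min (1 / 4) (ε / (30 * (‖ξ‖ + 1))) with hδ
  have hδ0 : 0 < δ := lt_min (by norm_num) (by positivity)
  have hδ2 : δ * (30 * (‖ξ‖ + 1)) ≤ ε := by
    rw [← le_div_iff₀ (by positivity)]; exact min_le_right _ _
  obtain ⟨m₀, hm₀⟩ := hτ.step_unit π hπ ξ₁ h1 e he h2 F δ hδ0 (min_le_left _ _)
  refine ⟨m₀, fun m hm => ?_⟩
  obtain ⟨p, hp, hep, hτp, hpξ, hF⟩ := hm₀ m hm
  refine ⟨p, hp, hep, hτp, ?_, fun x hx => ?_⟩
  · have h3 : π p ξ - ξ = ((‖ξ‖ : ℝ) : ℂ) • (π p ξ₁ - ξ₁) := by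
      rw [hξ₁, map_smul, ← smul_sub, smul_smul, mul_inv_cancel₀ hn', one_smul]
    rw [h3, norm_smul, Complex.norm_real, norm_norm]
    nlinarith [mul_le_mul_of_nonneg_left hpξ hn.le, mul_pos hδ0 hn]
  · obtain ⟨c, hc⟩ := hF x hx
    exact ⟨c, by nlinarith [mul_pos hδ0 hn]⟩

end Crest.Agent.R120
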