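import Crest.Agent.R120.Transfer
import Crest.Agent.R120.GroupGNS
import Crest.Agent.R120.Amplify

/-! Row 120: the successor step of the construction. -/

set_option autoImplicit false
set_option linter.unusedSectionVars false
set_option linter.unusedSimpArgs false
set_option linter.unusedVariables false

open scoped InnerProductSpace
open Filter Topology Set

namespace Crest.Agent.R120

variable {ι : Type}

section GNS

variable {H : Type*} [NormedAddCommGroup H] [InnerProductSpace ℂ H] [CompleteSpace H]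
  {U : FG ι →* (H →L[ℂ] H)} {Ω : H}

lemma mem_AlgOf_univ (hU : ∀ g, star (U g) = U g⁻¹) (g : FG ι) : U g ∈ AlgOf U univ :=
  mem_AlgOf U hU (by rw [closure_gens_univ]; trivial)

lemma tr_comm_of_class (hU : ∀ g, star (U g) = U g⁻¹)
    (hc : ∀ g h, tr Ω (U (g * h)) = tr Ω (U (h * g))) :
    ∀ a ∈ AlgOf U univ, ∀ b ∈ AlgOf U univ, tr Ω (a * b) = tr Ω (b * a) := by
  have key : ∀ b : H →L[ℂ] H, (∀ g, tr Ω (U g * b) = tr Ω (b * U g)) →
      ∀ a ∈ AlgOf U univ, tr Ω (a * b) = tr Ω (b * a) := by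
    intro b hb a ha
    let f : (H →L[ℂ] H) →L[ℂ] ℂ := (tr Ω).comp ((ContinuousLinearMap.mul ℂ _).flip b) -
      (tr Ω).comp (ContinuousLinearMap.mul ℂ _ b)
    have hf : ∀ y, f y = tr Ω (y * b) - tr Ω (b * y) := fun y => rfl
    have : a ∈ (f.ker : Set (H →L[ℂ] H)) := by
      refine closure_minimal ?_ f.isClosed_ker (mem_closure_span_of_mem_AlgOf U hU ha)
      refine (Submodule.span_le (p := f.ker)).2 ?_
      rintro _ ⟨g, -, rfl⟩
      change f _ = 0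
      rw [hf, hb, sub_self]
    exact sub_eq_zero.1 ((hf a).symm.trans this)
  intro a ha b hb
  refine key b (fun g => (key (U g) (fun h => ?_) b hb).symm) a ha
  rw [← map_mul, ← map_mul, hc]

lemma gns_trOn (hU : ∀ g, star (U g) = U g⁻¹)
    (hc : ∀ g h, tr Ω (U (g * h)) = tr Ω (U (h * g)))
    (hd : Dense (Submodule.span ℂ (Set.range fun g : FG ι => U g Ω) : Set H)) :
    TrOn Ω (AlgOf U univ) := by
  have hcomm := tr_comm_of_class hU hc
  refine ⟨isClosed_Alg _, hcomm, fun a ha h0 => ?_⟩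
  have h1 : (star a) Ω = 0 := by
    have := hcomm a ha _ (star_mem ha)
    rw [tr_star_mul_self, h0] at this
    have h2 := tr_star_mul_self Ω (star a)
    rw [star_star, this] at h2
    have h3 : ‖(0 : H)‖ ^ 2 = ‖(star a) Ω‖ ^ 2 := by exact_mod_cast h2
    simpa using h3.symm
  have h2 : ∀ g, a (U g Ω) = 0 := by
    intro g
    have hg := mem_AlgOf_univ hU g
    have := hcomm _ (star_mem (mul_mem ha hg)) _ (mul_mem ha hg)
    have h3 := tr_star_mul_self Ω (star (a * U g))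
    rw [star_star, ← this, tr_star_mul_self, star_mul, mul_apply_eq_comp (star (U g)), h1,
      map_zero] at h3
    have h4 : ‖(a * U g) Ω‖ ^ 2 = ‖(0 : H)‖ ^ 2 := by exact_mod_cast h3
    simpa using h4
  refine ContinuousLinearMap.ext_on hd ?_
  rintro _ ⟨g, rfl⟩
  exact h2 g

lemma IsPt.strong {N : StarSubalgebra ℂ (H →L[ℂ] H)} (hN : TrOn Ω N) (hUN : ∀ g, U g ∈ N)
    (hd : Dense (Submodule.span ℂ (Set.range fun g : FG ι => U g Ω) : Set H))
    {p : ℕ → (H →L[ℂ] H)} (hp : IsPt Ω p) (hpN : ∀ n, p n ∈ N) (ξ : H) :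
    Tendsto (fun n => p n ξ) atTop (𝓝 0) := by
  have h1 : ∀ ζ ∈ Submodule.span ℂ (Set.range fun g : FG ι => U g Ω),
      Tendsto (fun n => p n ζ) atTop (𝓝 0) := by
    intro ζ hζ
    induction hζ using Submodule.span_induction with
    | mem x hx =>
      obtain ⟨g, rfl⟩ := hx
      refine squeeze_zero_norm (a := fun n => ‖p n Ω‖ * ‖U g‖)
        (fun n => hN.norm_mul_apply_le (hpN n) (hUN g)) ?_
      simpa using hp.lim.norm.mul_const ‖U g‖
    | zero => simp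
    | add x y _ _ hx hy => simpa using hx.add hy
    | smul c x _ hx => simpa using hx.const_smul c
  apply tendsto_zero_of_split
  intro ε hε
  obtain ⟨ζ, hζ, hξζ⟩ := Metric.mem_closure_iff.1 (hd ξ) ε hε
  refine ⟨_, h1 ζ hζ, Eventually.of_forall fun n => ?_⟩
  rw [← map_sub]
  rw [dist_eq_norm] at hξζ
  calc _ ≤ ‖p n‖ * ‖ξ - ζ‖ := ContinuousLinearMap.le_opNorm _ _
    _ ≤ 1 * ε := by gcongr; exact hp.norm_le n
    _ = ε := one_mul _

end GNS

variable [LinearOrder ι]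

/-- Stage `β` of the trace `τ` is realised by a good system. -/
def Good (τ : FG ι → ℂ) (β : ι) (c : Bool → ℕ → ℕ → (FG ι →₀ ℂ)) : Prop :=
  ∃ (H : Type) (_ : NormedAddCommGroup H) (_ : InnerProductSpace ℂ H) (_ : CompleteSpace H)
    (U : FG ι →* (H →L[ℂ] H)) (Ω : H) (P : Bool → ℕ → (H →L[ℂ] H)),
    (∀ g, star (U g) = U g⁻¹) ∧ (∀ g ∈ Subgroup.closure (gens (Iic β)), tr Ω (U g) = τ g) ∧
      GoodSys Ω U β c P

lemma Good.congr {τ τ' : FG ι → ℂ} {β : ι} {c : Bool → ℕ → ℕ → (FG ι →₀ ℂ)} (h : Good τ β c)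
    (h' : ∀ g ∈ Subgroup.closure (gens (Iic β)), τ g = τ' g) : Good τ' β c := by
  obtain ⟨H, i1, i2, i3, U, Ω, P, h1, h2, h3⟩ := h
  exact ⟨H, i1, i2, i3, U, Ω, P, h1, fun g hg => (h2 g hg).trans (h' g hg), h3⟩

theorem exists_succ (τ : FG ι → ℂ) (hτ : IsGroupTrace τ) (β : ι)
    (c : Bool → ℕ → ℕ → (FG ι →₀ ℂ)) :
    ∃ τ', IsGroupTrace τ' ∧ (∀ g ∈ Subgroup.closure (gens (Iio β)), τ g = τ' g) ∧
      Good τ' β c := by
  classical
  obtain ⟨H, i1, i2, i3, U, Ω, hU, hΩ, hUτ, hd⟩ := exists_group_gns τ hτ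
  have hT : TrOn Ω (AlgOf U univ) := gns_trOn hU (fun g h => by
    rw [tr_apply, tr_apply, hUτ, hUτ, hτ.comm]) hd
  set N := AlgOf U (Iio β) with hNdef
  have hNle : N ≤ AlgOf U univ := Alg_mono (subset_univ _)
  have hN : TrOn Ω N := hT.mono hNle (isClosed_Alg _)
  obtain ⟨P, hD, hcode⟩ : ∃ P, Datum Ω N P ∧
      ∀ Q, Datum Ω N Q → Coded U (Iio β) c Q → P = Q := by
    by_cases h : ∃ P, Datum Ω N P ∧ Coded U (Iio β) c P
    · obtain ⟨P, h1, h2⟩ := h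
      exact ⟨P, h1, fun Q _ hQ => h2.unique hQ⟩
    · exact ⟨trivP H, datum_trivP Ω N, fun Q h1 h2 => absurd ⟨Q, h1, h2⟩ h⟩
  have hq : ∀ ε j, IsStarProjection (P ε j - P ε (j + 1)) := fun ε j =>
    (hD.pt ε).sub_proj (Nat.le_succ j)
  have hqN : ∀ ε j, P ε j - P ε (j + 1) ∈ N := fun ε j => sub_mem (hD.mem _ _) (hD.mem _ _)
  obtain ⟨H₂, j1, j2, j3, Δ, Ω₂, v, K, hinj, hΔ, hv, hconj, hK1, hK2, hK3, hK4, hK5⟩ :=
    exists_amplification Ω P (fun ε => (hD.pt ε).proj) (fun ε => (hD.pt ε).zero)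
      (fun ε => (hD.pt ε).anti)
      (fun ε => (hD.pt ε).strong hT (mem_AlgOf_univ hU) hd (fun n => hNle (hD.mem ε n)))
      (fun j => by
        have h1 := tr_proj Ω (hq true j)
        rw [map_sub, hD.tr_eq, hD.tr_eq, ← map_sub, tr_proj Ω (hq false j)] at h1
        have h2 : ‖(P false j - P false (j + 1)) Ω‖ ^ 2 = ‖(P true j - P true (j + 1)) Ω‖ ^ 2 := by
          exact_mod_cast h1
        rw [← norm_eq_zero, ← norm_eq_zero (a := (P false j - P false (j + 1)) Ω),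
          (sq_eq_sq₀ (norm_nonneg _) (norm_nonneg _)).1 h2])
      (fun ε j h => hN.faithful _ (hqN ε j) h)
  have hΔ' : ∀ x, tr Ω₂ (Δ x) = tr Ω x := hΔ
  have hΔu : ∀ g, Δ (U g) ∈ unitary (H₂ →L[ℂ] H₂) := by
    intro g
    rw [Unitary.mem_iff, ← map_star, ← map_mul, ← map_mul, (Unitary.mem_iff.1
      (map_mem_unitary U hU g)).1, (Unitary.mem_iff.1 (map_mem_unitary U hU g)).2, map_one]
    exact ⟨rfl, rfl⟩
  let f : ℕ ⊕ ι → unitary (H₂ →L[ℂ] H₂) := fun x =>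
    if x = Sum.inr β then ⟨v, hv⟩ else
      if FreeGroup.of x ∈ gens (Iio β) then ⟨Δ (U (FreeGroup.of x)), hΔu _⟩ else 1
  let U₂ : FG ι →* (H₂ →L[ℂ] H₂) := (unitary (H₂ →L[ℂ] H₂)).subtype.comp (FreeGroup.lift f)
  have hU₂ : ∀ g, star (U₂ g) = U₂ g⁻¹ := by
    intro g
    change star ((FreeGroup.lift f g : unitary _) : H₂ →L[ℂ] H₂) = (FreeGroup.lift f g⁻¹ : unitary _)
    rw [map_inv, ← Unitary.star_eq_inv, Unitary.coe_star]
  have hU₂of : ∀ x, U₂ (FreeGroup.of x) = f x := by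
    intro x
    change ((FreeGroup.lift f (FreeGroup.of x) : unitary _) : H₂ →L[ℂ] H₂) = _
    rw [FreeGroup.lift_apply_of]
  have hU₂β : letOf U₂ β = v := by
    rw [letOf, hU₂of]; simp [f]
  have hgen : ∀ g ∈ gens (Iio β), U₂ g = Δ (U g) := by
    intro g hg
    have hg' := hg
    rcases hg' with ⟨n, rfl⟩ | ⟨γ, hγ, rfl⟩
    · rw [hU₂of]; simp [f, hg]
    · have : γ ≠ β := ne_of_lt hγ
      rw [hU₂of]; simp [f, hg, this]
  have hclo : ∀ g ∈ Subgroup.closure (gens (Iio β)), U₂ g = Δ (U g) := by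
    intro g hg
    induction hg using Subgroup.closure_induction with
    | mem x hx => exact hgen x hx
    | one => simp
    | mul x y _ _ hx hy => rw [map_mul, map_mul, map_mul, hx, hy]
    | inv x _ hx => rw [← hU₂, ← hU, map_star, hx]
  have hA : Agree Ω U Ω₂ U₂ (Iio β) := ⟨hU, hU₂, fun g hg => by rw [hclo g hg, hΔ']⟩
  set N₂ := AlgOf U₂ (Iio β) with hN₂def
  have hiso : Isometry Δ := NonUnitalStarAlgHom.isometry Δ hinj
  have hN₂Δ : ∀ x ∈ N₂, ∃ a ∈ N, Δ a = x := by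
    intro x hx
    have hc : IsClosed ((N.map Δ : StarSubalgebra ℂ _) : Set (H₂ →L[ℂ] H₂)) :=
      hiso.isClosedEmbedding.isClosedMap _ hN.closed
    refine Alg_le (B := N.map Δ) hc ?_ hx
    rw [← image_gens]
    rintro _ ⟨g, hg, rfl⟩
    exact ⟨U g, mem_AlgOf U hU (Subgroup.subset_closure hg), (hgen g hg).symm⟩
  have hN₂ : TrOn Ω₂ N₂ := by
    refine ⟨isClosed_Alg _, fun x hx y hy => ?_, fun x hx h0 => ?_⟩
    · obtain ⟨a, ha, rfl⟩ := hN₂Δ x hx
      obtain ⟨b, hb, rfl⟩ := hN₂Δ y hy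
      rw [← map_mul, ← map_mul, hΔ', hΔ', hN.comm a ha b hb]
    · obtain ⟨a, ha, rfl⟩ := hN₂Δ x hx
      have h1 := tr_star_mul_self Ω₂ (Δ a)
      rw [← map_star, ← map_mul, hΔ', tr_star_mul_self, h0] at h1
      have h2 : ‖a Ω‖ ^ 2 = ‖(0 : H₂)‖ ^ 2 := by exact_mod_cast h1
      rw [hN.faithful a ha (by simpa using h2), map_zero]
  have hrel : ∀ a ∈ N, Rel U U₂ (Iio β) a (Δ a) := by
    intro a ha
    obtain ⟨x, hx⟩ := hA.exists_rel hN₂ ha
    have : x = Δ a := by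
      let g₁ : ((H →L[ℂ] H) × (H₂ →L[ℂ] H₂)) →⋆ₐ[ℂ] (H₂ →L[ℂ] H₂) := StarAlgHom.snd ℂ _ _
      let g₂ : ((H →L[ℂ] H) × (H₂ →L[ℂ] H₂)) →⋆ₐ[ℂ] (H₂ →L[ℂ] H₂) :=
        Δ.comp (StarAlgHom.fst ℂ _ _)
      have hcl : IsClosed (StarAlgHom.equalizer g₁ g₂ :
          Set ((H →L[ℂ] H) × (H₂ →L[ℂ] H₂))) :=
        isClosed_eq (f := fun z : (H →L[ℂ] H) × (H₂ →L[ℂ] H₂) => z.2)
          (g := fun z => Δ z.1) continuous_snd (hiso.continuous.comp continuous_fst)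
      have hle : RelAlg U U₂ (Iio β) ≤ StarAlgHom.equalizer g₁ g₂ :=
        RelAlg_le hcl (fun g hg => (StarAlgHom.mem_equalizer g₁ g₂ _).2 (hgen g hg))
      exact (StarAlgHom.mem_equalizer g₁ g₂ _).1 (hle hx.mem)
    rwa [this] at hx
  let P₂ : Bool → ℕ → (H₂ →L[ℂ] H₂) := fun ε n => Δ (P ε n)
  have hr : ∀ ε n, Rel U U₂ (Iio β) (P ε n) (P₂ ε n) := fun ε n => hrel _ (hD.mem ε n)
  have hD₂ : Datum Ω₂ N₂ P₂ := hA.datum hN hN₂ hr hD
  have hC₂ : Conj P₂ v := ⟨hv, hconj⟩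
  have hK45 : ∀ ε (ξ : H₂), (∀ k ∈ K (!ε), ⟪k, ξ⟫_ℂ = 0) → us v ε ξ ∈ K ε := by
    intro ε
    cases ε
    · exact hK5
    · exact hK4
  have hK2' : ∀ ε x, ∀ k ∈ K (!ε), ∀ k' ∈ K ε, ⟪k, Δ x k'⟫_ℂ = 0 := by
    intro ε x k hk k' hk'
    cases ε
    · exact hK2 x k hk k' hk'
    · rw [← inner_star_left, ← map_star]
      exact inner_eq_zero_symm.1 (hK2 _ k' hk' k hk)
  have hF₂ : Free Ω₂ N₂ P₂ v := by
    have key : ∀ ε W, RW Ω₂ N₂ P₂ v ε W → ∀ a' ∈ N₂, (W * a') Ω₂ ∈ K ε := by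
      intro ε W hW a' ha'
      induction hW with
      | base ε =>
        obtain ⟨a, ha, rfl⟩ := hN₂Δ a' ha'
        exact hK45 ε _ (hK1 _ a)
      | step ε ε' a W' ha hc _ ih =>
        obtain ⟨x, hx, rfl⟩ := hN₂Δ a ha
        have e : (us v ε * Δ x * W' * a') Ω₂ = us v ε (Δ x ((W' * a') Ω₂)) := rfl
        rw [e]
        refine hK45 ε _ fun k hk => ?_
        by_cases he : ε' = !ε
        · subst he
          refine hK3 _ x (fun j => ?_) k hk _ ih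
          have hcx : Cen Ω (P (!ε)) x := fun n => by
            rw [← hΔ', map_mul]; exact hc rfl n
          have h1 := hcx.of_Dsp (sub_mem (mem_Dsp _ j) (mem_Dsp _ (j + 1)))
          rw [← mul_apply_eq_comp, ← tr_star_mul, (hq _ j).isSelfAdjoint.star_eq, ← mul_assoc,
            hN.comm _ (mul_mem (hqN _ j) hx) _ (hqN _ j), ← mul_assoc,
            (hq _ j).isIdempotentElem.eq, h1]
        · have : ε' = ε := by
            revert he; cases ε <;> cases ε' <;> decide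
          subst this
          exact hK2' _ x k hk _ ih
    intro ε W hW a ha a' ha'
    obtain ⟨x, hx, rfl⟩ := hN₂Δ a ha
    have h1 := hK1 ε (star x) _ (key ε W hW a' ha')
    rw [map_star, inner_star_right] at h1
    rw [mul_assoc, tr_apply]
    exact inner_eq_zero_symm.1 h1
  have hall : ∀ g, U₂ g ∈ ext N₂ v := by
    intro g
    refine map_mem_of_closure U₂ hU₂ (s := range FreeGroup.of) ?_
      (by rw [FreeGroup.closure_range_of]; trivial)
    rintro _ ⟨x, rfl⟩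
    by_cases h1 : x = Sum.inr β
    · subst h1
      have := hU₂β
      rw [letOf] at this
      rw [this]; exact self_mem_ext _ _
    · by_cases h2 : FreeGroup.of x ∈ gens (Iio β)
      · exact le_ext _ _ (mem_AlgOf U₂ hU₂ (Subgroup.subset_closure h2))
      · rw [hU₂of]; simp only [f, h1, h2, if_false]; exact one_mem _
  have hΩ₂ : ‖Ω₂‖ = 1 := by
    have h1 := hΔ' 1
    rw [map_one, tr_proj _ (IsStarProjection.one _), tr_proj _ (IsStarProjection.one _)] at h1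
    have h2 : ‖Ω₂‖ ^ 2 = ‖Ω‖ ^ 2 := by exact_mod_cast h1
    rw [(sq_eq_sq₀ (norm_nonneg _) (norm_nonneg _)).1 h2, hΩ]
  refine ⟨fun g => ⟪Ω₂, U₂ g Ω₂⟫_ℂ, isGroupTrace_of_rep U₂ hU₂ Ω₂ hΩ₂ fun g h => ?_,
    fun g hg => ?_, H₂, j1, j2, j3, U₂, Ω₂, P₂, hU₂, fun g _ => rfl, hN₂, hD₂, ?_, ?_,
    hA.code_prop hN hN₂ hr hcode⟩
  · rw [← tr_apply, ← tr_apply, map_mul U₂, map_mul U₂]
    exact ext_tracial hN₂ hD₂ hC₂ hF₂ _ (hall g) _ (hall h)
  · rw [← hUτ]; exact hA.eq g hg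
  · rw [hU₂β]; exact hC₂
  · rw [hU₂β]; exact hF₂

theorem exists_tower [WellFoundedLT ι] (σ : ι → Bool → ℕ → ℕ → (FG ι →₀ ℂ)) (τ₀ : FG ι → ℂ)
    (hτ₀ : IsGroupTrace τ₀) :
    ∃ τ, IsGroupTrace τ ∧ (∀ g ∈ Subgroup.closure (gens (∅ : Set ι)), τ₀ g = τ g) ∧
      ∀ β, Good τ β (σ β) := by
  let X := {x : Set ι × (FG ι → ℂ) // IsLowerSet x.1 ∧ IsGroupTrace x.2 ∧
    (∀ g ∈ Subgroup.closure (gens (∅ : Set ι)), τ₀ g = x.2 g) ∧ ∀ β ∈ x.1, Good x.2 β (σ β)}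
  let r : X → X → Prop := fun x y =>
    x.1.1 ⊆ y.1.1 ∧ ∀ g ∈ Subgroup.closure (gens x.1.1), x.1.2 g = y.1.2 g
  have hrefl : ∀ x, r x x := fun x => ⟨subset_rfl, fun _ _ => rfl⟩
  suffices hch : ∀ ch : Set X, IsChain r ch → ∃ ub, ∀ a ∈ ch, r a ub by
    obtain ⟨m, hm⟩ := exists_maximal_of_chains_bounded (r := r) hch
      (fun {a b c} hab hbc => ⟨hab.1.trans hbc.1, fun g hg =>
        (hab.2 g hg).trans (hbc.2 g (closure_gens_mono hab.1 hg))⟩)
    obtain ⟨⟨I, τ⟩, hI, hτ, h0, hG⟩ := m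
    refine ⟨τ, hτ, h0, fun β => hG β ?_⟩
    by_contra hβ
    obtain ⟨γ, hγ, hmin⟩ := WellFounded.has_min wellFounded_lt Iᶜ ⟨β, hβ⟩
    have hIγ : I = Iio γ := by
      ext x
      constructor
      · intro hx
        by_contra h
        exact hγ (hI (not_lt.1 h) hx)
      · intro hx
        by_contra h
        exact hmin x h hx
    subst hIγ
    obtain ⟨τ', hτ', h1, h2⟩ := exists_succ τ hτ γ (σ γ)
    have := hm ⟨(Iic γ, τ'), isLowerSet_Iic γ, hτ', fun g hg =>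
      (h0 g hg).trans (h1 g (closure_gens_mono (empty_subset _) hg)), fun δ hδ => by
        rcases (mem_Iic.1 hδ).eq_or_lt with rfl | h
        · exact h2
        · exact (hG δ h).congr fun g hg =>
            h1 g (closure_gens_mono (fun x hx => lt_of_le_of_lt hx h) hg)⟩
      ⟨Iio_subset_Iic_self, h1⟩
    exact hγ (this.1 (mem_Iic.2 le_rfl))
  · intro ch hch
    rcases ch.eq_empty_or_nonempty with rfl | hne
    · exact ⟨⟨(∅, τ₀), isLowerSet_empty, hτ₀, fun _ _ => rfl, by simp⟩, by simp⟩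
    have := hne.to_subtype
    let C : ch → Set (FG ι → ℂ) := fun a =>
      {τ | IsGroupTrace τ} ∩ {τ | ∀ g ∈ Subgroup.closure (gens a.1.1.1), a.1.1.2 g = τ g}
    have hcl : ∀ a : ch,
        IsClosed {τ : FG ι → ℂ | ∀ g ∈ Subgroup.closure (gens a.1.1.1), a.1.1.2 g = τ g} := by
      intro a
      simp only [ofPred_forall]
      exact isClosed_iInter fun g => isClosed_iInter fun _ =>
        isClosed_eq continuous_const (continuous_apply g)
    have hCmono : ∀ a b : ch, r a.1 b.1 → C b ⊆ C a := fun a b hab τ hτ =>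
      ⟨hτ.1, fun g hg => (hab.2 g hg).trans (hτ.2 g (closure_gens_mono hab.1 hg))⟩
    obtain ⟨τ, hτ⟩ := IsCompact.nonempty_iInter_of_directed_nonempty_isCompact_isClosed C
      (fun a b => by
        by_cases hab : a.1 = b.1
        · exact ⟨a, subset_rfl, hCmono b a (hab ▸ hrefl _)⟩
        · rcases hch a.2 b.2 hab with h | h
          · exact ⟨b, hCmono a b h, subset_rfl⟩
          · exact ⟨a, subset_rfl, hCmono b a h⟩)
      (fun a => ⟨a.1.1.2, a.1.2.2.1, fun _ _ => rfl⟩)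
      (fun a => (isCompact_groupTrace _).inter_right (hcl a))
      (fun a => (isCompact_groupTrace _).isClosed.inter (hcl a))
    rw [mem_iInter] at hτ
    obtain ⟨a₀⟩ := this
    refine ⟨⟨(⋃ a : ch, a.1.1.1, τ), isLowerSet_iUnion fun a => a.1.2.1, (hτ a₀).1,
      fun g hg => (a₀.1.2.2.2.1 g hg).trans
        ((hτ a₀).2 g (closure_gens_mono (empty_subset _) hg)), fun β hβ => ?_⟩, fun a ha => ?_⟩
    · obtain ⟨a, ha⟩ := mem_iUnion.1 hβ
      exact (a.1.2.2.2.2 β ha).congr fun g hg =>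
        (hτ a).2 g (closure_gens_mono (fun x hx => a.1.2.1 hx ha) hg)
    · exact ⟨subset_iUnion (fun a : ch => a.1.1.1) ⟨a, ha⟩, (hτ ⟨a, ha⟩).2⟩

theorem exists_sys [WellFoundedLT ι] (σ : ι → Bool → ℕ → ℕ → (FG ι →₀ ℂ)) (τ₀ : FG ι → ℂ)
    (hτ₀ : IsGroupTrace τ₀) :
    ∃ (H : Type) (_ : NormedAddCommGroup H) (_ : InnerProductSpace ℂ H) (_ : CompleteSpace H)
      (U : FG ι →* (H →L[ℂ] H)) (Ω : H) (P : ι → Bool → ℕ → (H →L[ℂ] H)),
      (∀ g, star (U g) = U g⁻¹) ∧ ‖Ω‖ = 1 ∧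
      (∀ g ∈ Subgroup.closure (gens (∅ : Set ι)), tr Ω (U g) = τ₀ g) ∧
      Sys Ω (baseOf U) (letOf U) P ∧
      ∀ β Q, Datum Ω (AlgOf U (Iio β)) Q → Coded U (Iio β) (σ β) Q → P β = Q := by
  obtain ⟨τ, hτ, h0, hG⟩ := exists_tower σ τ₀ hτ₀
  obtain ⟨H, i1, i2, i3, U, Ω, hU, hΩ, hUτ, hd⟩ := exists_group_gns τ hτ
  have hT : TrOn Ω (AlgOf U univ) := gns_trOn hU (fun g h => by
    rw [tr_apply, tr_apply, hUτ, hUτ, hτ.comm]) hd
  have : ∀ β, ∃ P, GoodSys Ω U β (σ β) P := by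
    intro β
    obtain ⟨H', j1, j2, j3, U', Ω', P', h1, h2, h3⟩ := hG β
    exact h3.transfer ⟨h1, hU, fun g hg => (h2 g hg).trans (hUτ g).symm⟩
      (hT.mono (Alg_mono (subset_univ _)) (isClosed_Alg _))
  choose P hP using this
  exact ⟨H, i1, i2, i3, U, Ω, P, hU, hΩ, fun g hg => (hUτ g).trans (h0 g hg).symm,
    ⟨hT, fun β => (hP β).datum, fun β => (hP β).conj, fun β => (hP β).free⟩,
    fun β => (hP β).code⟩

end Crest.Agent.R120
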