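import Crest.Agent.R120.HNN

/-! Row 120: non-disjointness is transitive through an excising sequence. -/

set_option autoImplicit false
set_option linter.unusedSectionVars false
set_option linter.unusedSimpArgs false

open scoped InnerProductSpace
open Filter Topology

namespace Crest.Agent.R120

variable {H : Type*} [NormedAddCommGroup H] [InnerProductSpace ℂ H] [CompleteSpace H]

lemma norm_sq_proj_sub {Ω : H} {e : ℕ → (H →L[ℂ] H)} (he : IsPt Ω e) {m m' : ℕ} (h : m ≤ m')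
    (x : H) : ‖e m x - e m' x‖ ^ 2 = ‖e m x‖ ^ 2 - ‖e m' x‖ ^ 2 := by
  have h1 := tr_proj x (he.sub_proj h)
  rw [map_sub, tr_proj x (he.proj m), tr_proj x (he.proj m')] at h1
  exact_mod_cast h1.symm

theorem not_van_trans {Ω : H} {p e p' : ℕ → (H →L[ℂ] H)} (hp : IsPt Ω p) (he : IsPt Ω e)
    (hp' : IsPt Ω p') {a b : H →L[ℂ] H} (hexc : ∀ l, Exc e (star b * p' l * b))
    (h1 : ¬ Van e a p) (h2 : ¬ Van p' b e) : ∃ m, ¬ Van p' (b * e m * a) p := by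
  by_contra hcon
  push Not at hcon
  obtain ⟨α, hα, h1⟩ := (not_van_iff he hp a).1 h1
  obtain ⟨β, hβ, h2⟩ := (not_van_iff hp' he b).1 h2
  have hξ : ∀ k, ∃ ξ : H, ‖ξ‖ ≤ 1 ∧ p k ξ = ξ ∧ α / 2 < ‖e k (a ξ)‖ := by
    intro k
    obtain ⟨x, hx1, hx2⟩ := ContinuousLinearMap.exists_lt_apply_of_lt_opNorm (e k * a * p k)
      (r := α / 2) (by linarith [h1 k k])
    refine ⟨p k x, ?_, ?_, hx2⟩
    · calc _ ≤ ‖p k‖ * ‖x‖ := ContinuousLinearMap.le_opNorm _ _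
        _ ≤ 1 * 1 := by gcongr; exact hp.norm_le k
        _ = 1 := one_mul _
    · rw [← mul_apply_eq_comp, hp.mul_self]
  choose ξ hξ1 hξ2 hξ3 using hξ
  have hbd : ∀ m k, ‖e m (a (ξ k))‖ ≤ ‖a‖ := by
    intro m k
    calc _ ≤ ‖e m‖ * ‖a (ξ k)‖ := ContinuousLinearMap.le_opNorm _ _
      _ ≤ 1 * (‖a‖ * ‖ξ k‖) := by
          gcongr; exacts [he.norm_le m, ContinuousLinearMap.le_opNorm _ _]
      _ ≤ 1 * (‖a‖ * 1) := by gcongr; exact hξ1 k
      _ = _ := by ring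
  let U : Ultrafilter ℕ := hyperfilter ℕ
  have hU : (U : Filter ℕ) ≤ atTop := by
    rw [← Nat.cofinite_eq_atTop]; exact hyperfilter_le_cofinite
  have hlim : ∀ m, ∃ t : ℝ, Tendsto (fun k => ‖e m (a (ξ k))‖ ^ 2) U (𝓝 t) := by
    intro m
    obtain ⟨t, -, ht⟩ := (isCompact_Icc (a := (0 : ℝ)) (b := ‖a‖ ^ 2)).ultrafilter_le_nhds
      (U.map fun k => ‖e m (a (ξ k))‖ ^ 2) (by
        rw [Ultrafilter.coe_map, le_principal_iff, mem_map]
        refine Eventually.of_forall fun k => ⟨by positivity, ?_⟩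
        exact pow_le_pow_left₀ (norm_nonneg _) (hbd m k) 2)
    exact ⟨t, ht⟩
  choose t ht using hlim
  have ht0 : ∀ m, 0 ≤ t m := fun m => ge_of_tendsto' (ht m) fun k => by positivity
  -- choose the small parameter
  obtain ⟨η, hη, hη1, hη2⟩ : ∃ η > 0, η ≤ 1 ∧
      η * (‖a‖ ^ 2 + 1 + (1 + 2 * ‖b‖) ^ 2) ≤ β ^ 2 * (α / 2) ^ 2 / 2 := by
    obtain ⟨η, hη, h⟩ := exists_mul_le (C := ‖a‖ ^ 2 + 1 + (1 + 2 * ‖b‖) ^ 2)
      (ε := β ^ 2 * (α / 2) ^ 2 / 2) (by positivity) (by positivity)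
    exact ⟨min η 1, by positivity, min_le_right _ _, le_trans (by gcongr; exact min_le_left _ _) h⟩
  -- the numbers `t m` almost stabilise
  obtain ⟨m, hm⟩ : ∃ m, ∀ m', t m - t m' < η ^ 2 := by
    have hb : BddBelow (Set.range t) := ⟨0, by rintro _ ⟨m, rfl⟩; exact ht0 m⟩
    obtain ⟨m, hm⟩ := exists_lt_of_ciInf_lt (f := t) (a := (⨅ m, t m) + η ^ 2)
      (by linarith [pow_pos hη 2])
    exact ⟨m, fun m' => by linarith [ciInf_le hb m']⟩
  obtain ⟨l, hl⟩ := Van.exists_forall hp' hp (hcon m) hη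
  obtain ⟨ψ, hψ⟩ := hexc l
  have hψβ : β ^ 2 ≤ ‖ψ‖ := by
    apply le_of_forall_pos_le_add
    intro δ hδ
    obtain ⟨k, hk⟩ := Van.exists_forall he he hψ hδ
    have h3 := hk k le_rfl k le_rfl
    have e1 : star (p' l * b * e k) * (p' l * b * e k) =
        e k * (star b * p' l * b - ψ • 1) * e k + ψ • e k := by
      rw [star_mul, star_mul, he.star_eq, hp'.star_eq, mul_sub, sub_mul, mul_smul_comm, mul_one,
        smul_mul_assoc, he.mul_self, sub_add_cancel]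
      calc _ = e k * star b * (p' l * p' l) * b * e k := by simp only [mul_assoc]
        _ = _ := by rw [hp'.mul_self]; simp only [mul_assoc]
    have h4 : ‖p' l * b * e k‖ * ‖p' l * b * e k‖ ≤ δ + ‖ψ‖ := by
      rw [← CStarRing.norm_star_mul_self, e1]
      refine (norm_add_le _ _).trans (add_le_add h3.le ?_)
      rw [norm_smul]
      calc _ ≤ ‖ψ‖ * 1 := by gcongr; exact he.norm_le k
        _ = _ := mul_one _
    have h5 := h2 l k
    nlinarith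
  obtain ⟨m₀, hm₀⟩ := Van.exists_forall he he hψ hη
  set m' := max m m₀ with hm'
  have hmm' : m ≤ m' := le_max_left _ _
  have h6 := hm₀ m' (le_max_right _ _) m' (le_max_right _ _)
  have h7 : ∀ᶠ k in (U : Filter ℕ), ‖e m (a (ξ k))‖ ^ 2 - ‖e m' (a (ξ k))‖ ^ 2 < η ^ 2 :=
    ((ht m).sub (ht m')).eventually (gt_mem_nhds (hm m'))
  obtain ⟨k, hk1, hk2, hk3⟩ := (h7.and (((eventually_ge_atTop l).and
    (eventually_ge_atTop m')).filter_mono hU)).exists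
  set ζ := e m' (a (ξ k)) with hζ
  have hζ1 : α / 2 < ‖ζ‖ := by
    refine (hξ3 k).trans_le ?_
    have : e k (a (ξ k)) = e k ζ := by
      rw [hζ, ← mul_apply_eq_comp (e k) (e m'), he.mul_of_ge hk3]
    rw [this]
    calc _ ≤ ‖e k‖ * ‖ζ‖ := ContinuousLinearMap.le_opNorm _ _
      _ ≤ 1 * ‖ζ‖ := by gcongr; exact he.norm_le k
      _ = _ := one_mul _
  have hζ2 : ‖ζ‖ ≤ ‖a‖ := hbd m' k
  have hζe : e m' ζ = ζ := by rw [hζ, ← mul_apply_eq_comp (e m'), he.mul_self]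
  have h8 : ‖e m (a (ξ k)) - ζ‖ ≤ η := by
    have := norm_sq_proj_sub he hmm' (a (ξ k))
    rw [← this] at hk1
    exact (lt_of_pow_lt_pow_left₀ 2 hη.le hk1).le
  have h9 : ‖p' l (b ζ)‖ ≤ η + ‖b‖ * η := by
    have e2 : p' l (b ζ) = (p' l * (b * e m * a) * p k) (ξ k) - p' l (b (e m (a (ξ k)) - ζ)) := by
      simp only [mul_apply_eq_comp, hξ2 k, map_sub]; abel
    rw [e2]
    refine (norm_sub_le _ _).trans (add_le_add ?_ ?_)
    · calc _ ≤ ‖p' l * (b * e m * a) * p k‖ * ‖ξ k‖ := ContinuousLinearMap.le_opNorm _ _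
        _ ≤ η * 1 := by gcongr; exacts [(hl l le_rfl k hk2).le, hξ1 k]
        _ = _ := mul_one _
    · calc _ ≤ ‖p' l‖ * ‖b (e m (a (ξ k)) - ζ)‖ := ContinuousLinearMap.le_opNorm _ _
        _ ≤ 1 * (‖b‖ * ‖e m (a (ξ k)) - ζ‖) := by
            gcongr; exacts [hp'.norm_le l, ContinuousLinearMap.le_opNorm _ _]
        _ ≤ 1 * (‖b‖ * η) := by gcongr
        _ = _ := one_mul _
  have h10 : ⟪ζ, (e m' * (star b * p' l * b - ψ • 1) * e m') ζ⟫_ℂ =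
      ((‖p' l (b ζ)‖ ^ 2 : ℝ) : ℂ) - ψ * ((‖ζ‖ ^ 2 : ℝ) : ℂ) := by
    rw [mul_apply_eq_comp, mul_apply_eq_comp, hζe, ← inner_star_left, he.star_eq, hζe, sub_apply,
      inner_sub_right, ← tr_apply, ← tr_apply, map_smul]
    have e3 : star b * p' l * b = star (p' l * b) * (p' l * b) := by
      rw [star_mul, hp'.star_eq]
      calc _ = star b * (p' l * p' l) * b := by rw [hp'.mul_self]
        _ = _ := by simp only [mul_assoc]
    rw [e3, tr_star_mul_self, tr_proj ζ (IsStarProjection.one _)]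
    simp
  have h11 : ‖⟪ζ, (e m' * (star b * p' l * b - ψ • 1) * e m') ζ⟫_ℂ‖ ≤ η * ‖a‖ ^ 2 := by
    calc _ ≤ ‖ζ‖ * ‖(e m' * (star b * p' l * b - ψ • 1) * e m') ζ‖ := norm_inner_le_norm _ _
      _ ≤ ‖ζ‖ * (‖e m' * (star b * p' l * b - ψ • 1) * e m'‖ * ‖ζ‖) := by
          gcongr; exact ContinuousLinearMap.le_opNorm _ _
      _ ≤ ‖a‖ * (η * ‖a‖) := by gcongr
      _ = _ := by ring
  rw [h10] at h11
  have h12 : ‖ψ‖ * ‖ζ‖ ^ 2 ≤ ‖p' l (b ζ)‖ ^ 2 + η * ‖a‖ ^ 2 := by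
    have := norm_sub_norm_le (ψ * ((‖ζ‖ ^ 2 : ℝ) : ℂ)) (((‖p' l (b ζ)‖ ^ 2 : ℝ) : ℂ))
    rw [norm_sub_rev, norm_mul, Complex.norm_real, Complex.norm_real,
      Real.norm_of_nonneg (by positivity), Real.norm_of_nonneg (by positivity)] at this
    linarith
  have h13 : β ^ 2 * (α / 2) ^ 2 ≤ ‖ψ‖ * ‖ζ‖ ^ 2 := by gcongr
  have h14 : ‖p' l (b ζ)‖ ^ 2 ≤ η * (1 + 2 * ‖b‖) ^ 2 := by
    calc _ ≤ (η + ‖b‖ * η) ^ 2 := by gcongr
      _ = η * η * (1 + ‖b‖) ^ 2 := by ring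
      _ ≤ η * 1 * (1 + 2 * ‖b‖) ^ 2 := by gcongr; linarith [norm_nonneg b]
      _ = _ := by ring
  have h15 : 0 < β ^ 2 * (α / 2) ^ 2 := by positivity
  nlinarith

variable {Ω : H} {N : StarSubalgebra ℂ (H →L[ℂ] H)} {P : Bool → ℕ → (H →L[ℂ] H)}
  {v : H →L[ℂ] H} {e : ℕ → (H →L[ℂ] H)}

/-- Excision passes to the extension. -/
theorem exc_ext (hB : TrOn Ω (ext N v)) (hNc : IsClosed (N : Set (H →L[ℂ] H)))
    (hD : Datum Ω N P) (hC : Conj P v) (hF : Free Ω N P v)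
    (he : IsPt Ω e) (heN : ∀ n, e n ∈ N) (h : ∀ a ∈ N, Exc e a) : ∀ x ∈ ext N v, Exc e x := by
  refine exc_ext_of_hyp hB hNc hD hC hF he heN (fun ε => ?_) h
  by_contra hcon
  push Not at hcon
  obtain ⟨⟨a, ha, h1⟩, ⟨b, hb, h2⟩⟩ := hcon
  obtain ⟨m, hm⟩ := not_van_trans (hD.pt ε) he (hD.pt (!ε))
    (fun l => h _ (mul_mem (mul_mem (star_mem hb) (hD.mem _ l)) hb)) h1 h2
  have := hD.perp' (!ε) (mul_mem (mul_mem hb (heN m)) ha)
  rw [Bool.not_not] at this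
  exact hm this

end Crest.Agent.R120
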