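import Crest.Agent.R120.Induct

/-! Row 120: transfer between unitary representations of the free group with equal moments. -/

set_option autoImplicit false
set_option linter.unusedSectionVars false
set_option linter.unusedSimpArgs false
set_option linter.unusedVariables false

open scoped InnerProductSpace
open Filter Topology Set

namespace Crest.Agent.R120

lemma adjoin_image_subset_span {G 𝔄 : Type*} [Group G] [Ring 𝔄] [StarRing 𝔄] [Algebra ℂ 𝔄]
    [StarModule ℂ 𝔄] (U : G →* 𝔄) (hU : ∀ g, star (U g) = U g⁻¹) (s : Set G) {x : 𝔄}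
    (hx : x ∈ StarAlgebra.adjoin ℂ (U '' s)) :
    x ∈ Submodule.span ℂ (U '' (Subgroup.closure s : Set G)) := by
  induction hx using StarAlgebra.adjoin_induction with
  | mem y hy =>
    obtain ⟨g, hg, rfl⟩ := hy
    exact Submodule.subset_span ⟨g, Subgroup.subset_closure hg, rfl⟩
  | algebraMap r =>
    rw [Algebra.algebraMap_eq_smul_one, ← map_one U]
    exact Submodule.smul_mem _ _ (Submodule.subset_span ⟨1, one_mem _, rfl⟩)
  | add a b _ _ ha hb => exact add_mem ha hb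
  | mul a b _ _ ha hb =>
    have := Submodule.mul_mem_mul ha hb
    rw [Submodule.span_mul_span] at this
    refine Submodule.span_mono ?_ this
    rintro _ ⟨_, ⟨g, hg, rfl⟩, _, ⟨h, hh, rfl⟩, rfl⟩
    exact ⟨g * h, mul_mem hg hh, map_mul U g h⟩
  | star a h0 ha =>
    clear h0
    induction ha using Submodule.span_induction with
    | mem y hy =>
      obtain ⟨g, hg, rfl⟩ := hy
      exact Submodule.subset_span ⟨g⁻¹, inv_mem hg, (hU g).symm⟩
    | zero => rw [star_zero]; exact zero_mem _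
    | add x y _ _ hx hy => rw [star_add]; exact add_mem hx hy
    | smul c x _ hx => rw [star_smul]; exact Submodule.smul_mem _ _ hx

lemma map_mem_of_closure {G 𝔄 : Type*} [Group G] [Ring 𝔄] [StarRing 𝔄] [Algebra ℂ 𝔄]
    [StarModule ℂ 𝔄] (U : G →* 𝔄) (hU : ∀ g, star (U g) = U g⁻¹) {s : Set G}
    {B : StarSubalgebra ℂ 𝔄} (h : ∀ g ∈ s, U g ∈ B) {g : G} (hg : g ∈ Subgroup.closure s) :
    U g ∈ B := by
  induction hg using Subgroup.closure_induction with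
  | mem x hx => exact h x hx
  | one => rw [map_one]; exact one_mem _
  | mul x y _ _ hx hy => rw [map_mul]; exact mul_mem hx hy
  | inv x _ hx => rw [← hU]; exact star_mem hx

variable {ι : Type*}

/-- The free group on the base letters and the stable letters. -/
abbrev FG (ι : Type*) := FreeGroup (ℕ ⊕ ι)

/-- The generators attached to an index set. -/
def gens (R : Set ι) : Set (FG ι) :=
  (range fun n : ℕ => FreeGroup.of (Sum.inl n)) ∪ (fun β => FreeGroup.of (Sum.inr β)) '' R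

lemma gens_mono {R R' : Set ι} (h : R ⊆ R') : gens R ⊆ gens R' :=
  union_subset_union_right _ (image_mono h)

lemma closure_gens_mono {R R' : Set ι} (h : R ⊆ R') :
    Subgroup.closure (gens R) ≤ Subgroup.closure (gens R') := Subgroup.closure_mono (gens_mono h)

lemma closure_gens_univ : Subgroup.closure (gens (univ : Set ι)) = ⊤ := by
  rw [← FreeGroup.closure_range_of]
  congr 1
  ext g
  simp only [gens, mem_union, mem_range, mem_image, mem_univ, true_and, Sum.exists]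

variable {H : Type*} [NormedAddCommGroup H] [InnerProductSpace ℂ H] [CompleteSpace H]
  {H' : Type*} [NormedAddCommGroup H'] [InnerProductSpace ℂ H'] [CompleteSpace H']

/-- The base operators. -/
def baseOf (U : FG ι →* (H →L[ℂ] H)) : Set (H →L[ℂ] H) :=
  range fun n : ℕ => U (FreeGroup.of (Sum.inl n))

/-- The stable letters. -/
def letOf (U : FG ι →* (H →L[ℂ] H)) (β : ι) : H →L[ℂ] H := U (FreeGroup.of (Sum.inr β))

/-- The algebra of an index set. -/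
noncomputable abbrev AlgOf (U : FG ι →* (H →L[ℂ] H)) (R : Set ι) :
    StarSubalgebra ℂ (H →L[ℂ] H) := Alg (baseOf U) (letOf U) R

lemma image_gens (U : FG ι →* (H →L[ℂ] H)) (R : Set ι) :
    U '' gens R = baseOf U ∪ letOf U '' R := by
  rw [gens, image_union, ← range_comp, image_image]; rfl

lemma mem_AlgOf (U : FG ι →* (H →L[ℂ] H)) (hU : ∀ g, star (U g) = U g⁻¹) {R : Set ι}
    {g : FG ι} (hg : g ∈ Subgroup.closure (gens R)) : U g ∈ AlgOf U R :=
  map_mem_of_closure U hU (fun g hg => subset_Alg R (image_gens U R ▸ mem_image_of_mem U hg)) hg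

lemma mem_closure_span_of_mem_AlgOf (U : FG ι →* (H →L[ℂ] H)) (hU : ∀ g, star (U g) = U g⁻¹)
    {R : Set ι} {x : H →L[ℂ] H} (hx : x ∈ AlgOf U R) :
    x ∈ closure (Submodule.span ℂ (U '' (Subgroup.closure (gens R) : Set (FG ι))) :
      Set (H →L[ℂ] H)) := by
  have hx' : x ∈ closure ((StarAlgebra.adjoin ℂ (baseOf U ∪ letOf U '' R) :
      StarSubalgebra ℂ (H →L[ℂ] H)) : Set (H →L[ℂ] H)) := hx
  rw [← image_gens] at hx'
  exact closure_mono (fun y hy => adjoin_image_subset_span U hU _ hy) hx'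

lemma map_mem_unitary (U : FG ι →* (H →L[ℂ] H)) (hU : ∀ g, star (U g) = U g⁻¹) (g : FG ι) :
    U g ∈ unitary (H →L[ℂ] H) := by
  rw [Unitary.mem_iff, hU, ← map_mul, ← map_mul, inv_mul_cancel, mul_inv_cancel, map_one]
  exact ⟨rfl, rfl⟩

/-- The joint algebra of two representations. -/
noncomputable def RelAlg (U : FG ι →* (H →L[ℂ] H)) (U' : FG ι →* (H' →L[ℂ] H')) (R : Set ι) :
    StarSubalgebra ℂ ((H →L[ℂ] H) × (H' →L[ℂ] H')) :=
  (StarAlgebra.adjoin ℂ (U.prod U' '' gens R)).topologicalClosure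

/-- Evaluation of a formal linear combination. -/
noncomputable def ev {𝔄 : Type*} [Ring 𝔄] [Algebra ℂ 𝔄] (U : FG ι →* 𝔄) :
    (FG ι →₀ ℂ) →ₗ[ℂ] 𝔄 := Finsupp.linearCombination ℂ U

/-- The code `c` describes the family `P`. -/
def Coded (U : FG ι →* (H →L[ℂ] H)) (R : Set ι) (c : Bool → ℕ → ℕ → (FG ι →₀ ℂ))
    (P : Bool → ℕ → (H →L[ℂ] H)) : Prop :=
  (∀ ε n k, ((c ε n k).support : Set (FG ι)) ⊆ Subgroup.closure (gens R)) ∧
    ∀ ε n, Tendsto (fun k => ev U (c ε n k)) atTop (𝓝 (P ε n))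

variable {U : FG ι →* (H →L[ℂ] H)} {U' : FG ι →* (H' →L[ℂ] H')} {R : Set ι} {Ω : H} {Ω' : H'}

lemma Coded.mono {R' : Set ι} {c : Bool → ℕ → ℕ → (FG ι →₀ ℂ)} {P : Bool → ℕ → (H →L[ℂ] H)}
    (h : Coded U R c P) (hR : R ⊆ R') : Coded U R' c P :=
  ⟨fun ε n k => (h.1 ε n k).trans (closure_gens_mono hR), h.2⟩

lemma Coded.unique {R' : Set ι} {c : Bool → ℕ → ℕ → (FG ι →₀ ℂ)}
    {P P' : Bool → ℕ → (H →L[ℂ] H)} (h : Coded U R c P) (h' : Coded U R' c P') : P = P' := by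
  funext ε n
  exact tendsto_nhds_unique (h.2 ε n) (h'.2 ε n)

lemma exists_coded (hU : ∀ g, star (U g) = U g⁻¹) {P : Bool → ℕ → (H →L[ℂ] H)}
    (hP : ∀ ε n, P ε n ∈ AlgOf U R) : ∃ c, Coded U R c P := by
  have : ∀ ε n, ∃ y : ℕ → (FG ι →₀ ℂ),
      (∀ k, ((y k).support : Set (FG ι)) ⊆ Subgroup.closure (gens R)) ∧
      Tendsto (fun k => ev U (y k)) atTop (𝓝 (P ε n)) := by
    intro ε n
    obtain ⟨a, ha, hlim⟩ := mem_closure_iff_seq_limit.1
      (mem_closure_span_of_mem_AlgOf U hU (hP ε n))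
    have h1 : ∀ k, ∃ y : FG ι →₀ ℂ,
        (y.support : Set (FG ι)) ⊆ Subgroup.closure (gens R) ∧ ev U y = a k := fun k =>
      (Finsupp.mem_span_image_iff_linearCombination ℂ).1 (ha k)
    choose y hy1 hy2 using h1
    exact ⟨y, hy1, by simpa only [hy2] using hlim⟩
  choose c hc1 hc2 using this
  exact ⟨c, hc1, hc2⟩

lemma isClosed_RelAlg : IsClosed (RelAlg U U' R : Set ((H →L[ℂ] H) × (H' →L[ℂ] H'))) :=
  StarSubalgebra.isClosed_topologicalClosure _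

lemma RelAlg_le {B : StarSubalgebra ℂ ((H →L[ℂ] H) × (H' →L[ℂ] H'))}
    (hB : IsClosed (B : Set ((H →L[ℂ] H) × (H' →L[ℂ] H'))))
    (h : ∀ g ∈ gens R, (U g, U' g) ∈ B) : RelAlg U U' R ≤ B :=
  StarSubalgebra.topologicalClosure_minimal (StarAlgebra.adjoin_le (by
    rintro _ ⟨g, hg, rfl⟩; exact h g hg)) hB

/-- Corresponding operators in two representations. -/
structure Rel (U : FG ι →* (H →L[ℂ] H)) (U' : FG ι →* (H' →L[ℂ] H')) (R : Set ι)
    (x : H →L[ℂ] H) (x' : H' →L[ℂ] H') : Prop where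
  mem : (x, x') ∈ RelAlg U U' R

lemma gen_mem_RelAlg {g : FG ι} (hg : g ∈ gens R) : (U g, U' g) ∈ RelAlg U U' R :=
  StarSubalgebra.le_topologicalClosure _ (StarAlgebra.subset_adjoin ℂ _ ⟨g, hg, rfl⟩)

namespace Rel

variable {x y : H →L[ℂ] H} {x' y' : H' →L[ℂ] H'}

lemma gen {g : FG ι} (hg : g ∈ gens R) : Rel U U' R (U g) (U' g) := ⟨gen_mem_RelAlg hg⟩

lemma mono {R' : Set ι} (hx : Rel U U' R x x') (h : R ⊆ R') : Rel U U' R' x x' :=
  ⟨RelAlg_le isClosed_RelAlg (fun _ hg => gen_mem_RelAlg (gens_mono h hg)) hx.mem⟩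

lemma mul (hx : Rel U U' R x x') (hy : Rel U U' R y y') : Rel U U' R (x * y) (x' * y') := by
  have := mul_mem hx.mem hy.mem
  rw [Prod.mk_mul_mk] at this
  exact ⟨this⟩

lemma sub (hx : Rel U U' R x x') (hy : Rel U U' R y y') : Rel U U' R (x - y) (x' - y') := by
  have := sub_mem hx.mem hy.mem
  rw [Prod.mk_sub_mk] at this
  exact ⟨this⟩

lemma smul (c : ℂ) (hx : Rel U U' R x x') : Rel U U' R (c • x) (c • x') := by
  have := SMulMemClass.smul_mem c hx.mem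
  rw [Prod.smul_mk] at this
  exact ⟨this⟩

lemma one : Rel U U' R 1 1 := ⟨one_mem (RelAlg U U' R)⟩

protected lemma star (hx : Rel U U' R x x') : Rel U U' R (star x) (star x') := by
  have := star_mem hx.mem
  rw [Prod.star_def] at this
  exact ⟨this⟩

lemma swap (h : Rel U U' R x x') : Rel U' U R x' x := by
  let f : ((H →L[ℂ] H) × (H' →L[ℂ] H')) →⋆ₐ[ℂ] ((H' →L[ℂ] H') × (H →L[ℂ] H)) :=
    (StarAlgHom.snd ℂ _ _).prod (StarAlgHom.fst ℂ _ _)
  have hf : Continuous f := continuous_swap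
  exact ⟨RelAlg_le (B := (RelAlg U' U R).comap f) (isClosed_RelAlg.preimage hf)
    (fun _ hg => (gen_mem_RelAlg hg : (U' _, U _) ∈ RelAlg U' U R)) h.mem⟩

lemma fst_mem (h : Rel U U' R x x') : x ∈ AlgOf U R :=
  RelAlg_le (B := (AlgOf U R).comap (StarAlgHom.fst ℂ _ _))
    ((isClosed_Alg R).preimage continuous_fst)
    (fun g hg => subset_Alg R (image_gens U R ▸ mem_image_of_mem U hg)) h.mem

lemma snd_mem (h : Rel U U' R x x') : x' ∈ AlgOf U' R := h.swap.fst_mem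

end Rel

lemma prod_star (hU : ∀ g, star (U g) = U g⁻¹) (hU' : ∀ g, star (U' g) = U' g⁻¹) (g : FG ι) :
    star (U.prod U' g) = U.prod U' g⁻¹ := Prod.ext (hU g) (hU' g)

lemma ev_mem_Rel (hU : ∀ g, star (U g) = U g⁻¹) (hU' : ∀ g, star (U' g) = U' g⁻¹)
    {y : FG ι →₀ ℂ} (hy : (y.support : Set (FG ι)) ⊆ Subgroup.closure (gens R)) :
    Rel U U' R (ev U y) (ev U' y) := by
  constructor
  have : (ev U y, ev U' y) = ∑ g ∈ y.support, y g • (U g, U' g) := by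
    ext1
    · simp [ev, Finsupp.linearCombination_apply, Finsupp.sum, Prod.fst_sum]
    · simp [ev, Finsupp.linearCombination_apply, Finsupp.sum, Prod.snd_sum]
  rw [this]
  exact sum_mem fun g hg => SMulMemClass.smul_mem _
    (map_mem_of_closure (U.prod U') (prod_star hU hU') (fun _ h => gen_mem_RelAlg h) (hy hg))

/-- The two representations are unitary and have the same moments over `R`. -/
structure Agree (Ω : H) (U : FG ι →* (H →L[ℂ] H)) (Ω' : H') (U' : FG ι →* (H' →L[ℂ] H'))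
    (R : Set ι) : Prop where
  star₁ : ∀ g, star (U g) = U g⁻¹
  star₂ : ∀ g, star (U' g) = U' g⁻¹
  eq : ∀ g ∈ Subgroup.closure (gens R), tr Ω (U g) = tr Ω' (U' g)

namespace Agree

lemma symm (h : Agree Ω U Ω' U' R) : Agree Ω' U' Ω U R :=
  ⟨h.star₂, h.star₁, fun g hg => (h.eq g hg).symm⟩

lemma mono {R' : Set ι} (h : Agree Ω U Ω' U' R) (hR : R' ⊆ R) : Agree Ω U Ω' U' R' :=
  ⟨h.star₁, h.star₂, fun g hg => h.eq g (closure_gens_mono hR hg)⟩

lemma tr_eq (h : Agree Ω U Ω' U' R) {x : H →L[ℂ] H} {x' : H' →L[ℂ] H'}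
    (hx : Rel U U' R x x') : tr Ω x = tr Ω' x' := by
  let f : ((H →L[ℂ] H) × (H' →L[ℂ] H')) →L[ℂ] ℂ :=
    (tr Ω).comp (ContinuousLinearMap.fst ℂ _ _) - (tr Ω').comp (ContinuousLinearMap.snd ℂ _ _)
  have hf : ∀ z, f z = tr Ω z.1 - tr Ω' z.2 := fun z => rfl
  have hx' : (x, x') ∈ closure ((StarAlgebra.adjoin ℂ (U.prod U' '' gens R) :
      StarSubalgebra ℂ _) : Set ((H →L[ℂ] H) × (H' →L[ℂ] H'))) := hx.mem
  have : (x, x') ∈ (f.ker : Set _) := by
    refine closure_minimal (fun z hz => ?_) f.isClosed_ker hx'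
    refine (Submodule.span_le (p := f.ker)).2 ?_
      (adjoin_image_subset_span _ (prod_star h.star₁ h.star₂) _ hz)
    rintro _ ⟨g, hg, rfl⟩
    change f _ = 0
    rw [hf]
    exact sub_eq_zero.2 (h.eq g hg)
  exact sub_eq_zero.1 ((hf _).symm.trans this)

lemma norm_apply_eq (h : Agree Ω U Ω' U' R) {x : H →L[ℂ] H} {x' : H' →L[ℂ] H'}
    (hx : Rel U U' R x x') : ‖x Ω‖ = ‖x' Ω'‖ := by
  have := h.tr_eq (hx.star.mul hx)
  rw [tr_star_mul_self, tr_star_mul_self] at this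
  have h3 : ‖x Ω‖ ^ 2 = ‖x' Ω'‖ ^ 2 := by exact_mod_cast this
  exact (sq_eq_sq₀ (norm_nonneg _) (norm_nonneg _)).1 h3

lemma norm_le (h : Agree Ω U Ω' U' R) (hT : TrOn Ω' (AlgOf U' R)) {x : H →L[ℂ] H}
    {x' : H' →L[ℂ] H'} (hx : Rel U U' R x x') : ‖x'‖ ≤ ‖x‖ := by
  refine hT.norm_le_of_forall hx.snd_mem (norm_nonneg _) fun y' hy' => ?_
  let B : StarSubalgebra ℂ (H' →L[ℂ] H') :=
    (RelAlg U U' R).map (StarAlgHom.snd ℂ (H →L[ℂ] H) (H' →L[ℂ] H'))
  have h1 : y' ∈ B.topologicalClosure := by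
    refine Alg_le (B := B.topologicalClosure) B.isClosed_topologicalClosure ?_ hy'
    rw [← image_gens]
    rintro _ ⟨g, hg, rfl⟩
    exact StarSubalgebra.le_topologicalClosure _ ⟨_, gen_mem_RelAlg hg, rfl⟩
  have h2 : y' ∈ closure (B : Set (H' →L[ℂ] H')) := h1
  refine closure_minimal (t := {y' : H' →L[ℂ] H' | ‖x' (y' Ω')‖ ≤ ‖x‖ * ‖y' Ω'‖}) ?_
    (isClosed_le (by fun_prop) (by fun_prop)) h2
  rintro _ ⟨⟨w, w'⟩, hw, rfl⟩
  change ‖x' (w' Ω')‖ ≤ ‖x‖ * ‖w' Ω'‖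
  have h3 := h.norm_apply_eq (hx.mul ⟨hw⟩)
  rw [← h.norm_apply_eq ⟨hw⟩, ← mul_apply_eq_comp, ← h3]
  exact x.le_opNorm (w Ω)

lemma eq_of_eq (h : Agree Ω U Ω' U' R) (hT : TrOn Ω' (AlgOf U' R)) {x y : H →L[ℂ] H}
    {x' y' : H' →L[ℂ] H'} (hx : Rel U U' R x x') (hy : Rel U U' R y y')
    (hxy : x = y) : x' = y' := by
  have := h.norm_le hT (hx.sub hy)
  rw [hxy, sub_self, norm_zero] at this
  exact sub_eq_zero.1 (norm_le_zero_iff.1 this)

lemma exists_rel (h : Agree Ω U Ω' U' R) (hT : TrOn Ω' (AlgOf U' R)) {x : H →L[ℂ] H}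
    (hx : x ∈ AlgOf U R) : ∃ x', Rel U U' R x x' := by
  have hc : IsClosed (((RelAlg U U' R).map (StarAlgHom.fst ℂ _ _) : StarSubalgebra ℂ _) :
      Set (H →L[ℂ] H)) := by
    have : CompleteSpace (RelAlg U U' R) := isClosed_RelAlg.completeSpace_coe
    let f : RelAlg U U' R → (H →L[ℂ] H) := fun z => z.1.1
    have hf : Isometry f := by
      apply Isometry.of_dist_eq
      intro z w
      rw [Subtype.dist_eq, dist_eq_norm, dist_eq_norm, Prod.norm_def, max_eq_left]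
      · rfl
      · exact h.norm_le hT (x := (z.1 - w.1).1) (x' := (z.1 - w.1).2) ⟨sub_mem z.2 w.2⟩
    have e : (((RelAlg U U' R).map (StarAlgHom.fst ℂ _ _) : StarSubalgebra ℂ _) :
        Set (H →L[ℂ] H)) = range f := by
      ext y
      constructor
      · rintro ⟨z, hz, rfl⟩; exact ⟨⟨z, hz⟩, rfl⟩
      · rintro ⟨z, rfl⟩; exact ⟨z.1, z.2, rfl⟩
    rw [e]
    exact hf.isClosedEmbedding.isClosed_range
  have : x ∈ (RelAlg U U' R).map (StarAlgHom.fst ℂ _ _) := by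
    refine Alg_le hc ?_ hx
    rw [← image_gens]
    rintro _ ⟨g, hg, rfl⟩
    exact ⟨_, gen_mem_RelAlg hg, rfl⟩
  obtain ⟨z, hz, rfl⟩ := this
  exact ⟨z.2, ⟨hz⟩⟩

lemma isPt (h : Agree Ω U Ω' U' R) (hT : TrOn Ω' (AlgOf U' R)) {e : ℕ → (H →L[ℂ] H)}
    {e' : ℕ → (H' →L[ℂ] H')} (hr : ∀ n, Rel U U' R (e n) (e' n)) (he : IsPt Ω e) :
    IsPt Ω' e' := by
  refine ⟨fun n => ⟨?_, ?_⟩, ?_, fun n => ?_, ?_⟩
  · exact h.eq_of_eq hT ((hr n).mul (hr n)) (hr n) (he.mul_self n)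
  · exact h.eq_of_eq hT (hr n).star (hr n) (he.star_eq n)
  · exact h.eq_of_eq hT (hr 0) Rel.one he.zero
  · exact h.eq_of_eq hT ((hr n).mul (hr (n + 1))) (hr (n + 1)) (he.anti n)
  · rw [tendsto_zero_iff_norm_tendsto_zero]
    have := he.lim
    rw [tendsto_zero_iff_norm_tendsto_zero] at this
    exact this.congr fun n => h.norm_apply_eq (hr n)

lemma van (h : Agree Ω U Ω' U' R) (hT : TrOn Ω' (AlgOf U' R)) {e f : ℕ → (H →L[ℂ] H)}
    {e' f' : ℕ → (H' →L[ℂ] H')} (he : ∀ n, Rel U U' R (e n) (e' n))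
    (hf : ∀ n, Rel U U' R (f n) (f' n)) {a : H →L[ℂ] H} {a' : H' →L[ℂ] H'}
    (ha : Rel U U' R a a') (hv : Van e a f) : Van e' a' f' :=
  squeeze_zero_norm (fun n => h.norm_le hT (((he n).mul ha).mul (hf n)))
    (by simpa using Tendsto.norm hv)

lemma datum (h : Agree Ω U Ω' U' R) (hT₁ : TrOn Ω (AlgOf U R)) (hT : TrOn Ω' (AlgOf U' R))
    {P : Bool → ℕ → (H →L[ℂ] H)} {P' : Bool → ℕ → (H' →L[ℂ] H')}
    (hr : ∀ ε n, Rel U U' R (P ε n) (P' ε n)) (hD : Datum Ω (AlgOf U R) P) :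
    Datum Ω' (AlgOf U' R) P' := by
  refine ⟨fun ε => h.isPt hT (hr ε) (hD.pt ε), fun ε n => (hr ε n).snd_mem,
    fun ε a' ha' => ?_, fun a' ha' => ?_, fun n => ?_⟩
  · obtain ⟨a, ha⟩ := h.symm.exists_rel hT₁ ha'
    obtain ⟨c, hc⟩ := hD.exc ε a ha.snd_mem
    exact ⟨c, h.van hT (hr ε) (hr ε) (ha.swap.sub (Rel.one.smul c)) hc⟩
  · obtain ⟨a, ha⟩ := h.symm.exists_rel hT₁ ha'
    exact h.van hT (hr _) (hr _) ha.swap (hD.perp a ha.snd_mem)
  · rw [← h.tr_eq (hr true n), ← h.tr_eq (hr false n), hD.tr_eq]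

lemma coded (h : Agree Ω U Ω' U' R) (hT : TrOn Ω' (AlgOf U' R))
    {P : Bool → ℕ → (H →L[ℂ] H)} {P' : Bool → ℕ → (H' →L[ℂ] H')}
    (hr : ∀ ε n, Rel U U' R (P ε n) (P' ε n)) {c : Bool → ℕ → ℕ → (FG ι →₀ ℂ)}
    (hc : Coded U R c P) : Coded U' R c P' := by
  refine ⟨hc.1, fun ε n => ?_⟩
  have := hc.2 ε n
  rw [tendsto_iff_norm_sub_tendsto_zero] at this ⊢
  exact squeeze_zero (fun k => norm_nonneg _) (fun k => h.norm_le hT
    ((ev_mem_Rel h.star₁ h.star₂ (hc.1 ε n k)).sub (hr ε n))) this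

lemma code_prop (h : Agree Ω U Ω' U' R) (hT₁ : TrOn Ω (AlgOf U R)) (hT : TrOn Ω' (AlgOf U' R))
    {P : Bool → ℕ → (H →L[ℂ] H)} {P' : Bool → ℕ → (H' →L[ℂ] H')}
    (hr : ∀ ε n, Rel U U' R (P ε n) (P' ε n)) {c : Bool → ℕ → ℕ → (FG ι →₀ ℂ)}
    (hc : ∀ Q, Datum Ω (AlgOf U R) Q → Coded U R c Q → P = Q) :
    ∀ Q', Datum Ω' (AlgOf U' R) Q' → Coded U' R c Q' → P' = Q' := by
  intro Q' hD' hc'
  choose Q hQ using fun ε n => h.symm.exists_rel hT₁ (hD'.mem ε n)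
  have := hc Q (h.symm.datum hT hT₁ hQ hD') (h.symm.coded hT₁ hQ hc')
  funext ε n
  exact h.eq_of_eq hT (hr ε n) (hQ ε n).swap (by rw [this])

end Agree

variable [LinearOrder ι]

/-- Stage `β` is a free HNN extension that obeys the code `c` whenever the code is valid. -/
structure GoodSys (Ω : H) (U : FG ι →* (H →L[ℂ] H)) (β : ι)
    (c : Bool → ℕ → ℕ → (FG ι →₀ ℂ)) (P : Bool → ℕ → (H →L[ℂ] H)) : Prop where
  tr : TrOn Ω (AlgOf U (Iio β))
  datum : Datum Ω (AlgOf U (Iio β)) P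
  conj : Conj P (letOf U β)
  free : Free Ω (AlgOf U (Iio β)) P (letOf U β)
  code : ∀ Q, Datum Ω (AlgOf U (Iio β)) Q → Coded U (Iio β) c Q → P = Q

theorem GoodSys.transfer {β : ι} {c : Bool → ℕ → ℕ → (FG ι →₀ ℂ)}
    {P : Bool → ℕ → (H →L[ℂ] H)} (hG : GoodSys Ω U β c P) (h : Agree Ω U Ω' U' (Iic β))
    (hT : TrOn Ω' (AlgOf U' (Iic β))) : ∃ P', GoodSys Ω' U' β c P' := by
  have h₀ : Agree Ω U Ω' U' (Iio β) := h.mono Iio_subset_Iic_self
  have hT₀ : TrOn Ω' (AlgOf U' (Iio β)) := hT.mono (Alg_mono Iio_subset_Iic_self) (isClosed_Alg _)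
  choose P' hr using fun ε n => h₀.exists_rel hT₀ (hG.datum.mem ε n)
  have hup : ∀ {x x'}, Rel U U' (Iio β) x x' → Rel U U' (Iic β) x x' :=
    fun h => h.mono Iio_subset_Iic_self
  have hv : Rel U U' (Iic β) (letOf U β) (letOf U' β) :=
    Rel.gen (Or.inr ⟨β, mem_Iic.2 le_rfl, rfl⟩)
  have hus : ∀ ε, Rel U U' (Iic β) (us (letOf U β) ε) (us (letOf U' β) ε) := by
    intro ε
    cases ε
    · exact hv.star
    · exact hv
  refine ⟨P', hT₀, h₀.datum hG.tr hT₀ hr hG.datum, ⟨map_mem_unitary U' h.star₂ _, fun n => ?_⟩,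
    ?_, h₀.code_prop hG.tr hT₀ hr hG.code⟩
  · exact h.eq_of_eq hT (hv.mul (hup (hr false n))) ((hup (hr true n)).mul hv)
      (hG.conj.conj n)
  · have key : ∀ ε W', RW Ω' (AlgOf U' (Iio β)) P' (letOf U' β) ε W' →
        ∃ W, RW Ω (AlgOf U (Iio β)) P (letOf U β) ε W ∧ Rel U U' (Iic β) W W' := by
      intro ε W' hW'
      induction hW' with
      | base ε => exact ⟨_, RW.base ε, hus ε⟩
      | step ε ε' a' W' ha' hc _ ih =>
        obtain ⟨W, hW, hWW⟩ := ih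
        obtain ⟨a, ha⟩ := h₀.symm.exists_rel hG.tr ha'
        refine ⟨_, RW.step ε ε' a W ha.snd_mem (fun he n => ?_) hW,
          ((hus ε).mul (hup ha.swap)).mul hWW⟩
        rw [h₀.tr_eq ((hr ε' n).mul ha.swap)]
        exact hc he n
    intro ε W' hW' a' ha' b' hb'
    obtain ⟨W, hW, hWW⟩ := key ε W' hW'
    obtain ⟨a, ha⟩ := h₀.symm.exists_rel hG.tr ha'
    obtain ⟨b, hb⟩ := h₀.symm.exists_rel hG.tr hb'
    rw [← h.tr_eq (((hup ha.swap).mul hWW).mul (hup hb.swap))]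
    exact hG.free ε W hW a ha.snd_mem b hb.snd_mem

end Crest.Agent.R120
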