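import Crest.Agent.R120.Decomp

/-! Row 120: reduced words of an HNN extension, their span, and traciality. -/

set_option autoImplicit false
set_option linter.unusedSectionVars false
set_option linter.unusedSimpArgs false

open scoped InnerProductSpace
open Filter Topology

namespace Crest.Agent.R120

variable {H : Type*} [NormedAddCommGroup H] [InnerProductSpace ℂ H] [CompleteSpace H]

/-- `v` or its adjoint according to a sign. -/
noncomputable def us (v : H →L[ℂ] H) (ε : Bool) : H →L[ℂ] H := cond ε v (star v)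

@[simp] lemma us_true (v : H →L[ℂ] H) : us v true = v := rfl
@[simp] lemma us_false (v : H →L[ℂ] H) : us v false = star v := rfl

lemma star_us (v : H →L[ℂ] H) (ε : Bool) : star (us v ε) = us v (!ε) := by
  cases ε <;> simp

/-- Two disjoint excising sequences with equal traces. -/
structure Datum (Ω : H) (N : StarSubalgebra ℂ (H →L[ℂ] H)) (P : Bool → ℕ → (H →L[ℂ] H)) :
    Prop where
  pt : ∀ ε, IsPt Ω (P ε)
  mem : ∀ ε n, P ε n ∈ N
  exc : ∀ ε, ∀ a ∈ N, Exc (P ε) a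
  perp : ∀ a ∈ N, Van (P true) a (P false)
  tr_eq : ∀ n, tr Ω (P true n) = tr Ω (P false n)

/-- The unitary `v` conjugates one sequence to the other. -/
structure Conj (P : Bool → ℕ → (H →L[ℂ] H)) (v : H →L[ℂ] H) : Prop where
  unit : v ∈ unitary (H →L[ℂ] H)
  conj : ∀ n, v * P false n = P true n * v

/-- Reduced words that begin and end with a stable letter; the index is the first sign. -/
inductive RW (Ω : H) (N : StarSubalgebra ℂ (H →L[ℂ] H)) (P : Bool → ℕ → (H →L[ℂ] H))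
    (v : H →L[ℂ] H) : Bool → (H →L[ℂ] H) → Prop
  | base (ε : Bool) : RW Ω N P v ε (us v ε)
  | step (ε ε' : Bool) (a W : H →L[ℂ] H) : a ∈ N → (ε' = !ε → Cen Ω (P ε') a) →
      RW Ω N P v ε' W → RW Ω N P v ε (us v ε * a * W)

/-- All reduced words have trace zero. -/
def Free (Ω : H) (N : StarSubalgebra ℂ (H →L[ℂ] H)) (P : Bool → ℕ → (H →L[ℂ] H))
    (v : H →L[ℂ] H) : Prop :=
  ∀ ε W, RW Ω N P v ε W → ∀ a ∈ N, ∀ a' ∈ N, tr Ω (a * W * a') = 0

/-- The closed algebra generated by `N` and `v`. -/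
noncomputable def ext (N : StarSubalgebra ℂ (H →L[ℂ] H)) (v : H →L[ℂ] H) :
    StarSubalgebra ℂ (H →L[ℂ] H) :=
  (StarAlgebra.adjoin ℂ (insert v (N : Set (H →L[ℂ] H)))).topologicalClosure

variable {Ω : H} {N : StarSubalgebra ℂ (H →L[ℂ] H)} {P : Bool → ℕ → (H →L[ℂ] H)}
  {v : H →L[ℂ] H}

lemma isClosed_ext (N : StarSubalgebra ℂ (H →L[ℂ] H)) (v : H →L[ℂ] H) :
    IsClosed (ext N v : Set (H →L[ℂ] H)) := StarSubalgebra.isClosed_topologicalClosure _

lemma le_ext (N : StarSubalgebra ℂ (H →L[ℂ] H)) (v : H →L[ℂ] H) : N ≤ ext N v := fun _ ha =>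
  StarSubalgebra.le_topologicalClosure _ (StarAlgebra.subset_adjoin ℂ _ (Or.inr ha))

lemma self_mem_ext (N : StarSubalgebra ℂ (H →L[ℂ] H)) (v : H →L[ℂ] H) : v ∈ ext N v :=
  StarSubalgebra.le_topologicalClosure _ (StarAlgebra.subset_adjoin ℂ _ (Or.inl rfl))

lemma us_mem {B : StarSubalgebra ℂ (H →L[ℂ] H)} (hv : v ∈ B) (ε : Bool) : us v ε ∈ B := by
  cases ε
  · exact star_mem hv
  · exact hv

lemma ext_le {B : StarSubalgebra ℂ (H →L[ℂ] H)} (hB : IsClosed (B : Set (H →L[ℂ] H)))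
    (hN : N ≤ B) (hv : v ∈ B) : ext N v ≤ B :=
  StarSubalgebra.topologicalClosure_minimal
    (StarAlgebra.adjoin_le (Set.insert_subset hv hN)) hB

lemma adjoin_insert_subset (C : Subalgebra ℂ (H →L[ℂ] H)) (hN : ∀ a ∈ N, a ∈ C)
    (hv : ∀ ε, us v ε ∈ C) :
    ∀ x ∈ StarAlgebra.adjoin ℂ (insert v (N : Set (H →L[ℂ] H))), x ∈ C := by
  intro x hx
  have h1 : x ∈ (StarAlgebra.adjoin ℂ (insert v (N : Set (H →L[ℂ] H)))).toSubalgebra := hx
  rw [StarAlgebra.adjoin_toSubalgebra] at h1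
  refine Algebra.adjoin_le (S := C) ?_ h1
  rintro y (hy | hy)
  · rcases hy with rfl | hy
    · exact hv true
    · exact hN y hy
  · rw [Set.mem_star] at hy
    rcases hy with hy | hy
    · have : y = us v false := by rw [us_false, ← hy, star_star]
      rw [this]; exact hv false
    · have := hN _ (star_mem (show star y ∈ N from hy))
      rwa [star_star] at this

lemma ext_subset (C : Subalgebra ℂ (H →L[ℂ] H)) (hC : IsClosed (C : Set (H →L[ℂ] H)))
    (hN : ∀ a ∈ N, a ∈ C) (hv : ∀ ε, us v ε ∈ C) : ∀ x ∈ ext N v, x ∈ C := fun _ hx =>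
  closure_minimal (adjoin_insert_subset C hN hv) hC hx

lemma RW.mem {B : StarSubalgebra ℂ (H →L[ℂ] H)} (hN : N ≤ B) (hv : v ∈ B) {ε : Bool}
    {W : H →L[ℂ] H} (h : RW Ω N P v ε W) : W ∈ B := by
  induction h with
  | base ε => exact us_mem hv ε
  | step ε ε' a W ha _ _ ih => exact mul_mem (mul_mem (us_mem hv ε) (hN ha)) ih

lemma RW.mono {N' : StarSubalgebra ℂ (H →L[ℂ] H)} (hN : N ≤ N') {ε : Bool}
    {W : H →L[ℂ] H} (h : RW Ω N P v ε W) : RW Ω N' P v ε W := by
  induction h with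
  | base ε => exact RW.base ε
  | step ε ε' a W ha hc _ ih => exact RW.step ε ε' a W (hN ha) hc ih

lemma Free.mono {N' : StarSubalgebra ℂ (H →L[ℂ] H)} (hN : N ≤ N') (h : Free Ω N' P v) :
    Free Ω N P v := fun ε W hW a ha a' ha' => h ε W (hW.mono hN) a (hN ha) a' (hN ha')

lemma Datum.mono {N' : StarSubalgebra ℂ (H →L[ℂ] H)} (hN : N ≤ N') (h : Datum Ω N' P)
    (hm : ∀ ε n, P ε n ∈ N) : Datum Ω N P :=
  ⟨h.pt, hm, fun ε a ha => h.exc ε a (hN ha), fun a ha => h.perp a (hN ha), h.tr_eq⟩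

lemma Datum.perp' (h : Datum Ω N P) (ε : Bool) {a : H →L[ℂ] H} (ha : a ∈ N) :
    Van (P ε) a (P (!ε)) := by
  cases ε
  · have := (h.perp _ (star_mem ha)).star (h.pt _) (h.pt _)
    rwa [star_star] at this
  · exact h.perp a ha

lemma Datum.tr_eq' (h : Datum Ω N P) (ε : Bool) (n : ℕ) : tr Ω (P ε n) = tr Ω (P (!ε) n) := by
  cases ε
  · exact (h.tr_eq n).symm
  · exact h.tr_eq n

lemma Datum.decomp (hN : TrOn Ω N) (h : Datum Ω N P) (ε : Bool) {a : H →L[ℂ] H} (ha : a ∈ N) :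
    ∃ d ∈ Dsp (P ε), Cen Ω (P ε) (a - d) := by
  obtain ⟨d, hd, hc, -⟩ := exists_decomp hN (h.pt ε) (h.mem ε) ha (h.exc ε a ha)
  exact ⟨d, hd, hc⟩

lemma Datum.Dsp_mem (hN : TrOn Ω N) (h : Datum Ω N P) {ε : Bool} {d : H →L[ℂ] H}
    (hd : d ∈ Dsp (P ε)) : d ∈ N := Dsp_mem_alg hN.closed (h.mem ε) hd

/-- The letter between two consecutive stable letters has vanishing compressions. -/
lemma Datum.van_letter (hN : TrOn Ω N) (h : Datum Ω N P) {ε ε' : Bool} {a : H →L[ℂ] H}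
    (ha : a ∈ N) (hc : ε' = !ε → Cen Ω (P ε') a) : Van (P (!ε)) a (P ε') := by
  by_cases he : ε' = !ε
  · subst he
    exact van_of_cen hN (h.pt _) (h.mem _) ha (h.exc _ a ha) (hc rfl)
  · have : ε' = ε := by cases ε <;> cases ε' <;> simp_all
    subst this
    have := h.perp' (!ε') ha
    rwa [Bool.not_not] at this

namespace Conj

lemma us_mul_not (h : Conj P v) (ε : Bool) : us v ε * us v (!ε) = 1 := by
  cases ε
  · exact (Unitary.mem_iff.1 h.unit).1
  · exact (Unitary.mem_iff.1 h.unit).2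

lemma not_mul_us (h : Conj P v) (ε : Bool) : us v (!ε) * us v ε = 1 := by
  have := h.us_mul_not (!ε)
  rwa [Bool.not_not] at this

lemma norm_us_le (h : Conj P v) (ε : Bool) : ‖us v ε‖ ≤ 1 := by
  have h1 : ‖star (us v ε) * us v ε‖ = ‖us v ε‖ * ‖us v ε‖ := CStarRing.norm_star_mul_self
  rw [star_us, h.not_mul_us] at h1
  have h2 : ‖(1 : H →L[ℂ] H)‖ ≤ 1 := ContinuousLinearMap.norm_id_le
  nlinarith [norm_nonneg (us v ε)]

lemma us_mul_P (h : Conj P v) (ε : Bool) (n : ℕ) : us v ε * P (!ε) n = P ε n * us v ε := by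
  cases ε
  · have h1 := h.conj n
    have h2 := h.us_mul_not false
    have h3 := h.us_mul_not true
    simp only [us_true, us_false, Bool.not_false, Bool.not_true] at *
    calc star v * P true n = star v * (P true n * v) * star v := by
          rw [mul_assoc, mul_assoc, h3, mul_one]
      _ = (star v * v) * P false n * star v := by rw [← h1]; noncomm_ring
      _ = _ := by rw [h2, one_mul]
  · exact h.conj n

lemma conj_P (h : Conj P v) (ε : Bool) (n : ℕ) : us v (!ε) * P ε n * us v ε = P (!ε) n := by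
  have := h.us_mul_P (!ε) n
  rw [Bool.not_not] at this
  rw [this, mul_assoc, h.not_mul_us, mul_one]

lemma conj_Dsp (h : Conj P v) {ε : Bool} {d : H →L[ℂ] H} (hd : d ∈ Dsp (P ε)) :
    us v (!ε) * d * us v ε ∈ Dsp (P (!ε)) :=
  Dsp_map (ContinuousLinearMap.mulLeftRight ℂ (H →L[ℂ] H) (us v (!ε)) (us v ε))
    (isClosed_Dsp _) (fun n => by
      rw [ContinuousLinearMap.mulLeftRight_apply, h.conj_P]; exact mem_Dsp _ n) hd

lemma tr_conj_Dsp (h : Conj P v) (hD : Datum Ω N P) {ε : Bool} {d : H →L[ℂ] H}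
    (hd : d ∈ Dsp (P ε)) : tr Ω (us v (!ε) * d * us v ε) = tr Ω d := by
  have := Dsp_eq_zero (p := P ε) ((tr Ω).comp
    (ContinuousLinearMap.mulLeftRight ℂ (H →L[ℂ] H) (us v (!ε)) (us v ε)) - tr Ω)
    (fun n => by
      simp only [sub_apply, ContinuousLinearMap.comp_apply,
        ContinuousLinearMap.mulLeftRight_apply, h.conj_P, ← hD.tr_eq' ε n, sub_self]) hd
  simpa [sub_eq_zero] using this

lemma Dsp_mul_us (h : Conj P v) (ε : Bool) (d : H →L[ℂ] H) :
    d * us v ε = us v ε * (us v (!ε) * d * us v ε) := by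
  rw [← mul_assoc, ← mul_assoc, h.us_mul_not, one_mul]

end Conj

/-- A diagonal element can be absorbed by a reduced word. -/
lemma RW.Dsp_mul (hN : TrOn Ω N) (hD : Datum Ω N P) (hC : Conj P v) {ε : Bool}
    {W : H →L[ℂ] H} (h : RW Ω N P v ε W) {d : H →L[ℂ] H} (hd : d ∈ Dsp (P ε)) :
    ∃ W', RW Ω N P v ε W' ∧ ∃ a' ∈ N, d * W = W' * a' := by
  have hd' := hC.conj_Dsp hd
  cases h with
  | base ε => exact ⟨_, RW.base ε, _, hD.Dsp_mem hN hd', hC.Dsp_mul_us ε d⟩
  | step ε ε' a W ha hc hW =>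
    refine ⟨_, RW.step ε ε' (us v (!ε) * d * us v ε * a) W (mul_mem (hD.Dsp_mem hN hd') ha)
      (fun he => ?_) hW, 1, one_mem _, ?_⟩
    · subst he; exact (hc rfl).mul_left (hD.pt _) hd'
    · rw [← mul_assoc, ← mul_assoc, hC.Dsp_mul_us ε d]; noncomm_ring

/-- The algebra generated by `N` and `v` is the closed span of `N` and the reduced words. -/
theorem ext_induction (hN : TrOn Ω N) (hD : Datum Ω N P) (hC : Conj P v)
    (V : Submodule ℂ (H →L[ℂ] H)) (hV : IsClosed (V : Set (H →L[ℂ] H)))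
    (h1 : ∀ a ∈ N, a ∈ V)
    (h2 : ∀ ε W, RW Ω N P v ε W → ∀ a ∈ N, ∀ a' ∈ N, a * W * a' ∈ V) :
    ∀ x ∈ ext N v, x ∈ V := by
  let s : Set (H →L[ℂ] H) :=
    (N : Set (H →L[ℂ] H)) ∪ {x | ∃ ε W, RW Ω N P v ε W ∧ ∃ a ∈ N, ∃ a' ∈ N, x = a * W * a'}
  let S : Submodule ℂ (H →L[ℂ] H) := Submodule.span ℂ s
  have hSN : ∀ a ∈ N, a ∈ S := fun a ha => Submodule.subset_span (Or.inl ha)
  have hSW : ∀ ε W, RW Ω N P v ε W → ∀ a ∈ N, ∀ a' ∈ N, a * W * a' ∈ S :=
    fun ε W hW a ha a' ha' => Submodule.subset_span (Or.inr ⟨ε, W, hW, a, ha, a', ha', rfl⟩)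
  have hSV : S ≤ V := by
    apply Submodule.span_le.2
    rintro x (hx | ⟨ε, W, hW, a, ha, a', ha', rfl⟩)
    · exact h1 x hx
    · exact h2 ε W hW a ha a' ha'
  let T : Subalgebra ℂ (H →L[ℂ] H) :=
    { carrier := {x | ∀ y ∈ S, x * y ∈ S}
      mul_mem' := fun {a b} ha hb y hy => by rw [mul_assoc]; exact ha _ (hb y hy)
      add_mem' := fun {a b} ha hb y hy => by rw [add_mul]; exact add_mem (ha y hy) (hb y hy)
      algebraMap_mem' := fun c y hy => by
        rw [Algebra.algebraMap_eq_smul_one, smul_mul_assoc, one_mul]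
        exact Submodule.smul_mem _ _ hy }
  have hT : ∀ x, (∀ y ∈ s, x * y ∈ S) → x ∈ T := by
    intro x hx y hy
    exact (Submodule.span_le (p := S.comap (LinearMap.mulLeft ℂ x))).2 hx hy
  have hTN : ∀ a ∈ N, a ∈ T := by
    intro a ha
    apply hT
    rintro y (hy | ⟨ε, W, hW, b, hb, b', hb', rfl⟩)
    · exact hSN _ (mul_mem ha hy)
    · rw [← mul_assoc, ← mul_assoc]; exact hSW ε W hW _ (mul_mem ha hb) _ hb'
  have hTv : ∀ σ, us v σ ∈ T := by
    intro σ
    apply hT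
    rintro y (hy | ⟨ε, W, hW, b, hb, b', hb', rfl⟩)
    · have := hSW σ _ (RW.base σ) 1 (one_mem _) y hy
      rwa [one_mul] at this
    · by_cases he : ε = !σ
      · subst he
        obtain ⟨d, hd, hc⟩ := hD.decomp hN (!σ) hb
        have hdN := hD.Dsp_mem hN hd
        have e1 : us v σ * (b * W * b') =
            1 * (us v σ * (b - d) * W) * b' + us v σ * d * W * b' := by noncomm_ring
        rw [e1]
        refine add_mem (hSW σ _ (RW.step σ (!σ) _ W (sub_mem hb hdN) (fun _ => hc) hW) 1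
          (one_mem _) _ hb') ?_
        have hd' := hC.conj_Dsp hd
        rw [Bool.not_not] at hd'
        have hd'N := hD.Dsp_mem hN hd'
        cases hW with
        | base _ => exact hSN _ (mul_mem hd'N hb')
        | step _ ε' a W ha hc hW =>
          have e2 : us v σ * d * (us v (!σ) * a * W) * b' =
              (us v σ * d * us v (!σ) * a) * W * b' := by noncomm_ring
          rw [e2]
          exact hSW ε' W hW _ (mul_mem hd'N ha) _ hb'
      · have e1 : us v σ * (b * W * b') = 1 * (us v σ * b * W) * b' := by noncomm_ring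
        rw [e1]
        exact hSW σ _ (RW.step σ ε _ W hb (fun h => absurd h he) hW) 1 (one_mem _) _ hb'
  intro x hx
  have hx' : x ∈ closure ((StarAlgebra.adjoin ℂ (insert v (N : Set (H →L[ℂ] H))) :
      StarSubalgebra ℂ (H →L[ℂ] H)) : Set (H →L[ℂ] H)) := hx
  refine closure_minimal (fun y hy => ?_) hV hx'
  have := adjoin_insert_subset T hTN hTv y hy 1 (hSN 1 (one_mem _))
  rw [mul_one] at this
  exact hSV this

lemma tr_conj_word (hN : TrOn Ω N) (hD : Datum Ω N P) (hC : Conj P v) (hF : Free Ω N P v)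
    (σ : Bool) {ε : Bool} {W : H →L[ℂ] H} (hW : RW Ω N P v ε W) {a₀ a : H →L[ℂ] H}
    (ha₀ : a₀ ∈ N) (ha : a ∈ N) : tr Ω (us v (!σ) * (a₀ * W * a) * us v σ) = 0 := by
  let Λ : Bool → (H →L[ℂ] H) → Prop := fun ε x =>
    (∀ ε' a₁ W', a₁ ∈ N → (ε' = !ε → Cen Ω (P ε') a₁) → RW Ω N P v ε' W' →
      ∀ a' ∈ N, tr Ω (x * (us v ε * a₁ * W') * a') = 0) ∧
    (∀ a' ∈ N, (ε = σ → Cen Ω (P (!σ)) a') → tr Ω (x * us v ε * a') = 0) ∧
    (ε = !σ → ∀ d ∈ Dsp (P (!σ)), tr Ω (x * d) = 0)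
  have key : ∀ ε W, RW Ω N P v ε W → ∀ x, Λ ε x → tr Ω (x * W * a * us v σ) = 0 := by
    intro ε W hW
    induction hW with
    | base ε =>
      rintro x ⟨h1, -, h3⟩
      by_cases he : ε = σ
      · subst he
        have := h1 ε a _ ha (fun h => absurd h (by simp)) (RW.base ε) 1 (one_mem _)
        rw [← this]; simp only [mul_assoc, mul_one, one_mul]
      · have he' : ε = !σ := by cases ε <;> cases σ <;> simp_all
        subst he'
        obtain ⟨d, hd, hc⟩ := hD.decomp hN σ ha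
        have h4 := h1 σ (a - d) _ (sub_mem ha (hD.Dsp_mem hN hd)) (fun _ => hc) (RW.base σ) 1
          (one_mem _)
        have h5 := h3 rfl _ (hC.conj_Dsp hd)
        have e : x * us v (!σ) * a * us v σ =
            x * (us v (!σ) * (a - d) * us v σ) * 1 + x * (us v (!σ) * d * us v σ) := by
          noncomm_ring
        rw [e, map_add, h4, h5, add_zero]
    | step ε ε' a₁ W' ha₁ hc hW' ih =>
      rintro x ⟨h1, h2, -⟩
      have := ih (x * us v ε * a₁) ⟨?_, ?_, ?_⟩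
      · rw [← this]; simp only [mul_assoc, mul_one, one_mul]
      · intro ε'' a₂ W'' ha₂ hc₂ hW'' a' ha'
        have := h1 ε' a₁ _ ha₁ hc (RW.step ε' ε'' a₂ W'' ha₂ hc₂ hW'') a' ha'
        rw [← this]; simp only [mul_assoc, mul_one, one_mul]
      · intro a' ha' _
        have := h1 ε' a₁ _ ha₁ hc (RW.base ε') a' ha'
        rw [← this]; simp only [mul_assoc, mul_one, one_mul]
      · intro he d hd
        subst he
        have := h2 (a₁ * d) (mul_mem ha₁ (hD.Dsp_mem hN hd)) (fun h => by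
          subst h; exact (hc rfl).mul_right hN (hD.pt _) (hD.mem _) ha₁ hd)
        rw [← this]; simp only [mul_assoc, mul_one, one_mul]
  have := key ε W hW (us v (!σ) * a₀) ⟨?_, ?_, ?_⟩
  · rw [← this]; simp only [mul_assoc, mul_one, one_mul]
  · intro ε' a₁ W' ha₁ hc hW' a' ha'
    have hW₁ := RW.step ε ε' a₁ W' ha₁ hc hW'
    by_cases he : ε = σ
    · subst he
      obtain ⟨d, hd, hcd⟩ := hD.decomp hN ε ha₀
      have h4 := hF _ _ (RW.step (!ε) ε (a₀ - d) _ (sub_mem ha₀ (hD.Dsp_mem hN hd))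
        (fun _ => hcd) hW₁) 1 (one_mem _) a' ha'
      have h5 := hF _ _ hW' _ (mul_mem (hD.Dsp_mem hN (hC.conj_Dsp hd)) ha₁) a' ha'
      have e : us v (!ε) * a₀ * (us v ε * a₁ * W') * a' =
          1 * (us v (!ε) * (a₀ - d) * (us v ε * a₁ * W')) * a' +
            us v (!ε) * d * us v ε * a₁ * W' * a' := by noncomm_ring
      rw [e, map_add, h4, h5, add_zero]
    · have := hF _ _ (RW.step (!σ) ε a₀ _ ha₀ (fun h => absurd h (by simpa using he)) hW₁) 1
        (one_mem _) a' ha'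
      rwa [one_mul] at this
  · intro a' ha' hc
    by_cases he : ε = σ
    · subst he
      obtain ⟨d, hd, hcd⟩ := hD.decomp hN ε ha₀
      have h4 := hF _ _ (RW.step (!ε) ε (a₀ - d) _ (sub_mem ha₀ (hD.Dsp_mem hN hd))
        (fun _ => hcd) (RW.base ε)) 1 (one_mem _) a' ha'
      have h5 := (hc rfl).of_Dsp (hC.conj_Dsp hd)
      have e : us v (!ε) * a₀ * us v ε * a' =
          1 * (us v (!ε) * (a₀ - d) * us v ε) * a' + us v (!ε) * d * us v ε * a' := by
        noncomm_ring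
      rw [e, map_add, h4, h5, add_zero]
    · have := hF _ _ (RW.step (!σ) ε a₀ _ ha₀ (fun h => absurd h (by simpa using he))
        (RW.base ε)) 1 (one_mem _) a' ha'
      rwa [one_mul] at this
  · intro _ d hd
    have := hF _ _ (RW.base (!σ)) 1 (one_mem _) _ (mul_mem ha₀ (hD.Dsp_mem hN hd))
    rw [← this]; simp only [mul_assoc, mul_one, one_mul]

/-- The vector functional is a trace on a free HNN extension. -/
theorem ext_tracial (hN : TrOn Ω N) (hD : Datum Ω N P) (hC : Conj P v) (hF : Free Ω N P v) :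
    ∀ x ∈ ext N v, ∀ y ∈ ext N v, tr Ω (x * y) = tr Ω (y * x) := by
  have h1 : ∀ a ∈ N, ∀ y ∈ ext N v, tr Ω (a * y) = tr Ω (y * a) := by
    intro a ha y hy
    let f : (H →L[ℂ] H) →L[ℂ] ℂ := (tr Ω).comp (ContinuousLinearMap.mul ℂ _ a) -
      (tr Ω).comp ((ContinuousLinearMap.mul ℂ _).flip a)
    have hf : ∀ y, f y = tr Ω (a * y) - tr Ω (y * a) := fun y => rfl
    have := ext_induction hN hD hC f.ker f.isClosed_ker (fun b hb => ?_)
      (fun ε W hW b hb b' hb' => ?_) y hy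
    · exact sub_eq_zero.1 ((hf y).symm.trans this)
    · change f b = 0
      rw [hf, hN.comm a ha b hb, sub_self]
    · change f _ = 0
      have e1 := hF ε W hW _ (mul_mem ha hb) _ hb'
      have e2 := hF ε W hW _ hb _ (mul_mem hb' ha)
      rw [hf, ← mul_assoc, ← mul_assoc, e1, mul_assoc _ b', e2, sub_self]
  have h2 : ∀ σ, ∀ y ∈ ext N v, tr Ω (us v (!σ) * y * us v σ) = tr Ω y := by
    intro σ y hy
    let f : (H →L[ℂ] H) →L[ℂ] ℂ := (tr Ω).comp
      (ContinuousLinearMap.mulLeftRight ℂ (H →L[ℂ] H) (us v (!σ)) (us v σ)) - tr Ω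
    have hf : ∀ y, f y = tr Ω (us v (!σ) * y * us v σ) - tr Ω y := fun y => rfl
    have := ext_induction hN hD hC f.ker f.isClosed_ker (fun b hb => ?_)
      (fun ε W hW b hb b' hb' => ?_) y hy
    · exact sub_eq_zero.1 ((hf y).symm.trans this)
    · change f b = 0
      obtain ⟨d, hd, hc⟩ := hD.decomp hN σ hb
      have e1 := hF _ _ (RW.step (!σ) σ (b - d) _ (sub_mem hb (hD.Dsp_mem hN hd))
        (fun _ => hc) (RW.base σ)) 1 (one_mem _) 1 (one_mem _)
      rw [one_mul, mul_one] at e1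
      have e2 := hc.tr_eq_zero (hD.pt σ)
      have e3 := hC.tr_conj_Dsp hD hd
      have e4 : f b = f (b - d) + f d := by rw [← map_add, sub_add_cancel]
      rw [e4, hf, hf, e1, e2, e3]; simp
    · change f _ = 0
      rw [hf, tr_conj_word hN hD hC hF σ hW hb hb', hF ε W hW b hb b' hb', sub_self]
  let C : Subalgebra ℂ (H →L[ℂ] H) :=
    { carrier := {x | x ∈ ext N v ∧ ∀ y ∈ ext N v, tr Ω (x * y) = tr Ω (y * x)}
      mul_mem' := fun {a b} ha hb => ⟨mul_mem ha.1 hb.1, fun y hy => by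
        rw [mul_assoc, ha.2 _ (mul_mem hb.1 hy), mul_assoc, hb.2 _ (mul_mem hy ha.1), mul_assoc]⟩
      add_mem' := fun {a b} ha hb => ⟨add_mem ha.1 hb.1, fun y hy => by
        rw [add_mul, mul_add, map_add, map_add, ha.2 y hy, hb.2 y hy]⟩
      algebraMap_mem' := fun c => ⟨algebraMap_mem _ c, fun y _ => by
        rw [Algebra.commutes]⟩ }
  have hCc : IsClosed (C : Set (H →L[ℂ] H)) := by
    have : (C : Set (H →L[ℂ] H)) = (ext N v : Set (H →L[ℂ] H)) ∩
        ⋂ y ∈ ext N v, {x | tr Ω (x * y) = tr Ω (y * x)} := by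
      ext x; simp [C]
    rw [this]
    refine (isClosed_ext N v).inter (isClosed_biInter fun y _ => isClosed_eq ?_ ?_) <;> fun_prop
  intro x hx
  refine (ext_subset C hCc (fun a ha => ⟨le_ext N v ha, h1 a ha⟩) (fun σ => ?_) x hx).2
  refine ⟨us_mem (self_mem_ext N v) σ, fun y hy => ?_⟩
  have := h2 σ _ (mul_mem (us_mem (self_mem_ext N v) σ) hy)
  rw [← this, ← mul_assoc, hC.not_mul_us, one_mul]

end Crest.Agent.R120
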